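import Crest.Agent.R225.LB.Defs

-- ▼ part R225/LB/NuBasic
section

/-!
Row 225, S0348, module D0: basic facts about the set function `nu` and about patterns.
-/

set_option autoImplicit false

namespace Crest.Agent.R225.LB

open MeasureTheory ProbabilityTheory Finset

lemma Q_nonneg' (s : ℝ) : 0 ≤ Q s := measureReal_nonneg

lemma nb_nu_nonneg {n : ℕ} (S : Set (EE n)) : 0 ≤ nu n S :=
  div_nonneg measureReal_nonneg (Q_nonneg' _)

lemma nb_nu_mono {n : ℕ} {S S' : Set (EE n)} (h : S ⊆ S') : nu n S ≤ nu n S' := by
  unfold nu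
  exact div_le_div_of_nonneg_right (measureReal_mono (Set.inter_subset_inter_left _ h))
    (Q_nonneg' _)

lemma nu_biUnion_le {n : ℕ} {ι : Type*} (s : Finset ι) (f : ι → Set (EE n)) :
    nu n (⋃ i ∈ s, f i) ≤ ∑ i ∈ s, nu n (f i) := by
  unfold nu
  rw [← Finset.sum_div]
  refine div_le_div_of_nonneg_right ?_ (Q_nonneg' _)
  have h : (⋃ i ∈ s, f i) ∩ box n = ⋃ i ∈ s, (f i ∩ box n) := by
    ext u; simp only [Set.mem_inter_iff, Set.mem_iUnion, exists_prop]; tauto
  rw [h]
  exact measureReal_biUnion_finset_le _ _

lemma nu_union_le {n : ℕ} (S S' : Set (EE n)) : nu n (S ∪ S') ≤ nu n S + nu n S' := by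
  unfold nu
  rw [← add_div, Set.union_inter_distrib_right]
  exact div_le_div_of_nonneg_right (measureReal_union_le _ _) (Q_nonneg' _)

lemma measurableSet_kill {n : ℕ} (z : EE n) : MeasurableSet (kill n z) := by
  have : IsClosed (kill n z) := by
    unfold kill
    exact isClosed_le continuous_const (by fun_prop)
  exact this.measurableSet

lemma mem_pat {n : ℕ} {G : Finset (EE n)} {u z : EE n} :
    z ∈ pat n G u ↔ z ∈ G ∧ u ∈ kill n z := by
  classical
  unfold pat
  rw [Finset.mem_filter]

lemma pat_mem_powerset {n : ℕ} (G : Finset (EE n)) (u : EE n) : pat n G u ∈ G.powerset := by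
  classical
  rw [Finset.mem_powerset]
  intro z hz
  exact (mem_pat.mp hz).1

lemma measurableSet_pat_eq {n : ℕ} (G : Finset (EE n)) (v : Finset (EE n)) :
    MeasurableSet {u | pat n G u = v} := by
  classical
  by_cases hv : v ⊆ G
  · have : {u | pat n G u = v} =
        ⋂ z ∈ G, (if z ∈ v then kill n z else (kill n z)ᶜ) := by
      ext u
      simp only [Set.mem_ofPred_eq, Set.mem_iInter]
      constructor
      · intro h z hz
        split_ifs with hzv
        · rw [← h] at hzv
          exact (mem_pat.mp hzv).2
        · intro hk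
          apply hzv
          rw [← h]
          exact mem_pat.mpr ⟨hz, hk⟩
      · intro h
        ext z
        rw [mem_pat]
        constructor
        · rintro ⟨hz, hk⟩
          have := h z hz
          by_contra hzv
          rw [if_neg hzv] at this
          exact this hk
        · intro hzv
          have := h z (hv hzv)
          rw [if_pos hzv] at this
          exact ⟨hv hzv, this⟩
    rw [this]
    refine Finset.measurableSet_biInter _ fun z _ => ?_
    split_ifs
    · exact measurableSet_kill z
    · exact (measurableSet_kill z).compl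
  · have : {u | pat n G u = v} = ∅ := by
      ext u
      simp only [Set.mem_ofPred_eq, Set.mem_empty_iff_false, iff_false]
      intro h
      exact hv (h ▸ Finset.mem_powerset.mp (pat_mem_powerset G u))
    rw [this]
    exact MeasurableSet.empty

/-- additivity of `nu` over patterns. -/
lemma nu_pat_mem {n : ℕ} (G : Finset (EE n)) (V : Finset (Finset (EE n))) :
    nu n {u | pat n G u ∈ V} = ∑ v ∈ V, nu n {u | pat n G u = v} := by
  unfold nu
  rw [← Finset.sum_div]
  congr 1
  have h : {u | pat n G u ∈ V} ∩ box n = ⋃ v ∈ V, ({u | pat n G u = v} ∩ box n) := by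
    ext u
    simp only [Set.mem_inter_iff, Set.mem_ofPred_eq, Set.mem_iUnion, exists_prop]
    constructor
    · rintro ⟨h1, h2⟩
      exact ⟨_, h1, rfl, h2⟩
    · rintro ⟨v, h1, h2, h3⟩
      exact ⟨h2 ▸ h1, h3⟩
  have hbox : MeasurableSet (box n) := by
    have : IsClosed (box n) := by
      have : box n = ⋂ i, {u : EE n | |u i| ≤ n} := by
        ext u; simp [box]
      rw [this]
      refine isClosed_iInter fun i => isClosed_le ?_ continuous_const
      have : Continuous fun u : EE n => u i := by
        fun_prop
      exact this.abs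
    exact this.measurableSet
  rw [h, measureReal_biUnion_finset]
  · intro v _ v' _ hne
    refine Set.disjoint_left.mpr ?_
    rintro u ⟨h1, _⟩ ⟨h2, _⟩
    exact hne (h1.symm.trans h2)
  · intro v _
    exact (measurableSet_pat_eq G v).inter hbox

lemma pp_nonneg {n : ℕ} (G : Finset (EE n)) (v : Finset (EE n)) : 0 ≤ pp n G v := by
  unfold pp
  have : Real.exp (- nu n {u | pat n G u = v}) ≤ 1 :=
    Real.exp_le_one_iff.mpr (neg_nonpos.mpr (nb_nu_nonneg _))
  linarith

lemma pp_le_one {n : ℕ} (G : Finset (EE n)) (v : Finset (EE n)) : pp n G v ≤ 1 := by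
  unfold pp
  have := Real.exp_pos (- nu n {u | pat n G u = v})
  linarith

lemma pp_le_nu {n : ℕ} (G : Finset (EE n)) (v : Finset (EE n)) :
    pp n G v ≤ nu n {u | pat n G u = v} := by
  unfold pp
  have := Real.add_one_le_exp (- nu n {u | pat n G u = v})
  linarith

/-- probability that no pattern of `V` is present. -/
lemma prod_one_sub_pp {n : ℕ} (G : Finset (EE n)) (V : Finset (Finset (EE n))) :
    ∏ v ∈ V, (1 - pp n G v) = Real.exp (- nu n {u | pat n G u ∈ V}) := by
  rw [nu_pat_mem, ← Finset.sum_neg_distrib, Real.exp_sum]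
  refine Finset.prod_congr rfl fun v _ => ?_
  unfold pp
  ring

lemma sum_pp_le {n : ℕ} (G : Finset (EE n)) (V : Finset (Finset (EE n))) :
    ∑ v ∈ V, pp n G v ≤ nu n {u | pat n G u ∈ V} := by
  rw [nu_pat_mem]
  exact Finset.sum_le_sum fun v _ => pp_le_nu G v

end Crest.Agent.R225.LB
end

-- ▼ part R225/LB/Cluster

/-!
Row 225, S0348, module C: the combinatorial cluster lemma.
-/

set_option autoImplicit false

namespace Crest.Agent.R225.LB

open Finset

theorem cluster {E : Type*} [PseudoMetricSpace E] [DecidableEq E] (I : Finset E) (ε : ℝ)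
    (k : ℕ) (hk : 1 ≤ k) :
    ∃ C : Finset (Finset E), (∀ S ∈ C, S ⊆ I ∧ k ≤ S.card ∧ ∃ x ∈ S, ∀ x' ∈ S, dist x' x ≤ ε) ∧
      C.card * k ≤ I.card ∧
      ∀ x ∈ I \ C.biUnion id, ((I \ C.biUnion id).filter (fun x' => dist x' x ≤ ε)).card < k := by
  induction I using Finset.strongInduction with
  | H I ih =>
    by_cases h : ∀ x ∈ I, (I.filter (fun x' => dist x' x ≤ ε)).card < k
    · refine ⟨∅, by simp, by simp, ?_⟩
      intro x hx
      simpa using h x (by simpa using hx)
    · push Not at h
      obtain ⟨x₀, hx₀, hc⟩ := h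
      set S := I.filter (fun x' => dist x' x₀ ≤ ε) with hS
      have hSI : S ⊆ I := Finset.filter_subset _ _
      have hSne : S.Nonempty := Finset.card_pos.mp (by omega)
      have hε : 0 ≤ ε := by
        obtain ⟨y, hy⟩ := hSne
        have := (Finset.mem_filter.mp hy).2
        exact dist_nonneg.trans this
      have hx₀S : x₀ ∈ S := by
        rw [hS, Finset.mem_filter]
        exact ⟨hx₀, by simpa using hε⟩
      have hss : I \ S ⊂ I := by
        refine Finset.sdiff_ssubset hSI hSne
      obtain ⟨C', h1, h2, h3⟩ := ih (I \ S) hss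
      have hnot : S ∉ C' := by
        intro hmem
        have := (h1 S hmem).1 hx₀S
        simp [hx₀S] at this
      have hU : I \ (insert S C').biUnion id = (I \ S) \ C'.biUnion id := by
        ext y
        simp only [Finset.biUnion_insert, Finset.mem_sdiff, Finset.mem_union, id, not_or]
        tauto
      refine ⟨insert S C', ?_, ?_, ?_⟩
      · intro T hT
        rcases Finset.mem_insert.mp hT with rfl | hT
        · exact ⟨hSI, hc, x₀, hx₀S, fun x' hx' => (Finset.mem_filter.mp hx').2⟩
        · obtain ⟨a, b, c⟩ := h1 T hT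
          exact ⟨a.trans Finset.sdiff_subset, b, c⟩
      · rw [Finset.card_insert_of_notMem hnot]
        have h4 : (I \ S).card + S.card = I.card := Finset.card_sdiff_add_card_eq_card hSI
        calc (C'.card + 1) * k = C'.card * k + k := by ring
          _ ≤ (I \ S).card + S.card := by omega
          _ = I.card := h4
      · rw [hU]
        exact h3

end Crest.Agent.R225.LB
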