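import Crest.Agent.R225.LB.Defs

/-!
Row 225, S0348: one-dimensional Gaussian tail facts and half-space measures.
-/

set_option autoImplicit false

namespace Crest.Agent.R225.LB

open MeasureTheory ProbabilityTheory Finset Filter Set

/-- standard normal density -/
noncomputable def ph (x : ℝ) : ℝ := gaussianPDFReal 0 1 x

theorem ph_eq (x : ℝ) : ph x = (√(2 * Real.pi))⁻¹ * Real.exp (-x ^ 2 / 2) := by
  simp [ph, gaussianPDFReal]

theorem ph_pos (x : ℝ) : 0 < ph x := gaussianPDFReal_pos _ _ _ one_ne_zero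

theorem ph_int : Integrable ph := integrable_gaussianPDFReal 0 1

theorem Q_eq (s : ℝ) : Q s = ∫ x in Set.Ioi s, ph x := by
  unfold Q Measure.real
  rw [gaussianReal_apply_eq_integral 0 one_ne_zero, ENNReal.toReal_ofReal, integral_Ici_eq_integral_Ioi]
  · rfl
  · exact setIntegral_nonneg measurableSet_Ici fun x _ => (ph_pos x).le

theorem ph_add (x a : ℝ) : ph (x + a) = Real.exp (-(a * x + a ^ 2 / 2)) * ph x := by
  rw [ph_eq, ph_eq]
  have : Real.exp (-(x + a) ^ 2 / 2) = Real.exp (-(a * x + a ^ 2 / 2)) * Real.exp (-x ^ 2 / 2) := by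
    rw [← Real.exp_add]; congr 1; ring
  rw [this]; ring

theorem Q_shift (s a : ℝ) : Q (s + a) = ∫ x in Set.Ioi s, ph (x + a) := by
  rw [Q_eq]
  have := (measurePreserving_add_right volume a).setIntegral_preimage_emb
    (MeasurableEquiv.addRight a).measurableEmbedding ph (Set.Ioi (s + a))
  rw [← this]
  congr 1
  congr 1
  ext x
  simp


theorem Q_anti {s t : ℝ} (h : s ≤ t) : Q t ≤ Q s :=
  measureReal_mono (Set.Ici_subset_Ici.2 h)

theorem ph_add_le {x a s : ℝ} (ha : 0 ≤ a) (hx : s ≤ x) :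
    ph (x + a) ≤ Real.exp (-(a * s)) * ph x := by
  rw [ph_add]
  refine mul_le_mul_of_nonneg_right (Real.exp_le_exp.2 ?_) (ph_pos x).le
  nlinarith [mul_le_mul_of_nonneg_left hx ha, sq_nonneg a]

theorem Q_add_le {s a : ℝ} (ha : 0 ≤ a) : Q (s + a) ≤ Real.exp (-(a * s)) * Q s := by
  rw [Q_shift, Q_eq, ← integral_const_mul]
  refine setIntegral_mono_on ?_ ?_ measurableSet_Ioi fun x hx => ph_add_le ha (le_of_lt hx)
  · exact (ph_int.comp_add_right a).integrableOn
  · exact (ph_int.const_mul _).integrableOn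

theorem Q_mills {s : ℝ} (hs : 0 < s) : Q s ≤ ph s / s := by
  rw [Q_eq]
  have h1 : ∀ x ∈ Set.Ioi s, ph x ≤ (ph s * Real.exp (s * s)) * Real.exp (-s * x) := by
    intro x hx
    have : x = s + (x - s) := by ring
    rw [this, ph_add, ← this]
    have h2 : Real.exp (-((x - s) * s + (x - s) ^ 2 / 2)) ≤ Real.exp (s * s) * Real.exp (-s * x) := by
      rw [← Real.exp_add]
      refine Real.exp_le_exp.2 ?_
      nlinarith [sq_nonneg (x - s)]
    calc _ ≤ (Real.exp (s * s) * Real.exp (-s * x)) * ph s :=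
          mul_le_mul_of_nonneg_right h2 (ph_pos s).le
      _ = _ := by ring
  have hneg : -s < 0 := by linarith
  calc ∫ x in Set.Ioi s, ph x ≤ ∫ x in Set.Ioi s, (ph s * Real.exp (s * s)) * Real.exp (-s * x) := by
        refine setIntegral_mono_on ph_int.integrableOn ?_ measurableSet_Ioi h1
        exact (integrableOn_exp_mul_Ioi hneg s).const_mul _
    _ = (ph s * Real.exp (s * s)) * (-Real.exp (-s * s) / (-s)) := by
        rw [integral_const_mul, integral_exp_mul_Ioi hneg]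
    _ = ph s / s := by
        rw [neg_div_neg_eq, neg_mul, Real.exp_neg]
        have := Real.exp_pos (s * s)
        field_simp

/-- lower bound by a piece of length `b`. -/
theorem Q_ge_piece {s b : ℝ} (hs : 0 ≤ s) (hb : 0 < b) : b * ph (s + b) ≤ Q s := by
  rw [Q_eq]
  calc b * ph (s + b) = ∫ _x in Set.Ioc s (s + b), ph (s + b) := by
        rw [setIntegral_const]; simp [Measure.real, hb.le]
    _ ≤ ∫ x in Set.Ioc s (s + b), ph x := by
        refine setIntegral_mono_on ?_ ph_int.integrableOn measurableSet_Ioc fun x hx => ?_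
        · exact (integrableOn_const (by simp))
        · rw [ph_eq, ph_eq]
          refine mul_le_mul_of_nonneg_left (Real.exp_le_exp.2 ?_) (by positivity)
          have h1 : 0 ≤ x := hs.trans hx.1.le
          nlinarith [hx.2]
    _ ≤ ∫ x in Set.Ioi s, ph x := by
        refine setIntegral_mono_set ph_int.integrableOn (ae_of_all _ fun x => (ph_pos x).le) ?_
        exact (Set.Ioc_subset_Ioi_self).eventuallyLE

theorem Q_add_ge {s a : ℝ} (hs : 0 < s) (ha : 0 ≤ a) :
    Real.exp (-(1 + a * s + (a + 1 / s) ^ 2 / 2)) * Q s ≤ Q (s + a) := by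
  have h1 : (1 / s) * ph (s + a + 1 / s) ≤ Q (s + a) := Q_ge_piece (by positivity) (by positivity)
  refine le_trans ?_ h1
  have h2 : ph (s + a + 1 / s) = Real.exp (-(1 + a * s + (a + 1 / s) ^ 2 / 2)) * ph s := by
    have : s + a + 1 / s = s + (a + 1 / s) := by ring
    rw [this, ph_add]
    congr 2
    field_simp
    ring
  rw [h2]
  calc _ ≤ Real.exp (-(1 + a * s + (a + 1 / s) ^ 2 / 2)) * (ph s / s) :=
        mul_le_mul_of_nonneg_left (Q_mills hs) (Real.exp_pos _).le
    _ = _ := by ring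

theorem inv_sqrt_two_pi_ge : Real.exp (-1) ≤ (√(2 * Real.pi))⁻¹ := by
  rw [Real.exp_neg]
  refine inv_anti₀ (by positivity) ?_
  rw [Real.sqrt_le_left (by positivity)]
  have h1 := Real.pi_lt_d2
  have h2 := Real.exp_one_gt_d9
  nlinarith


theorem Q_ge {s : ℝ} (hs : 1 ≤ s) : Real.exp (-3 - s ^ 2 / 2) / s ≤ Q s := by
  have h0 : 0 < s := by linarith
  have h1 : (1 / s) * ph (s + 1 / s) ≤ Q s := Q_ge_piece h0.le (by positivity)
  refine le_trans ?_ h1
  rw [ph_eq]
  have h2 : Real.exp (-2 - s ^ 2 / 2) ≤ Real.exp (-(s + 1 / s) ^ 2 / 2) := by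
    refine Real.exp_le_exp.2 ?_
    have h3 : (s + 1 / s) ^ 2 = s ^ 2 + 2 + (1 / s) ^ 2 := by field_simp; ring
    have h4 : (1 / s) ^ 2 ≤ 1 := by
      have h5 : 1 / s ≤ 1 := by rw [div_le_one h0]; exact hs
      have h6 : 0 ≤ 1 / s := by positivity
      nlinarith
    rw [neg_div, h3]
    linarith
  calc Real.exp (-3 - s ^ 2 / 2) / s = (1 / s) * (Real.exp (-1) * Real.exp (-2 - s ^ 2 / 2)) := by
        rw [← Real.exp_add, div_eq_mul_one_div, mul_comm]; congr 2; ring
    _ ≤ (1 / s) * ((√(2 * Real.pi))⁻¹ * Real.exp (-(s + 1 / s) ^ 2 / 2)) := by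
        refine mul_le_mul_of_nonneg_left ?_ (by positivity)
        exact mul_le_mul inv_sqrt_two_pi_ge h2 (Real.exp_pos _).le (by positivity)

theorem Q_pos (s : ℝ) : 0 < Q s := by
  have h := Q_ge (le_max_left 1 s)
  have h2 : Q (max 1 s) ≤ Q s := Q_anti (le_max_right 1 s)
  refine lt_of_lt_of_le ?_ (h.trans h2)
  have : (0:ℝ) < max 1 s := lt_of_lt_of_le one_pos (le_max_left 1 s)
  positivity

theorem Q_zero_le : Q 0 ≤ 1 := by
  unfold Q
  exact measureReal_le_one

theorem Q_le_exp {s : ℝ} (hs : 0 ≤ s) : Q s ≤ Real.exp (-s ^ 2 / 2) := by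
  -- direct: `ph (x + s) ≤ exp(-s²/2) ph x` for `x ≥ 0`
  have h := Q_shift 0 s
  rw [zero_add] at h
  rw [h]
  calc ∫ x in Set.Ioi (0:ℝ), ph (x + s) ≤ ∫ x in Set.Ioi (0:ℝ), Real.exp (-s ^ 2 / 2) * ph x := by
        refine setIntegral_mono_on ?_ ?_ measurableSet_Ioi fun x hx => ?_
        · exact (ph_int.comp_add_right s).integrableOn
        · exact (ph_int.const_mul _).integrableOn
        · rw [ph_add]
          refine mul_le_mul_of_nonneg_right (Real.exp_le_exp.2 ?_) (ph_pos x).le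
          have : 0 ≤ s * x := mul_nonneg hs (le_of_lt hx)
          linarith
    _ = Real.exp (-s ^ 2 / 2) * Q 0 := by rw [integral_const_mul, ← Q_eq]
    _ ≤ Real.exp (-s ^ 2 / 2) * 1 := mul_le_mul_of_nonneg_left Q_zero_le (Real.exp_pos _).le
    _ = _ := mul_one _

/-! ### The standard Gaussian measure on `EE n` -/

/-- shorthand for the standard Gaussian measure (real valued) -/
noncomputable def gam (n : ℕ) (S : Set (EE n)) : ℝ := (stdGaussian (EE n)).real S



theorem gam_mono {n : ℕ} {S T : Set (EE n)} (h : S ⊆ T) : gam n S ≤ gam n T :=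
  measureReal_mono h

theorem gam_union_le {n : ℕ} (S T : Set (EE n)) : gam n (S ∪ T) ≤ gam n S + gam n T :=
  measureReal_union_le S T

theorem gam_biUnion_le {n : ℕ} {ι : Type*} (F : Finset ι) (f : ι → Set (EE n)) :
    gam n (⋃ i ∈ F, f i) ≤ ∑ i ∈ F, gam n (f i) :=
  measureReal_biUnion_finset_le F f

/-- law of a unit functional -/
theorem map_inner_unit {n : ℕ} (e : EE n) (he : ‖e‖ = 1) :
    (stdGaussian (EE n)).map (fun u => inner ℝ u e) = gaussianReal 0 1 := by
  have h := IsGaussian.map_eq_gaussianReal (μ := stdGaussian (EE n)) (innerSL ℝ e)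
  have h1 : (fun u : EE n => inner ℝ u e) = (innerSL ℝ e : EE n → ℝ) := by
    ext u; simp [real_inner_comm]
  rw [h1, h]
  congr 1
  · exact integral_strongDual_stdGaussian _
  · rw [variance_dual_stdGaussian]
    simp [he]

theorem gam_halfspace_unit {n : ℕ} (e : EE n) (he : ‖e‖ = 1) (t : ℝ) :
    gam n {u | t ≤ inner ℝ u e} = Q t := by
  unfold gam Q
  rw [← map_inner_unit e he, map_measureReal_apply (by fun_prop) measurableSet_Ici]
  rfl

theorem gam_halfspace {n : ℕ} (z : EE n) (hz : z ≠ 0) (t : ℝ) :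
    gam n {u | t ≤ inner ℝ u z} = Q (t / ‖z‖) := by
  have hz' : 0 < ‖z‖ := norm_pos_iff.2 hz
  have he : ‖(‖z‖⁻¹ • z)‖ = 1 := by
    rw [norm_smul, norm_inv, norm_norm]; field_simp
  rw [← gam_halfspace_unit _ he]
  congr 1
  ext u
  simp only [mem_ofPred_eq, inner_smul_right]
  rw [div_le_iff₀ hz']
  constructor
  · intro h
    rw [mul_comm, ← mul_assoc, mul_inv_cancel₀ hz'.ne', one_mul]; exact h
  · intro h
    rw [mul_comm, ← mul_assoc, mul_inv_cancel₀ hz'.ne', one_mul] at h; exact h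

/-- For `z = 0` and positive `t` the half space is empty; Chernoff bound in general. -/
theorem gam_halfspace_le {n : ℕ} (z : EE n) {t : ℝ} (ht : 0 < t) :
    gam n {u | t ≤ inner ℝ u z} ≤ Real.exp (-(t / ‖z‖) ^ 2 / 2) := by
  rcases eq_or_ne z 0 with rfl | hz
  · have : {u : EE n | t ≤ inner ℝ u (0 : EE n)} = ∅ := by
      ext u; simp [ht]
    rw [this]; simp [gam]
  · rw [gam_halfspace z hz]
    exact Q_le_exp (by positivity)

theorem gam_box_compl (n : ℕ) : gam n (box n)ᶜ ≤ 2 * n * Real.exp (-(n : ℝ) ^ 2 / 2) := by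
  have h1 : (box n)ᶜ ⊆ ⋃ i ∈ (Finset.univ : Finset (Fin n)),
      ({u : EE n | (n : ℝ) ≤ inner ℝ u (EuclideanSpace.single i (1 : ℝ))} ∪
        {u : EE n | (n : ℝ) ≤ inner ℝ u (-EuclideanSpace.single i (1 : ℝ))}) := by
    intro u hu
    simp only [box, mem_compl_iff, mem_ofPred_eq, not_forall, not_le] at hu
    obtain ⟨i, hi⟩ := hu
    simp only [Finset.mem_univ, iUnion_true, mem_iUnion, mem_union, mem_ofPred_eq]
    refine ⟨i, ?_⟩
    have hin : inner ℝ u (EuclideanSpace.single i (1 : ℝ)) = u i := by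
      rw [EuclideanSpace.inner_single_right]; simp
    rcases lt_abs.1 hi with h | h
    · left; rw [hin]; exact h.le
    · right; rw [inner_neg_right, hin]; exact h.le
  refine (gam_mono h1).trans ((gam_biUnion_le _ _).trans ?_)
  calc ∑ i : Fin n, gam n _ ≤ ∑ _i : Fin n, 2 * Real.exp (-(n : ℝ) ^ 2 / 2) := by
        refine Finset.sum_le_sum fun i _ => (gam_union_le _ _).trans ?_
        rw [gam_halfspace_unit _ (by simp), gam_halfspace_unit _ (by simp), two_mul]
        exact add_le_add (Q_le_exp (by positivity)) (Q_le_exp (by positivity))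
    _ = _ := by
        rw [Finset.sum_const, Finset.card_univ, Fintype.card_fin, nsmul_eq_mul]; ring

theorem nu_nonneg (n : ℕ) (S : Set (EE n)) : 0 ≤ nu n S :=
  div_nonneg measureReal_nonneg (Q_pos _).le

theorem nu_le (n : ℕ) (S : Set (EE n)) : nu n S ≤ gam n S / Q (s0 n) :=
  div_le_div_of_nonneg_right (gam_mono inter_subset_left) (Q_pos _).le

theorem nu_mono {n : ℕ} {S T : Set (EE n)} (h : S ⊆ T) : nu n S ≤ nu n T :=
  div_le_div_of_nonneg_right (gam_mono (inter_subset_inter_left _ h)) (Q_pos _).le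

theorem s0_sq (n : ℕ) : s0 n ^ 2 = 25600 * n := by
  unfold s0
  rw [mul_pow, Real.sq_sqrt (by positivity)]; norm_num

theorem s0_pos {n : ℕ} (hn : 0 < n) : 0 < s0 n := by
  unfold s0; positivity

theorem one_le_s0 {n : ℕ} (hn : 0 < n) : 1 ≤ s0 n := by
  unfold s0
  have : 1 ≤ √(n:ℝ) := by
    rw [Real.one_le_sqrt]; exact_mod_cast hn
  linarith

theorem s0_le {n : ℕ} (hn : 0 < n) : s0 n ≤ 160 * n := by
  unfold s0
  have h : (1:ℝ) ≤ n := by exact_mod_cast hn
  have : √(n:ℝ) ≤ n := by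
    rw [Real.sqrt_le_left (by positivity)]; nlinarith
  linarith

theorem Q_s0_ge {n : ℕ} (hn : 0 < n) : Real.exp (-3 - 12800 * n) / s0 n ≤ Q (s0 n) := by
  have h := Q_ge (one_le_s0 hn)
  rw [s0_sq] at h
  have e : -3 - 25600 * (n:ℝ) / 2 = -3 - 12800 * n := by ring
  rwa [e] at h

theorem box_negl : ∀ᶠ n : ℕ in atTop, gam n (box n)ᶜ / Q (s0 n) ≤ Real.exp (-(n : ℝ)) := by
  filter_upwards [eventually_ge_atTop 40000] with n hn
  have hn0 : 0 < n := by omega
  have hnr : (40000 : ℝ) ≤ n := by exact_mod_cast hn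
  have hs := s0_pos hn0
  rw [div_le_iff₀ (Q_pos _)]
  refine (gam_box_compl n).trans ?_
  refine le_trans ?_ (mul_le_mul_of_nonneg_left (Q_s0_ge hn0) (Real.exp_pos _).le)
  rw [mul_div_assoc', le_div_iff₀ hs, ← Real.exp_add]
  have h1 : 2 * (n:ℝ) * s0 n ≤ Real.exp (n : ℝ) := by
    have h2 := s0_le hn0
    have h3 : (n:ℝ) ^ 3 / 6 ≤ Real.exp (n : ℝ) := by
      have := Real.pow_div_factorial_le_exp (n:ℝ) (by positivity) 3
      simpa [Nat.factorial] using this
    nlinarith [sq_nonneg ((n:ℝ))]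
  calc 2 * (n:ℝ) * Real.exp (-(n:ℝ) ^ 2 / 2) * s0 n = (2 * n * s0 n) * Real.exp (-(n:ℝ) ^ 2 / 2) := by
        ring
    _ ≤ Real.exp n * Real.exp (-(n:ℝ) ^ 2 / 2) :=
        mul_le_mul_of_nonneg_right h1 (Real.exp_pos _).le
    _ ≤ Real.exp (-n + (-3 - 12800 * n)) := by
        rw [← Real.exp_add]
        refine Real.exp_le_exp.2 ?_
        nlinarith

/-- the box is negligible for lower bounds. -/
theorem nu_ge : ∀ᶠ n : ℕ in atTop, ∀ S : Set (EE n),
    gam n S / Q (s0 n) - Real.exp (-(n : ℝ)) ≤ nu n S := by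
  filter_upwards [box_negl] with n hn S
  have h1 : gam n S ≤ gam n (S ∩ box n) + gam n (box n)ᶜ := by
    refine (gam_mono ?_).trans (gam_union_le _ _)
    intro u hu
    by_cases h : u ∈ box n
    · exact Or.inl ⟨hu, h⟩
    · exact Or.inr h
  have h2 : gam n S / Q (s0 n) ≤ nu n S + gam n (box n)ᶜ / Q (s0 n) := by
    unfold nu
    rw [← add_div]
    exact div_le_div_of_nonneg_right h1 (Q_pos _).le
  linarith

end Crest.Agent.R225.LB
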