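import Crest.Agent.R225.LB.Defs
import Crest.Agent.R225.LB.Cluster_Mg
import Crest.Agent.R225.LB.Gauss1

-- ▼ part R225/LB/Janson
section

/-!
Generalised Janson inequality for hitting events on a finite product space.
-/

set_option autoImplicit false
set_option linter.unusedVariables false

namespace Crest.Agent.R225.LB

open Finset

section basic

variable {α : Type*} [DecidableEq α] (p : α → ℝ)

theorem Ex_empty (f : Finset α → ℝ) : Ex p ∅ f = f ∅ := by
  simp [Ex]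

theorem Ex_insert {a : α} {s : Finset α} (ha : a ∉ s) (f : Finset α → ℝ) :
    Ex p (insert a s) f = (1 - p a) * Ex p s f + p a * Ex p s (fun t => f (insert a t)) := by
  unfold Ex
  rw [Finset.sum_powerset_insert ha, Finset.mul_sum, Finset.mul_sum]
  congr 1
  · refine Finset.sum_congr rfl fun t ht => ?_
    rw [Finset.mem_powerset] at ht
    have hat : a ∉ t := fun h => ha (ht h)
    rw [Finset.insert_sdiff_of_notMem _ hat, Finset.prod_insert (by simp [ha])]
    ring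
  · refine Finset.sum_congr rfl fun t ht => ?_
    rw [Finset.mem_powerset] at ht
    have hat : a ∉ t := fun h => ha (ht h)
    rw [Finset.prod_insert hat]
    have : insert a s \ insert a t = s \ t := by
      ext x
      simp only [Finset.mem_sdiff, Finset.mem_insert, not_or]
      constructor
      · rintro ⟨h1 | h1, h2, h3⟩
        · exact absurd h1 h2
        · exact ⟨h1, h3⟩
      · rintro ⟨h1, h2⟩
        exact ⟨Or.inr h1, fun h => ha (h ▸ h1), h2⟩
    rw [this]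
    ring

variable {p}

theorem Ex_congr {s : Finset α} {f g : Finset α → ℝ} (h : ∀ t ⊆ s, f t = g t) :
    Ex p s f = Ex p s g := by
  unfold Ex
  refine Finset.sum_congr rfl fun t ht => ?_
  rw [h t (Finset.mem_powerset.1 ht)]

theorem Ex_le (hp0 : ∀ a, 0 ≤ p a) (hp1 : ∀ a, p a ≤ 1) {s : Finset α} {f g : Finset α → ℝ}
    (h : ∀ t ⊆ s, f t ≤ g t) : Ex p s f ≤ Ex p s g := by
  unfold Ex
  refine Finset.sum_le_sum fun t ht => ?_
  refine mul_le_mul_of_nonneg_left (h t (Finset.mem_powerset.1 ht)) ?_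
  exact mul_nonneg (Finset.prod_nonneg fun a _ => hp0 a)
    (Finset.prod_nonneg fun a _ => by linarith [hp1 a])

variable (p)

theorem Ex_const_mul (s : Finset α) (c : ℝ) (f : Finset α → ℝ) :
    Ex p s (fun t => c * f t) = c * Ex p s f := by
  unfold Ex
  rw [Finset.mul_sum]
  exact Finset.sum_congr rfl fun t _ => by ring

theorem Ex_mul_const (s : Finset α) (c : ℝ) (f : Finset α → ℝ) :
    Ex p s (fun t => f t * c) = Ex p s f * c := by
  unfold Ex
  rw [Finset.sum_mul]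
  exact Finset.sum_congr rfl fun t _ => by ring


theorem Ex_sub (s : Finset α) (f g : Finset α → ℝ) :
    Ex p s (fun t => f t - g t) = Ex p s f - Ex p s g := by
  unfold Ex
  rw [← Finset.sum_sub_distrib]
  exact Finset.sum_congr rfl fun t _ => by ring

theorem Ex_sum {ι : Type*} (s : Finset α) (J : Finset ι) (f : ι → Finset α → ℝ) :
    Ex p s (fun t => ∑ j ∈ J, f j t) = ∑ j ∈ J, Ex p s (f j) := by
  unfold Ex
  rw [Finset.sum_comm]
  exact Finset.sum_congr rfl fun t _ => by rw [Finset.mul_sum]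

theorem Ex_const (s : Finset α) (c : ℝ) : Ex p s (fun _ => c) = c := by
  induction s using Finset.induction_on with
  | empty => simp [Ex_empty]
  | insert a s ha ih => rw [Ex_insert p ha, ih]; ring

theorem Ex_union {s₁ s₂ : Finset α} (h : Disjoint s₁ s₂) (f : Finset α → ℝ) :
    Ex p (s₁ ∪ s₂) f = Ex p s₁ (fun t₁ => Ex p s₂ (fun t₂ => f (t₁ ∪ t₂))) := by
  induction s₁ using Finset.induction_on generalizing f with
  | empty => simp [Ex_empty]
  | insert a s ha ih =>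
    rw [Finset.disjoint_insert_left] at h
    have h1 : a ∉ s ∪ s₂ := by simp [ha, h.1]
    rw [Finset.insert_union, Ex_insert p h1, Ex_insert p ha, ih h.2, ih h.2]
    simp only [Finset.insert_union]

theorem Ex_sdiff {s V : Finset α} (h : V ⊆ s) (f : Finset α → ℝ) :
    Ex p s f = Ex p V (fun t₁ => Ex p (s \ V) (fun t₂ => f (t₁ ∪ t₂))) := by
  rw [← Ex_union p Finset.disjoint_sdiff, Finset.union_sdiff_of_subset h]

variable {p}

theorem Ex_nonneg (hp0 : ∀ a, 0 ≤ p a) (hp1 : ∀ a, p a ≤ 1) {s : Finset α} {f : Finset α → ℝ}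
    (h : ∀ t ⊆ s, 0 ≤ f t) : 0 ≤ Ex p s f := by
  have := Ex_le (p := p) hp0 hp1 (s := s) (f := fun _ => 0) (g := f) h
  rwa [Ex_const] at this

/-- Harris inequality, increasing functions. -/
theorem harris (hp0 : ∀ a, 0 ≤ p a) (hp1 : ∀ a, p a ≤ 1) (s : Finset α)
    {f g : Finset α → ℝ} (hf : Monotone f) (hg : Monotone g) :
    Ex p s f * Ex p s g ≤ Ex p s (fun t => f t * g t) := by
  induction s using Finset.induction_on generalizing f g with
  | empty => simp [Ex_empty]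
  | insert a s ha ih =>
    have hf' : Monotone (fun t => f (insert a t)) := fun t t' h =>
      hf (Finset.insert_subset_insert a h)
    have hg' : Monotone (fun t => g (insert a t)) := fun t t' h =>
      hg (Finset.insert_subset_insert a h)
    rw [Ex_insert p ha, Ex_insert p ha, Ex_insert p ha]
    have h0 := ih hf hg
    have h1 := ih hf' hg'
    have hff : Ex p s f ≤ Ex p s (fun t => f (insert a t)) :=
      Ex_le hp0 hp1 fun t _ => hf (Finset.subset_insert a t)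
    have hgg : Ex p s g ≤ Ex p s (fun t => g (insert a t)) :=
      Ex_le hp0 hp1 fun t _ => hg (Finset.subset_insert a t)
    have hpa := hp0 a
    have hpa' := hp1 a
    set F0 := Ex p s f
    set G0 := Ex p s g
    set F1 := Ex p s (fun t => f (insert a t))
    set G1 := Ex p s (fun t => g (insert a t))
    set H0 := Ex p s (fun t => f t * g t)
    set H1 := Ex p s (fun t => f (insert a t) * g (insert a t))
    nlinarith [mul_nonneg (mul_nonneg hpa (sub_nonneg.2 hpa'))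
      (mul_nonneg (sub_nonneg.2 hff) (sub_nonneg.2 hgg)),
      mul_le_mul_of_nonneg_left h1 hpa, mul_le_mul_of_nonneg_left h0 (sub_nonneg.2 hpa')]

/-- Harris inequality, decreasing functions. -/
theorem harris_anti (hp0 : ∀ a, 0 ≤ p a) (hp1 : ∀ a, p a ≤ 1) (s : Finset α)
    {f g : Finset α → ℝ} (hf : Antitone f) (hg : Antitone g) :
    Ex p s f * Ex p s g ≤ Ex p s (fun t => f t * g t) := by
  have h := harris hp0 hp1 s (f := fun t => - f t) (g := fun t => - g t)
    (fun t t' h => neg_le_neg (hf h)) (fun t t' h => neg_le_neg (hg h))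
  have e1 : Ex p s (fun t => - f t) = - Ex p s f := by
    have := Ex_const_mul p s (-1) f
    simpa using this
  have e2 : Ex p s (fun t => - g t) = - Ex p s g := by
    have := Ex_const_mul p s (-1) g
    simpa using this
  rw [e1, e2] at h
  simpa using h

theorem harris_prod (hp0 : ∀ a, 0 ≤ p a) (hp1 : ∀ a, p a ≤ 1) (s : Finset α)
    {κ : Type*} (J : Finset κ) (f : κ → Finset α → ℝ) (hf : ∀ j ∈ J, Monotone (f j))
    (hf0 : ∀ j ∈ J, ∀ t, 0 ≤ f j t) :
    ∏ j ∈ J, Ex p s (f j) ≤ Ex p s (fun t => ∏ j ∈ J, f j t) := by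
  classical
  induction J using Finset.induction_on with
  | empty => simp [Ex_const]
  | insert j J hj ih =>
    rw [Finset.prod_insert hj]
    simp only [Finset.prod_insert hj]
    have ih' := ih (fun i hi => hf i (Finset.mem_insert_of_mem hi))
      (fun i hi => hf0 i (Finset.mem_insert_of_mem hi))
    have hm : Monotone (fun t => ∏ i ∈ J, f i t) := by
      intro t t' h
      exact Finset.prod_le_prod (fun i hi => hf0 i (Finset.mem_insert_of_mem hi) t)
        (fun i hi => hf i (Finset.mem_insert_of_mem hi) h)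
    refine le_trans ?_ (harris hp0 hp1 s (hf j (Finset.mem_insert_self _ _)) hm)
    exact mul_le_mul_of_nonneg_left ih'
      (Ex_nonneg hp0 hp1 fun t _ => hf0 j (Finset.mem_insert_self _ _) t)

/-- weighted Jensen for `exp (-x)` -/
theorem jensen_exp (hp0 : ∀ a, 0 ≤ p a) (hp1 : ∀ a, p a ≤ 1) (s : Finset α)
    (A X : Finset α → ℝ) (hA : ∀ t, 0 ≤ A t) (m : ℝ)
    (hm : Ex p s (fun t => A t * X t) ≤ m * Ex p s A) :
    Ex p s A * Real.exp (-m) ≤ Ex p s (fun t => A t * Real.exp (-X t)) := by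
  have h1 : Ex p s (fun t => A t * (Real.exp (-m) * (1 - (X t - m)))) ≤
      Ex p s (fun t => A t * Real.exp (-X t)) := by
    refine Ex_le hp0 hp1 fun t _ => mul_le_mul_of_nonneg_left ?_ (hA t)
    have h2 : -(X t - m) + 1 ≤ Real.exp (-(X t - m)) := Real.add_one_le_exp _
    have h3 : Real.exp (-X t) = Real.exp (-m) * Real.exp (-(X t - m)) := by
      rw [← Real.exp_add]; congr 1; ring
    rw [h3]
    exact mul_le_mul_of_nonneg_left (by linarith) (Real.exp_pos _).le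
  refine le_trans ?_ h1
  have h4 : (fun t => A t * (Real.exp (-m) * (1 - (X t - m)))) =
      (fun t => Real.exp (-m) * ((1 + m) * A t - A t * X t)) := by
    funext t; ring
  rw [h4, Ex_const_mul, Ex_sub, Ex_const_mul]
  have h5 := Real.exp_pos (-m)
  nlinarith

theorem Ex_mono_set (hp0 : ∀ a, 0 ≤ p a) (hp1 : ∀ a, p a ≤ 1) {W s : Finset α} (h : W ⊆ s)
    {f : Finset α → ℝ} (hf : Monotone f) : Ex p W f ≤ Ex p s f := by
  rw [Ex_sdiff p h]
  refine Ex_le hp0 hp1 fun t _ => ?_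
  calc f t = Ex p (s \ W) (fun _ => f t) := (Ex_const p _ _).symm
    _ ≤ _ := Ex_le hp0 hp1 fun t' _ => hf Finset.subset_union_left

theorem Ex_pow_card (s : Finset α) (x : ℝ) :
    Ex p s (fun t => x ^ t.card) = ∏ a ∈ s, (1 - p a + p a * x) := by
  induction s using Finset.induction_on with
  | empty => simp [Ex_empty]
  | insert a s ha ih =>
    rw [Ex_insert p ha, Finset.prod_insert ha, ih]
    have : Ex p s (fun t => x ^ (insert a t).card) = x * Ex p s (fun t => x ^ t.card) := by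
      rw [← Ex_const_mul]
      refine Ex_congr fun t ht => ?_
      rw [Finset.card_insert_of_notMem (fun h => ha (ht h)), pow_succ]
      ring
    rw [this, ih]
    ring

theorem Ex_eq_empty (s : Finset α) :
    Ex p s (fun t => if t = ∅ then 1 else 0) = ∏ a ∈ s, (1 - p a) := by
  unfold Ex
  rw [Finset.sum_eq_single ∅]
  · simp
  · intro t _ ht; simp [ht]
  · intro h; exact absurd (Finset.empty_mem_powerset s) h

end basic

section hit

variable {α : Type*} [DecidableEq α] {p : α → ℝ}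

/-- hitting indicator -/
def hh (U t : Finset α) : ℝ := if t ∩ U = ∅ then 0 else 1

theorem hh_nonneg (U t : Finset α) : 0 ≤ hh U t := by unfold hh; split_ifs <;> norm_num

theorem hh_le_one (U t : Finset α) : hh U t ≤ 1 := by unfold hh; split_ifs <;> norm_num

theorem hh_mono (U : Finset α) : Monotone (hh U) := by
  intro t t' h
  unfold hh
  split_ifs with h1 h2 h2
  · exact le_refl _
  · norm_num
  · exfalso
    apply h1
    have : t ∩ U ⊆ t' ∩ U := Finset.inter_subset_inter_right h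
    rw [h2] at this
    exact Finset.subset_empty.1 this
  · exact le_refl _

theorem hh_congr {U t t' : Finset α} (h : t ∩ U = t' ∩ U) : hh U t = hh U t' := by
  unfold hh; rw [h]

theorem Ex_hh {s U : Finset α} (hU : U ⊆ s) :
    Ex p s (hh U) = 1 - ∏ v ∈ U, (1 - p v) := by
  have h1 : Ex p s (fun t => 1 - hh U t) = ∏ v ∈ U, (1 - p v) := by
    rw [Ex_sdiff p hU, ← Ex_eq_empty]
    refine Ex_congr fun t ht => ?_
    have h2 : ∀ t' ⊆ s \ U, (1 - hh U (t ∪ t')) = (if t = ∅ then (1:ℝ) else 0) := by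
      intro t' ht'
      have h3 : (t ∪ t') ∩ U = t := by
        ext x
        simp only [Finset.mem_inter, Finset.mem_union]
        constructor
        · rintro ⟨h | h, hx⟩
          · exact h
          · exact absurd hx (Finset.mem_sdiff.1 (ht' h)).2
        · intro h; exact ⟨Or.inl h, ht h⟩
      unfold hh
      rw [h3]
      split_ifs <;> norm_num
    rw [Ex_congr h2, Ex_const]
  rw [Ex_sub, Ex_const] at h1
  linarith

variable {κ : Type*}

/-- product of hitting indicators -/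
noncomputable def AA (T : Finset κ) (U : κ → Finset α) (t : Finset α) : ℝ := ∏ j ∈ T, hh (U j) t

theorem AA_nonneg (T : Finset κ) (U : κ → Finset α) (t : Finset α) : 0 ≤ AA T U t :=
  Finset.prod_nonneg fun j _ => hh_nonneg _ _

theorem AA_le_one (T : Finset κ) (U : κ → Finset α) (t : Finset α) : AA T U t ≤ 1 :=
  Finset.prod_le_one (fun j _ => hh_nonneg _ _) fun j _ => hh_le_one _ _

theorem AA_mono (T : Finset κ) (U : κ → Finset α) : Monotone (AA T U) := fun t t' h =>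
  Finset.prod_le_prod (fun j _ => hh_nonneg _ _) fun j _ => hh_mono _ h

theorem AA_congr {T : Finset κ} {U : κ → Finset α} {t t' : Finset α}
    (h : t ∩ T.biUnion U = t' ∩ T.biUnion U) : AA T U t = AA T U t' := by
  refine Finset.prod_congr rfl fun j hj => hh_congr ?_
  have hs : U j ⊆ T.biUnion U := Finset.subset_biUnion_of_mem U hj
  have e1 : t ∩ U j = (t ∩ T.biUnion U) ∩ U j := by
    rw [Finset.inter_assoc, Finset.inter_eq_right.2 hs]
  have e2 : t' ∩ U j = (t' ∩ T.biUnion U) ∩ U j := by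
    rw [Finset.inter_assoc, Finset.inter_eq_right.2 hs]
  rw [e1, e2, h]

/-- conditional probabilities given a set `R` of present elements. -/
theorem cond_le [DecidableEq κ] (hp0 : ∀ a, 0 ≤ p a) (hp1 : ∀ a, p a ≤ 1) {s : Finset α}
    (T : Finset κ) (U : κ → Finset α) (hU : ∀ j ∈ T, U j ⊆ s) {π : ℝ} {k : ℕ}
    (hπ : 0 < π) (hπ1 : π ≤ 1)
    (hhit : ∀ j ∈ T, π ≤ 1 - ∏ v ∈ U j, (1 - p v))
    (hk : ∀ v ∈ s, (T.filter (fun j => v ∈ U j)).card ≤ k)
    {W R : Finset α} (hW : W ⊆ s) (hR : R ⊆ s) :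
    Ex p W (fun t => AA T U (R ∪ t)) ≤ Ex p s (AA T U) * ((1 / π) ^ k) ^ R.card := by
  set J1 := T.filter (fun j => R ∩ U j = ∅) with hJ1
  set J2 := T.filter (fun j => ¬ (R ∩ U j = ∅)) with hJ2
  have hsplit : ∀ t, AA T U t = (∏ j ∈ J1, hh (U j) t) * ∏ j ∈ J2, hh (U j) t := by
    intro t
    unfold AA
    rw [hJ1, hJ2, Finset.prod_filter_mul_prod_filter_not]
  have hm1 : Monotone (fun t => ∏ j ∈ J1, hh (U j) t) := fun t t' h =>
    Finset.prod_le_prod (fun j _ => hh_nonneg _ _) fun j _ => hh_mono _ h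
  have hm2 : Monotone (fun t => ∏ j ∈ J2, hh (U j) t) := fun t t' h =>
    Finset.prod_le_prod (fun j _ => hh_nonneg _ _) fun j _ => hh_mono _ h
  -- step 1
  have h1 : Ex p W (fun t => AA T U (R ∪ t)) ≤ Ex p s (fun t => ∏ j ∈ J1, hh (U j) t) := by
    refine le_trans ?_ (Ex_mono_set hp0 hp1 hW hm1)
    refine Ex_le hp0 hp1 fun t _ => ?_
    rw [hsplit]
    have h2 : ∏ j ∈ J1, hh (U j) (R ∪ t) = ∏ j ∈ J1, hh (U j) t := by
      refine Finset.prod_congr rfl fun j hj => hh_congr ?_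
      have : R ∩ U j = ∅ := (Finset.mem_filter.1 hj).2
      rw [Finset.union_inter_distrib_right, this, Finset.empty_union]
    rw [h2]
    refine mul_le_of_le_one_right (Finset.prod_nonneg fun j _ => hh_nonneg _ _) ?_
    exact Finset.prod_le_one (fun j _ => hh_nonneg _ _) fun j _ => hh_le_one _ _
  -- step 2
  have hcard : J2.card ≤ k * R.card := by
    have hsub : J2 ⊆ R.biUnion (fun v => T.filter (fun j => v ∈ U j)) := by
      intro j hj
      obtain ⟨hjT, hj2⟩ := Finset.mem_filter.1 hj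
      obtain ⟨v, hv⟩ := Finset.nonempty_iff_ne_empty.2 hj2
      rw [Finset.mem_inter] at hv
      rw [Finset.mem_biUnion]
      exact ⟨v, hv.1, Finset.mem_filter.2 ⟨hjT, hv.2⟩⟩
    refine (Finset.card_le_card hsub).trans ?_
    refine Finset.card_biUnion_le.trans ?_
    refine (Finset.sum_le_card_nsmul _ _ k fun v hv => hk v (hR hv)).trans ?_
    rw [smul_eq_mul, mul_comm]
  have h3 : Ex p s (fun t => ∏ j ∈ J1, hh (U j) t) * π ^ (k * R.card) ≤ Ex p s (AA T U) := by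
    have h4 : Ex p s (fun t => ∏ j ∈ J1, hh (U j) t) * Ex p s (fun t => ∏ j ∈ J2, hh (U j) t)
        ≤ Ex p s (AA T U) := by
      refine (harris hp0 hp1 s hm1 hm2).trans (le_of_eq ?_)
      exact Ex_congr fun t _ => (hsplit t).symm
    have h5 : π ^ (k * R.card) ≤ Ex p s (fun t => ∏ j ∈ J2, hh (U j) t) := by
      refine le_trans ?_ (harris_prod hp0 hp1 s J2 (fun j => hh (U j)) (fun j _ => hh_mono _)
        (fun j _ t => hh_nonneg _ _))
      calc π ^ (k * R.card) ≤ π ^ J2.card := pow_le_pow_of_le_one hπ.le hπ1 hcard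
        _ = ∏ j ∈ J2, π := by rw [Finset.prod_const]
        _ ≤ _ := Finset.prod_le_prod (fun j _ => hπ.le) fun j hj => by
            have hjT := (Finset.mem_filter.1 hj).1
            rw [Ex_hh (hU j hjT)]
            exact hhit j hjT
    refine le_trans (mul_le_mul_of_nonneg_left h5 ?_) h4
    exact Ex_nonneg hp0 hp1 fun t _ => Finset.prod_nonneg fun j _ => hh_nonneg _ _
  have h6 : (0:ℝ) < π ^ (k * R.card) := pow_pos hπ _
  calc Ex p W (fun t => AA T U (R ∪ t)) ≤ Ex p s (fun t => ∏ j ∈ J1, hh (U j) t) := h1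
    _ = (Ex p s (fun t => ∏ j ∈ J1, hh (U j) t) * π ^ (k * R.card)) * ((1 / π) ^ k) ^ R.card := by
        rw [← pow_mul, one_div, inv_pow, mul_assoc, mul_inv_cancel₀ h6.ne', mul_one]
    _ ≤ _ := mul_le_mul_of_nonneg_right h3 (by positivity)

end hit

section core

variable {α : Type*} [DecidableEq α] {p : α → ℝ}

theorem one_sub_sum_le (hp0 : ∀ a, 0 ≤ p a) (hp1 : ∀ a, p a ≤ 1) (O : Finset α) :
    1 - ∑ a ∈ O, p a ≤ ∏ a ∈ O, (1 - p a) := by
  induction O using Finset.induction_on with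
  | empty => simp
  | insert a O ha ih =>
    rw [Finset.sum_insert ha, Finset.prod_insert ha]
    have h1 : ∏ a ∈ O, (1 - p a) ≤ 1 :=
      Finset.prod_le_one (fun a _ => by linarith [hp1 a]) fun a _ => by linarith [hp0 a]
    nlinarith [hp0 a, hp1 a, mul_nonneg (hp0 a) (sub_nonneg.2 h1)]

/-- the pair bound -/
theorem pair_bound {κ : Type*} [DecidableEq κ] (hp0 : ∀ a, 0 ≤ p a) (hp1 : ∀ a, p a ≤ 1)
    {s : Finset α} (T T' : Finset κ) (U U' : κ → Finset α) (hU : ∀ j ∈ T, U j ⊆ s)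
    (hU' : ∀ j ∈ T', U' j ⊆ s) {π : ℝ} {k : ℕ} (hπ : 0 < π) (hπ1 : π ≤ 1)
    (hhit : ∀ j ∈ T, π ≤ 1 - ∏ v ∈ U j, (1 - p v))
    (hhit' : ∀ j ∈ T', π ≤ 1 - ∏ v ∈ U' j, (1 - p v))
    (hk : ∀ v ∈ s, (T.filter (fun j => v ∈ U j)).card ≤ k)
    (hk' : ∀ v ∈ s, (T'.filter (fun j => v ∈ U' j)).card ≤ k) :
    Ex p (T.biUnion U) (fun ω => AA T U ω * Ex p (s \ T.biUnion U)
      (fun η => AA T' U' (ω ∪ η) * (if ω ∩ T'.biUnion U' = ∅ then 0 else 1))) ≤
    Ex p s (AA T U) * Ex p s (AA T' U') *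
      (Real.exp ((1 / π) ^ (2 * k) * ∑ v ∈ T.biUnion U ∩ T'.biUnion U', p v) - 1) := by
  set V := T.biUnion U with hV
  set V' := T'.biUnion U' with hV'
  have hVs : V ⊆ s := Finset.biUnion_subset.2 hU
  have hV's : V' ⊆ s := Finset.biUnion_subset.2 hU'
  set O := V ∩ V' with hO
  have hOV : O ⊆ V := Finset.inter_subset_left
  set M : ℝ := (1 / π) ^ k with hM
  have hM1 : 1 ≤ M := by
    rw [hM]; exact one_le_pow₀ (by rw [le_div_iff₀ hπ]; linarith)
  rw [Ex_sdiff p hOV]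
  have key : ∀ R ⊆ O, Ex p (V \ O) (fun t₂ => AA T U (R ∪ t₂) * Ex p (s \ V)
      (fun η => AA T' U' (R ∪ t₂ ∪ η) * (if (R ∪ t₂) ∩ V' = ∅ then 0 else 1))) ≤
      (Ex p s (AA T U) * Ex p s (AA T' U')) * ((M * M) ^ R.card - (if R = ∅ then 1 else 0)) := by
    intro R hR
    have hRs : R ⊆ s := (hR.trans hOV).trans hVs
    have e1 : ∀ t₂ ⊆ V \ O, ∀ η, AA T' U' (R ∪ t₂ ∪ η) = AA T' U' (R ∪ η) := by
      intro t₂ ht₂ η
      refine AA_congr ?_
      have h0 : t₂ ∩ V' = ∅ := by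
        ext x
        simp only [Finset.mem_inter, Finset.notMem_empty, iff_false, not_and]
        intro hx hx'
        have := ht₂ hx
        rw [Finset.mem_sdiff, hO, Finset.mem_inter] at this
        exact this.2 ⟨this.1, hx'⟩
      rw [← hV', Finset.union_inter_distrib_right, Finset.union_inter_distrib_right, h0,
        Finset.union_empty, ← Finset.union_inter_distrib_right]
    have e2 : ∀ t₂ ⊆ V \ O, ((R ∪ t₂) ∩ V' = ∅ ↔ R = ∅) := by
      intro t₂ ht₂
      constructor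
      · intro h
        rw [Finset.eq_empty_iff_forall_notMem] at h ⊢
        intro x hx
        have hxO := hR hx
        rw [hO, Finset.mem_inter] at hxO
        exact h x (Finset.mem_inter.2 ⟨Finset.mem_union_left _ hx, hxO.2⟩)
      · intro h
        subst h
        rw [Finset.empty_union, Finset.eq_empty_iff_forall_notMem]
        intro x hx
        rw [Finset.mem_inter] at hx
        have := ht₂ hx.1
        rw [Finset.mem_sdiff, hO, Finset.mem_inter] at this
        exact this.2 ⟨this.1, hx.2⟩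
    by_cases hRe : R = ∅
    · have : Ex p (V \ O) (fun t₂ => AA T U (R ∪ t₂) * Ex p (s \ V)
          (fun η => AA T' U' (R ∪ t₂ ∪ η) * (if (R ∪ t₂) ∩ V' = ∅ then 0 else 1))) = 0 := by
        rw [← Ex_const p (V \ O) 0]
        refine Ex_congr fun t₂ ht₂ => ?_
        rw [if_pos ((e2 t₂ ht₂).2 hRe)]
        simp [Ex_const]
      rw [this, hRe]
      simp
    · have h1 : Ex p (V \ O) (fun t₂ => AA T U (R ∪ t₂) * Ex p (s \ V)
          (fun η => AA T' U' (R ∪ t₂ ∪ η) * (if (R ∪ t₂) ∩ V' = ∅ then 0 else 1))) =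
          Ex p (V \ O) (fun t₂ => AA T U (R ∪ t₂)) * Ex p (s \ V) (fun η => AA T' U' (R ∪ η)) := by
        rw [← Ex_mul_const]
        refine Ex_congr fun t₂ ht₂ => ?_
        have hne : ¬ ((R ∪ t₂) ∩ V' = ∅) := fun h => hRe ((e2 t₂ ht₂).1 h)
        simp only [if_neg hne, mul_one, e1 t₂ ht₂]
      rw [h1, if_neg hRe, sub_zero]
      have h2 := cond_le hp0 hp1 T U hU hπ hπ1 hhit hk
        (W := V \ O) (R := R) (Finset.sdiff_subset.trans hVs) hRs
      have h3 := cond_le hp0 hp1 T' U' hU' hπ hπ1 hhit' hk'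
        (W := s \ V) (R := R) Finset.sdiff_subset hRs
      have h4 : 0 ≤ Ex p (V \ O) (fun t₂ => AA T U (R ∪ t₂)) :=
        Ex_nonneg hp0 hp1 fun t _ => AA_nonneg _ _ _
      have h5 : 0 ≤ Ex p s (AA T' U') := Ex_nonneg hp0 hp1 fun t _ => AA_nonneg _ _ _
      have h5' : 0 ≤ Ex p s (AA T U) := Ex_nonneg hp0 hp1 fun t _ => AA_nonneg _ _ _
      calc _ ≤ (Ex p s (AA T U) * M ^ R.card) * (Ex p s (AA T' U') * M ^ R.card) :=
            mul_le_mul h2 h3 (Ex_nonneg hp0 hp1 fun t _ => AA_nonneg _ _ _) (by positivity)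
        _ = _ := by rw [mul_pow]; ring
  refine (Ex_le hp0 hp1 key).trans ?_
  rw [Ex_const_mul, Ex_sub, Ex_pow_card, Ex_eq_empty]
  have h5 : 0 ≤ Ex p s (AA T' U') := Ex_nonneg hp0 hp1 fun t _ => AA_nonneg _ _ _
  have h5' : 0 ≤ Ex p s (AA T U) := Ex_nonneg hp0 hp1 fun t _ => AA_nonneg _ _ _
  refine mul_le_mul_of_nonneg_left ?_ (mul_nonneg h5' h5)
  have hMM : M * M = (1 / π) ^ (2 * k) := by rw [hM, ← pow_add]; congr 1; ring
  rw [← hMM]
  set L := ∑ v ∈ O, p v with hL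
  have hL0 : 0 ≤ L := Finset.sum_nonneg fun v _ => hp0 v
  -- product bounds
  have b1 : ∏ a ∈ O, (1 - p a + p a * (M * M)) ≤ Real.exp ((M * M - 1) * L) := by
    rw [hL, Finset.mul_sum, Real.exp_sum]
    refine Finset.prod_le_prod (fun a _ => ?_) fun a _ => ?_
    · have := hp0 a; have := hp1 a; nlinarith [mul_nonneg (hp0 a) (mul_nonneg (zero_le_one.trans hM1) (zero_le_one.trans hM1))]
    · have := Real.add_one_le_exp ((M * M - 1) * p a)
      linarith
  have b2 : 1 - L ≤ ∏ a ∈ O, (1 - p a) := by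
    exact one_sub_sum_le hp0 hp1 O
  have b3 : Real.exp ((M * M - 1) * L) + L ≤ Real.exp (M * M * L) := by
    have e0 : M * M * L = (M * M - 1) * L + L := by ring
    rw [e0, Real.exp_add]
    have c1 : 1 ≤ Real.exp ((M * M - 1) * L) := Real.one_le_exp (mul_nonneg (by nlinarith) hL0)
    have c2 := Real.add_one_le_exp L
    nlinarith
  linarith

/-- one-step estimate -/
theorem step_bound (hp0 : ∀ a, 0 ≤ p a) (hp1 : ∀ a, p a ≤ 1) {s V : Finset α} (hV : V ⊆ s)
    (A Z : Finset α → ℝ) (W : Finset α → Finset α → ℝ) (hA : ∀ t, 0 ≤ A t)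
    (hAV : ∀ t₁ ⊆ V, ∀ t₂ ⊆ s \ V, A (t₁ ∪ t₂) = A t₁)
    (hZ : Monotone Z) (hW : ∀ t₁ ⊆ V, Monotone (W t₁))
    (hZW : ∀ t₁ ⊆ V, ∀ t₂ ⊆ s \ V, Z (t₁ ∪ t₂) ≤ Z t₂ + W t₁ t₂)
    {Δ : ℝ} (hΔ : Ex p V (fun t₁ => A t₁ * Ex p (s \ V) (W t₁)) ≤ Δ * Ex p s A)
    {r : ℝ} (hr : 0 ≤ r) :
    Ex p s A * Ex p s (fun t => Real.exp (-(r * Z t))) * Real.exp (-(r * Δ)) ≤
      Ex p s (fun t => A t * Real.exp (-(r * Z t))) := by
  set Ψ := Ex p s (fun t => Real.exp (-(r * Z t))) with hΨ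
  have hΨ0 : 0 ≤ Ψ := Ex_nonneg hp0 hp1 fun t _ => (Real.exp_pos _).le
  have hAeq : Ex p s A = Ex p V A := by
    rw [Ex_sdiff p hV]
    refine Ex_congr fun t₁ ht₁ => ?_
    rw [← Ex_const p (s \ V) (A t₁)]
    exact Ex_congr fun t₂ ht₂ => hAV t₁ ht₁ t₂ ht₂
  -- the unconditioned part
  have hη : Ψ ≤ Ex p (s \ V) (fun t => Real.exp (-(r * Z t))) := by
    rw [hΨ, Ex_sdiff p hV]
    calc _ ≤ Ex p V (fun _ => Ex p (s \ V) (fun t => Real.exp (-(r * Z t)))) := by
          refine Ex_le hp0 hp1 fun t₁ _ => Ex_le hp0 hp1 fun t₂ _ => ?_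
          refine Real.exp_le_exp.2 (neg_le_neg (mul_le_mul_of_nonneg_left (hZ ?_) hr))
          exact Finset.subset_union_right
      _ = _ := Ex_const p _ _
  have h1 : ∀ t₁ ⊆ V, Ψ * Real.exp (-(r * Ex p (s \ V) (W t₁))) ≤
      Ex p (s \ V) (fun t₂ => Real.exp (-(r * Z (t₁ ∪ t₂)))) := by
    intro t₁ ht₁
    have a1 : Antitone (fun t => Real.exp (-(r * Z t))) := fun t t' h =>
      Real.exp_le_exp.2 (neg_le_neg (mul_le_mul_of_nonneg_left (hZ h) hr))
    have a2 : Antitone (fun t => Real.exp (-(r * W t₁ t))) := fun t t' h =>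
      Real.exp_le_exp.2 (neg_le_neg (mul_le_mul_of_nonneg_left (hW t₁ ht₁ h) hr))
    have a3 := harris_anti hp0 hp1 (s \ V) a1 a2
    have a4 : Real.exp (-(r * Ex p (s \ V) (W t₁))) ≤
        Ex p (s \ V) (fun t => Real.exp (-(r * W t₁ t))) := by
      have := jensen_exp hp0 hp1 (s \ V) (fun _ => 1) (fun t => r * W t₁ t) (fun _ => zero_le_one)
        (r * Ex p (s \ V) (W t₁)) (by simp [Ex_const, Ex_const_mul])
      simpa [Ex_const] using this
    calc Ψ * Real.exp (-(r * Ex p (s \ V) (W t₁)))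
        ≤ Ex p (s \ V) (fun t => Real.exp (-(r * Z t))) *
            Ex p (s \ V) (fun t => Real.exp (-(r * W t₁ t))) :=
          mul_le_mul hη a4 (Real.exp_pos _).le (hΨ0.trans hη)
      _ ≤ _ := a3
      _ ≤ _ := by
          refine Ex_le hp0 hp1 fun t₂ ht₂ => ?_
          rw [← Real.exp_add]
          refine Real.exp_le_exp.2 ?_
          have := mul_le_mul_of_nonneg_left (hZW t₁ ht₁ t₂ ht₂) hr
          linarith
  have h2 : Ex p V A * Real.exp (-(r * Δ)) ≤
      Ex p V (fun t₁ => A t₁ * Real.exp (-(r * Ex p (s \ V) (W t₁)))) := by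
    refine jensen_exp hp0 hp1 V A (fun t₁ => r * Ex p (s \ V) (W t₁)) hA (r * Δ) ?_
    have e : (fun t₁ => A t₁ * (r * Ex p (s \ V) (W t₁))) =
        (fun t₁ => r * (A t₁ * Ex p (s \ V) (W t₁))) := by funext t; ring
    rw [e, Ex_const_mul, mul_assoc, ← hAeq]
    exact mul_le_mul_of_nonneg_left hΔ hr
  calc Ex p s A * Ψ * Real.exp (-(r * Δ)) = Ψ * (Ex p V A * Real.exp (-(r * Δ))) := by
        rw [hAeq]; ring
    _ ≤ Ψ * Ex p V (fun t₁ => A t₁ * Real.exp (-(r * Ex p (s \ V) (W t₁)))) :=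
        mul_le_mul_of_nonneg_left h2 hΨ0
    _ = Ex p V (fun t₁ => A t₁ * (Ψ * Real.exp (-(r * Ex p (s \ V) (W t₁))))) := by
        rw [← Ex_const_mul]; exact Ex_congr fun t _ => by ring
    _ ≤ Ex p V (fun t₁ => A t₁ * Ex p (s \ V) (fun t₂ => Real.exp (-(r * Z (t₁ ∪ t₂))))) :=
        Ex_le hp0 hp1 fun t₁ ht₁ => mul_le_mul_of_nonneg_left (h1 t₁ ht₁) (hA t₁)
    _ = _ := by
        rw [Ex_sdiff p hV]
        refine Ex_congr fun t₁ ht₁ => ?_
        rw [← Ex_const_mul]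
        exact Ex_congr fun t₂ ht₂ => by rw [hAV t₁ ht₁ t₂ ht₂]

/-- Gronwall type conclusion. -/
theorem ode_bound (hp0 : ∀ a, 0 ≤ p a) (hp1 : ∀ a, p a ≤ 1) (s : Finset α) (Z : Finset α → ℝ)
    {Δ : ℝ} (hΔ : 0 < Δ)
    (h : ∀ r : ℝ, 0 ≤ r → Ex p s (fun t => Real.exp (-(r * Z t))) * Real.exp (-(r * Δ)) ≤
      Ex p s (fun t => Z t * Real.exp (-(r * Z t)))) (r : ℝ) (hr : 0 ≤ r) :
    Ex p s (fun t => Real.exp (-(r * Z t))) ≤ Real.exp (-((1 - Real.exp (-(r * Δ))) / Δ)) := by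
  set Ψ : ℝ → ℝ := fun r => Ex p s (fun t => Real.exp (-(r * Z t))) with hΨ
  have hd : ∀ r, HasDerivAt Ψ (-Ex p s (fun t => Z t * Real.exp (-(r * Z t)))) r := by
    intro r
    have h1 : ∀ t ∈ s.powerset, HasDerivAt (fun r : ℝ => (∏ a ∈ t, p a) * (∏ a ∈ s \ t, (1 - p a)) *
        Real.exp (-(r * Z t))) ((∏ a ∈ t, p a) * (∏ a ∈ s \ t, (1 - p a)) *
        (Real.exp (-(r * Z t)) * (-(1 * Z t)))) r := by
      intro t _
      exact ((((hasDerivAt_id r).mul_const (Z t)).neg).exp).const_mul _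
    have h2 := HasDerivAt.fun_sum h1
    have h3 : (∑ t ∈ s.powerset, (∏ a ∈ t, p a) * (∏ a ∈ s \ t, (1 - p a)) *
        (Real.exp (-(r * Z t)) * (-(1 * Z t)))) = -Ex p s (fun t => Z t * Real.exp (-(r * Z t))) := by
      unfold Ex
      rw [← Finset.sum_neg_distrib]
      exact Finset.sum_congr rfl fun t _ => by ring
    rw [h3] at h2
    exact h2
  set g : ℝ → ℝ := fun r => Ψ r * Real.exp ((1 - Real.exp (-(r * Δ))) / Δ) with hg
  have hgd : ∀ r, HasDerivAt g ((-Ex p s (fun t => Z t * Real.exp (-(r * Z t)))) *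
      Real.exp ((1 - Real.exp (-(r * Δ))) / Δ) + Ψ r * (Real.exp ((1 - Real.exp (-(r * Δ))) / Δ) *
      (Real.exp (-(r * Δ))))) r := by
    intro r
    have e1 : HasDerivAt (fun r : ℝ => Real.exp (-(r * Δ))) (Real.exp (-(r * Δ)) * (-(1 * Δ))) r :=
      (((hasDerivAt_id r).mul_const Δ).neg).exp
    have e2 : HasDerivAt (fun r : ℝ => (1 - Real.exp (-(r * Δ))) / Δ) (Real.exp (-(r * Δ))) r := by
      have := (e1.const_sub 1).div_const Δ
      have e3 : -(Real.exp (-(r * Δ)) * -(1 * Δ)) / Δ = Real.exp (-(r * Δ)) := by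
        rw [div_eq_iff hΔ.ne']; ring
      rw [e3] at this
      exact this
    exact (hd r).mul e2.exp
  have hanti : AntitoneOn g (Set.Ici 0) := by
    refine antitoneOn_of_deriv_nonpos (convex_Ici 0)
      (fun r _ => (hgd r).continuousAt.continuousWithinAt)
      (fun r _ => (hgd r).differentiableAt.differentiableWithinAt) ?_
    intro r hr
    rw [interior_Ici] at hr
    rw [(hgd r).deriv]
    have h1 := h r (le_of_lt hr)
    have h2 := Real.exp_pos ((1 - Real.exp (-(r * Δ))) / Δ)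
    have h3 : (-Ex p s (fun t => Z t * Real.exp (-(r * Z t)))) *
      Real.exp ((1 - Real.exp (-(r * Δ))) / Δ) + Ψ r * (Real.exp ((1 - Real.exp (-(r * Δ))) / Δ) *
      (Real.exp (-(r * Δ)))) = Real.exp ((1 - Real.exp (-(r * Δ))) / Δ) *
      (Ψ r * Real.exp (-(r * Δ)) - Ex p s (fun t => Z t * Real.exp (-(r * Z t)))) := by ring
    rw [h3]
    exact mul_nonpos_of_nonneg_of_nonpos h2.le (by linarith)
  have hle : g r ≤ g 0 := hanti (Set.mem_Ici.2 le_rfl) (Set.mem_Ici.2 hr) hr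
  have hg0 : g 0 = 1 := by simp [hg, hΨ, Ex_const]
  rw [hg0] at hle
  have h4 : Ψ r * Real.exp ((1 - Real.exp (-(r * Δ))) / Δ) ≤ 1 := hle
  rw [Real.exp_neg, ← one_div, le_div_iff₀ (Real.exp_pos _)]
  exact h4

end core

theorem janson_hit {α ι κ : Type*} [DecidableEq α] [DecidableEq κ]
    (p : α → ℝ) (hp0 : ∀ a, 0 ≤ p a) (hp1 : ∀ a, p a ≤ 1)
    (s : Finset α) (Y : Finset ι) (hY : Y.Nonempty)
    (T : ι → Finset κ) (U : ι → κ → Finset α) (hU : ∀ y ∈ Y, ∀ j ∈ T y, U y j ⊆ s)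
    (π a Δ : ℝ) (k : ℕ) (hπ : 0 < π) (hπ1 : π ≤ 1)
    (hhit : ∀ y ∈ Y, ∀ j ∈ T y, π ≤ 1 - ∏ v ∈ U y j, (1 - p v))
    (hk : ∀ y ∈ Y, ∀ v ∈ s, ((T y).filter (fun j => v ∈ U y j)).card ≤ k)
    (ha : 0 < a)
    (hA : ∀ y ∈ Y, a ≤ ∏ j ∈ T y, (1 - ∏ v ∈ U y j, (1 - p v)))
    (D : ι → ι → ℝ)
    (hD : ∀ y ∈ Y, ∀ y' ∈ Y, 1 / a ≤ D y y' ∨
      Real.exp ((1 / π) ^ (2 * k) * ∑ v ∈ (T y).biUnion (U y) ∩ (T y').biUnion (U y'), p v) - 1
        ≤ D y y')
    (hΔ : 0 < Δ) (hDΔ : ∀ y ∈ Y, ∑ y' ∈ Y, D y y' ≤ Δ * Y.card) :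
    Ex p s (fun t => if ∀ y ∈ Y, ∃ j ∈ T y, t ∩ U y j = ∅ then 1 else 0)
      ≤ Real.exp (-(1 / (2 * Δ))) := by
  classical
  have hcard : (0:ℝ) < Y.card := by exact_mod_cast hY.card_pos
  set P : ι → ℝ := fun y => Ex p s (AA (T y) (U y)) with hP
  have hPa : ∀ y ∈ Y, a ≤ P y := by
    intro y hy
    refine (hA y hy).trans ?_
    refine le_trans (le_of_eq ?_) (harris_prod hp0 hp1 s (T y) (fun j => hh (U y j))
      (fun j _ => hh_mono _) (fun j _ t => hh_nonneg _ _))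
    exact Finset.prod_congr rfl fun j hj => (Ex_hh (hU y hy j hj)).symm
  have hP0 : ∀ y ∈ Y, 0 < P y := fun y hy => ha.trans_le (hPa y hy)
  set Z : Finset α → ℝ := fun t => (1 / Y.card : ℝ) * ∑ y ∈ Y, AA (T y) (U y) t / P y with hZ
  have hZmono : Monotone Z := by
    intro t t' h
    refine mul_le_mul_of_nonneg_left (Finset.sum_le_sum fun y hy => ?_) (by positivity)
    exact div_le_div_of_nonneg_right (AA_mono _ _ h) (hP0 y hy).le
  -- the main differential inequality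
  have hmain : ∀ r : ℝ, 0 ≤ r → Ex p s (fun t => Real.exp (-(r * Z t))) * Real.exp (-(r * Δ)) ≤
      Ex p s (fun t => Z t * Real.exp (-(r * Z t))) := by
    intro r hr
    have hstep : ∀ y ∈ Y, Ex p s (fun t => Real.exp (-(r * Z t))) * Real.exp (-(r * Δ)) ≤
        Ex p s (fun t => AA (T y) (U y) t * Real.exp (-(r * Z t))) / P y := by
      intro y hy
      set V := (T y).biUnion (U y) with hV
      have hVs : V ⊆ s := Finset.biUnion_subset.2 (hU y hy)
      set W : Finset α → Finset α → ℝ := fun t₁ t₂ => (1 / Y.card : ℝ) * ∑ y' ∈ Y,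
        (AA (T y') (U y') (t₁ ∪ t₂) * (if t₁ ∩ (T y').biUnion (U y') = ∅ then 0 else 1)) / P y'
        with hW
      have hsb := step_bound hp0 hp1 hVs (AA (T y) (U y)) Z W (fun t => AA_nonneg _ _ _)
        (fun t₁ ht₁ t₂ ht₂ => by
          refine AA_congr ?_
          rw [Finset.union_inter_distrib_right]
          have : t₂ ∩ (T y).biUnion (U y) = ∅ := by
            rw [Finset.eq_empty_iff_forall_notMem]
            intro x hx
            rw [Finset.mem_inter] at hx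
            exact (Finset.mem_sdiff.1 (ht₂ hx.1)).2 hx.2
          rw [this, Finset.union_empty])
        hZmono
        (fun t₁ _ t t' h => by
          refine mul_le_mul_of_nonneg_left (Finset.sum_le_sum fun y' hy' => ?_) (by positivity)
          refine div_le_div_of_nonneg_right (mul_le_mul_of_nonneg_right
            (AA_mono _ _ (Finset.union_subset_union_right h)) ?_) (hP0 y' hy').le
          split_ifs <;> norm_num)
        (fun t₁ ht₁ t₂ ht₂ => by
          rw [hZ, hW]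
          simp only
          rw [← mul_add, ← Finset.sum_add_distrib]
          refine mul_le_mul_of_nonneg_left (Finset.sum_le_sum fun y' hy' => ?_) (by positivity)
          rw [← add_div]
          refine div_le_div_of_nonneg_right ?_ (hP0 y' hy').le
          by_cases hc : t₁ ∩ (T y').biUnion (U y') = ∅
          · rw [if_pos hc, mul_zero, add_zero]
            refine le_of_eq (AA_congr ?_)
            rw [Finset.union_inter_distrib_right, hc, Finset.empty_union]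
          · rw [if_neg hc, mul_one]
            linarith [AA_nonneg (T y') (U y') t₂])
        (Δ := Δ) (by
          -- compute
          have e1 : ∀ t₁, Ex p (s \ V) (W t₁) = (1 / Y.card : ℝ) * ∑ y' ∈ Y,
              Ex p (s \ V) (fun t₂ => AA (T y') (U y') (t₁ ∪ t₂) *
                (if t₁ ∩ (T y').biUnion (U y') = ∅ then 0 else 1)) / P y' := by
            intro t₁
            rw [hW]
            simp only
            rw [Ex_const_mul, Ex_sum]
            congr 1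
            refine Finset.sum_congr rfl fun y' _ => ?_
            have := Ex_mul_const p (s \ V) (1 / P y') (fun t₂ => AA (T y') (U y') (t₁ ∪ t₂) *
                (if t₁ ∩ (T y').biUnion (U y') = ∅ then 0 else 1))
            simp only [mul_one_div] at this
            exact this
          have e2 : Ex p V (fun t₁ => AA (T y) (U y) t₁ * Ex p (s \ V) (W t₁)) =
              (1 / Y.card : ℝ) * ∑ y' ∈ Y, (Ex p V (fun t₁ => AA (T y) (U y) t₁ *
              Ex p (s \ V) (fun t₂ => AA (T y') (U y') (t₁ ∪ t₂) *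
                (if t₁ ∩ (T y').biUnion (U y') = ∅ then 0 else 1)))) / P y' := by
            have e3 : (fun t₁ => AA (T y) (U y) t₁ * Ex p (s \ V) (W t₁)) =
              (fun t₁ => (1 / Y.card : ℝ) * ∑ y' ∈ Y, (AA (T y) (U y) t₁ *
              Ex p (s \ V) (fun t₂ => AA (T y') (U y') (t₁ ∪ t₂) *
                (if t₁ ∩ (T y').biUnion (U y') = ∅ then 0 else 1))) / P y') := by
              funext t₁
              rw [e1 t₁]
              rw [mul_left_comm, Finset.mul_sum]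
              congr 1
              exact Finset.sum_congr rfl fun y' _ => by rw [mul_div_assoc]
            rw [e3, Ex_const_mul, Ex_sum]
            congr 1
            refine Finset.sum_congr rfl fun y' _ => ?_
            have := Ex_mul_const p V (1 / P y') (fun t₁ => AA (T y) (U y) t₁ *
              Ex p (s \ V) (fun t₂ => AA (T y') (U y') (t₁ ∪ t₂) *
                (if t₁ ∩ (T y').biUnion (U y') = ∅ then 0 else 1)))
            simp only [mul_one_div] at this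
            exact this
          rw [e2]
          have e4 : ∀ y' ∈ Y, (Ex p V (fun t₁ => AA (T y) (U y) t₁ *
              Ex p (s \ V) (fun t₂ => AA (T y') (U y') (t₁ ∪ t₂) *
                (if t₁ ∩ (T y').biUnion (U y') = ∅ then 0 else 1)))) / P y' ≤ P y * D y y' := by
            intro y' hy'
            rw [div_le_iff₀ (hP0 y' hy')]
            rcases hD y hy y' hy' with h | h
            · have f1 : Ex p V (fun t₁ => AA (T y) (U y) t₁ *
                  Ex p (s \ V) (fun t₂ => AA (T y') (U y') (t₁ ∪ t₂) *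
                  (if t₁ ∩ (T y').biUnion (U y') = ∅ then 0 else 1))) ≤ P y := by
                calc _ ≤ Ex p V (AA (T y) (U y)) := by
                      refine Ex_le hp0 hp1 fun t₁ _ => ?_
                      refine mul_le_of_le_one_right (AA_nonneg _ _ _) ?_
                      refine le_trans ?_ (le_of_eq (Ex_const p (s \ V) 1))
                      refine Ex_le hp0 hp1 fun t₂ _ => ?_
                      have g1 := AA_le_one (T y') (U y') (t₁ ∪ t₂)
                      have g2 := AA_nonneg (T y') (U y') (t₁ ∪ t₂)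
                      split_ifs <;> linarith
                  _ ≤ P y := Ex_mono_set hp0 hp1 hVs (AA_mono _ _)
              refine f1.trans ?_
              have f2 : 1 ≤ D y y' * P y' := by
                calc (1:ℝ) = (1 / a) * a := by field_simp
                  _ ≤ D y y' * P y' := mul_le_mul h (hPa y' hy') ha.le
                    ((by positivity : (0:ℝ) ≤ 1 / a).trans h)
              nlinarith [hP0 y hy]
            · have f1 := pair_bound hp0 hp1 (T y) (T y') (U y) (U y') (hU y hy) (hU y' hy')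
                hπ hπ1 (hhit y hy) (hhit y' hy') (hk y hy) (hk y' hy')
              refine f1.trans ?_
              have f2 : 0 ≤ P y * P y' := mul_nonneg (hP0 y hy).le (hP0 y' hy').le
              calc _ ≤ P y * P y' * D y y' := mul_le_mul_of_nonneg_left h f2
                _ = _ := by ring
          calc _ ≤ (1 / Y.card : ℝ) * ∑ y' ∈ Y, P y * D y y' :=
                mul_le_mul_of_nonneg_left (Finset.sum_le_sum e4) (by positivity)
            _ = (1 / Y.card : ℝ) * (P y * ∑ y' ∈ Y, D y y') := by rw [← Finset.mul_sum]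
            _ ≤ (1 / Y.card : ℝ) * (P y * (Δ * Y.card)) := by
                refine mul_le_mul_of_nonneg_left (mul_le_mul_of_nonneg_left (hDΔ y hy)
                  (hP0 y hy).le) (by positivity)
            _ = Δ * P y := by field_simp) hr
      rw [le_div_iff₀ (hP0 y hy)]
      calc _ = P y * Ex p s (fun t => Real.exp (-(r * Z t))) * Real.exp (-(r * Δ)) := by ring
        _ ≤ _ := hsb
    have hsum := Finset.sum_le_sum hstep
    rw [Finset.sum_const, nsmul_eq_mul] at hsum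
    have e5 : Ex p s (fun t => Z t * Real.exp (-(r * Z t))) = (1 / Y.card : ℝ) *
        ∑ y ∈ Y, Ex p s (fun t => AA (T y) (U y) t * Real.exp (-(r * Z t))) / P y := by
      have e6 : (fun t => Z t * Real.exp (-(r * Z t))) = (fun t => (1 / Y.card : ℝ) *
          ∑ y ∈ Y, (AA (T y) (U y) t * Real.exp (-(r * Z t))) * (1 / P y)) := by
        funext t
        have e7 : Z t = (1 / Y.card : ℝ) * ∑ y ∈ Y, AA (T y) (U y) t / P y := rfl
        conv_lhs => rw [e7, mul_assoc, Finset.sum_mul]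
        congr 1
        refine Finset.sum_congr rfl fun y _ => ?_
        rw [← e7]; ring
      rw [e6, Ex_const_mul, Ex_sum]
      congr 1
      refine Finset.sum_congr rfl fun y _ => ?_
      rw [Ex_mul_const]; ring
    rw [e5]
    calc _ = (1 / Y.card : ℝ) * (Y.card * (Ex p s (fun t => Real.exp (-(r * Z t))) *
          Real.exp (-(r * Δ)))) := by field_simp
      _ ≤ _ := mul_le_mul_of_nonneg_left hsum (by positivity)
  have hr0 : 0 ≤ Real.log 2 / Δ := div_nonneg (Real.log_nonneg (by norm_num)) hΔ.le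
  have hfin := ode_bound hp0 hp1 s Z hΔ hmain (Real.log 2 / Δ) hr0
  have e8 : Real.exp (-(Real.log 2 / Δ * Δ)) = 1 / 2 := by
    rw [div_mul_cancel₀ _ hΔ.ne', Real.exp_neg, Real.exp_log (by norm_num)]; norm_num
  rw [e8] at hfin
  have e9 : -((1 - 1 / 2 : ℝ) / Δ) = -(1 / (2 * Δ)) := by field_simp; norm_num
  rw [e9] at hfin
  refine le_trans ?_ hfin
  refine Ex_le hp0 hp1 fun t _ => ?_
  split_ifs with hcond
  · have hZt : Z t = 0 := by
      rw [hZ]
      simp only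
      rw [Finset.sum_eq_zero, mul_zero]
      intro y hy
      obtain ⟨j, hj, hjt⟩ := hcond y hy
      have : AA (T y) (U y) t = 0 := by
        unfold AA
        refine Finset.prod_eq_zero hj ?_
        unfold hh
        rw [if_pos hjt]
      rw [this, zero_div]
    rw [hZt]; simp
  · exact (Real.exp_pos _).le

end Crest.Agent.R225.LB
end

-- ▼ part R225/LB/ConfigCore
section

/-!
Row 225, S0348, module D (part 1): the probability estimate for one configuration, for a fixed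
dimension with abstract numerical parameters (`config_core`).
-/

set_option autoImplicit false

namespace Crest.Agent.R225.LB

open MeasureTheory ProbabilityTheory Finset Filter

lemma Ex_mono {α : Type*} [DecidableEq α] (p : α → ℝ) (hp0 : ∀ a, 0 ≤ p a) (hp1 : ∀ a, p a ≤ 1)
    (s : Finset α) (f g : Finset α → ℝ) (h : ∀ t, f t ≤ g t) : Ex p s f ≤ Ex p s g := by
  unfold Ex
  refine Finset.sum_le_sum fun t _ => ?_
  refine mul_le_mul_of_nonneg_left (h t) ?_
  exact mul_nonneg (Finset.prod_nonneg fun a _ => hp0 a)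
    (Finset.prod_nonneg fun a _ => sub_nonneg.mpr (hp1 a))

lemma one_sub_exp_neg_ge {w a : ℝ} (ha0 : 0 ≤ a) (ha1 : a ≤ 1) (h : a ≤ w) :
    a / 2 ≤ 1 - Real.exp (-w) := by
  have h1 : Real.exp (-w) ≤ Real.exp (-a) := Real.exp_le_exp.mpr (by linarith)
  have h2 : Real.exp (-a) ≤ 1 - a / 2 := by
    have := Real.exp_bound_div_one_sub_of_interval ha0
    have h3 : (1 + a) * (1 - a/2) ≥ 1 := by nlinarith
    have h4 : 1 + a ≤ Real.exp a := by linarith [Real.add_one_le_exp a]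
    rw [Real.exp_neg, inv_le_comm₀ (Real.exp_pos a) (by linarith)]
    refine le_trans ?_ h4
    rw [inv_le_iff_one_le_mul₀ (by linarith)]
    linarith
  linarith

lemma exp_sub_one_le {s c : ℝ} (hs : s ≤ c) (h0 : 0 ≤ c) (hc : c ≤ 1 / 2) :
    Real.exp s - 1 ≤ 2 * c := by
  have h1 : Real.exp s ≤ Real.exp c := Real.exp_le_exp.mpr hs
  have h2 : Real.exp c ≤ 1 + 2 * c := by
    have h3 : 1 - c ≤ Real.exp (-c) := by linarith [Real.add_one_le_exp (-c)]
    have h4 : Real.exp c * Real.exp (-c) = 1 := by rw [← Real.exp_add]; simp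
    have h5 : Real.exp c * (1 - c) ≤ 1 :=
      (mul_le_mul_of_nonneg_left h3 (Real.exp_pos c).le).trans_eq h4
    by_contra h6
    push Not at h6
    have h7 : (1 + 2 * c) * (1 - c) < Real.exp c * (1 - c) :=
      mul_lt_mul_of_pos_right h6 (by linarith)
    nlinarith
  linarith

lemma qw_nonneg {n : ℕ} (z : EE n) : 0 ≤ qw n z := by
  unfold qw
  refine Finset.sum_nonneg fun j _ => mul_nonneg (Real.exp_pos _).le ?_
  split_ifs <;> norm_num

lemma one_le_qw {n : ℕ} (hn : 1 ≤ n) (z : EE n) (hz : ‖z‖ ≤ 1 + eta n) : 1 ≤ qw n z := by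
  classical
  unfold qw
  have h0 : (0 : ℕ) ∈ Finset.range n := Finset.mem_range.mpr hn
  refine le_trans ?_ (Finset.single_le_sum (f := fun j : ℕ => Real.exp ((j : ℝ) / 2) *
    (if ‖z‖ ≤ 1 + eta n - (j : ℝ) / n then (1 : ℝ) else 0)) (fun j _ => ?_) h0)
  · simp [hz]
  · refine mul_nonneg (Real.exp_pos _).le ?_
    split_ifs <;> norm_num

section core

variable {n : ℕ}

open scoped Classical in
/-- translation vectors relevant for `y`. -/
noncomputable def Irel (X : Finset (EE n)) (y : EE n) : Finset (EE n) :=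
  X.filter (fun x => ‖y - x‖ ≤ 1 + eta n)

open scoped Classical in
/-- targets: singletons of the dispersed part `S₀` and the clusters. -/
noncomputable def Tg (S₀ : Finset (EE n)) (C : Finset (Finset (EE n))) :
    Finset (Finset (EE n) × Bool) :=
  S₀.image (fun x => (({x} : Finset (EE n)), false)) ∪ C.image (fun S => (S, true))

open scoped Classical in
/-- patterns which serve the target `j` of `y`. -/
noncomputable def Ug (G S₀ : Finset (EE n)) (k : ℕ) (y : EE n) (j : Finset (EE n) × Bool) :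
    Finset (Finset (EE n)) :=
  G.powerset.filter (fun v => (∀ x ∈ j.1, y - x ∈ v) ∧
    (j.2 = false → (S₀.filter (fun x' => y - x' ∈ v)).card ≤ k))

lemma mem_Irel {X : Finset (EE n)} {y x : EE n} :
    x ∈ Irel X y ↔ x ∈ X ∧ ‖y - x‖ ≤ 1 + eta n := by
  classical
  unfold Irel; rw [Finset.mem_filter]

lemma mem_Tg {S₀ : Finset (EE n)} {C : Finset (Finset (EE n))} {j : Finset (EE n) × Bool} :
    j ∈ Tg S₀ C ↔ (∃ x ∈ S₀, j = ({x}, false)) ∨ (∃ S ∈ C, j = (S, true)) := by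
  classical
  unfold Tg
  simp only [Finset.mem_union, Finset.mem_image]
  constructor
  · rintro (⟨x, h1, h2⟩ | ⟨x, h1, h2⟩)
    · exact Or.inl ⟨x, h1, h2.symm⟩
    · exact Or.inr ⟨x, h1, h2.symm⟩
  · rintro (⟨x, h1, h2⟩ | ⟨x, h1, h2⟩)
    · exact Or.inl ⟨x, h1, h2.symm⟩
    · exact Or.inr ⟨x, h1, h2.symm⟩

open scoped Classical in
lemma mem_Ug {G S₀ : Finset (EE n)} {k : ℕ} {y : EE n} {j : Finset (EE n) × Bool}
    {v : Finset (EE n)} :
    v ∈ Ug G S₀ k y j ↔ v ⊆ G ∧ (∀ x ∈ j.1, y - x ∈ v) ∧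
    (j.2 = false → (S₀.filter (fun x' => y - x' ∈ v)).card ≤ k) := by
  unfold Ug
  rw [Finset.mem_filter, Finset.mem_powerset]

lemma card_Irel_le (hn : 1 ≤ n) (X : Finset (EE n)) (y : EE n) :
    ((Irel X y).card : ℝ) ≤ ∑ x ∈ X, qw n (y - x) := by
  classical
  have h1 : ((Irel X y).card : ℝ) ≤ ∑ x ∈ Irel X y, qw n (y - x) := by
    rw [Finset.card_eq_sum_ones]
    push_cast
    exact Finset.sum_le_sum fun x hx => one_le_qw hn _ (mem_Irel.mp hx).2
  refine h1.trans (Finset.sum_le_sum_of_subset_of_nonneg (fun x hx => (mem_Irel.mp hx).1) ?_)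
  intro x _ _
  exact qw_nonneg _

lemma qw_le_sum (X : Finset (EE n)) (y x : EE n) (hx : x ∈ X) :
    qw n (y - x) ≤ ∑ x ∈ X, qw n (y - x) :=
  Finset.single_le_sum (f := fun x => qw n (y - x)) (fun _ _ => qw_nonneg _) hx

open scoped Classical in
/-- weight of a singleton target. -/
lemma nu_single_ge {G S₀ : Finset (EE n)} {k : ℕ} {y x : EE n} {ε E : ℝ}
    (hx : x ∈ S₀) (hG : ∀ x ∈ S₀, y - x ∈ G)
    (hk : (S₀.filter (fun x' => dist x' x ≤ ε)).card < k)
    (hE : ∀ x' ∈ S₀, ε < dist x' x → nu n (kill n (y - x) ∩ kill n (y - x')) ≤ E) (hE0 : 0 ≤ E) :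
    nu n (kill n (y - x)) ≤
      nu n {u | pat n G u ∈ Ug G S₀ k y ({x}, false)} + S₀.card * E := by
  have hsub : kill n (y - x) ⊆ {u | pat n G u ∈ Ug G S₀ k y ({x}, false)} ∪
      ⋃ x' ∈ S₀.filter (fun x' => ε < dist x' x), (kill n (y - x) ∩ kill n (y - x')) := by
    intro u hu
    by_cases h : ∃ x' ∈ S₀, ε < dist x' x ∧ u ∈ kill n (y - x')
    · right
      obtain ⟨x', h1, h2, h3⟩ := h
      simp only [Set.mem_iUnion, exists_prop]
      exact ⟨x', Finset.mem_filter.mpr ⟨h1, h2⟩, hu, h3⟩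
    · left
      push Not at h
      change pat n G u ∈ Ug G S₀ k y ({x}, false)
      rw [mem_Ug]
      refine ⟨Finset.mem_powerset.mp (pat_mem_powerset G u), ?_, ?_⟩
      · intro x' hx'
        simp only [Finset.mem_singleton] at hx'
        subst hx'
        exact mem_pat.mpr ⟨hG _ hx, hu⟩
      · intro _
        refine le_trans (Finset.card_le_card ?_) hk.le
        intro x' hx'
        rw [Finset.mem_filter] at hx' ⊢
        refine ⟨hx'.1, ?_⟩
        by_contra hc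
        push Not at hc
        exact h x' hx'.1 hc (mem_pat.mp hx'.2).2
  refine (nb_nu_mono hsub).trans ((nu_union_le _ _).trans (add_le_add_right ?_ _))
  refine (nu_biUnion_le _ _).trans ?_
  calc ∑ x' ∈ S₀.filter (fun x' => ε < dist x' x), nu n (kill n (y - x) ∩ kill n (y - x'))
      ≤ ∑ x' ∈ S₀.filter (fun x' => ε < dist x' x), E := by
        refine Finset.sum_le_sum fun x' hx' => ?_
        rw [Finset.mem_filter] at hx'
        exact hE x' hx'.1 hx'.2
    _ = (S₀.filter (fun x' => ε < dist x' x)).card * E := by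
        rw [Finset.sum_const, nsmul_eq_mul]
    _ ≤ S₀.card * E := by
        refine mul_le_mul_of_nonneg_right ?_ hE0
        exact_mod_cast Finset.card_filter_le _ _

/-- weight of a cluster target. -/
lemma nu_cluster_ge {G S₀ S : Finset (EE n)} {k : ℕ} {y : EE n}
    (hG : ∀ x ∈ S, y - x ∈ G) :
    nu n {u | ∀ x ∈ S, u ∈ kill n (y - x)} ≤ nu n {u | pat n G u ∈ Ug G S₀ k y (S, true)} := by
  classical
  refine nb_nu_mono ?_
  intro u hu
  change pat n G u ∈ Ug G S₀ k y (S, true)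
  rw [mem_Ug]
  refine ⟨Finset.mem_powerset.mp (pat_mem_powerset G u), ?_, ?_⟩
  · intro x hx
    exact mem_pat.mpr ⟨hG x hx, hu x hx⟩
  · intro h
    simp at h

lemma card_targets_le (G S₀ : Finset (EE n)) (C : Finset (Finset (EE n))) (k : ℕ) (y : EE n)
    (v : Finset (EE n)) :
    ((Tg S₀ C).filter (fun j => v ∈ Ug G S₀ k y j)).card ≤ k + C.card := by
  classical
  have hsub : (Tg S₀ C).filter (fun j => v ∈ Ug G S₀ k y j) ⊆
      (S₀.filter (fun x => v ∈ Ug G S₀ k y ({x}, false))).image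
        (fun x => (({x} : Finset (EE n)), false)) ∪ C.image (fun S => (S, true)) := by
    intro j hj
    rw [Finset.mem_filter, mem_Tg] at hj
    rw [Finset.mem_union, Finset.mem_image, Finset.mem_image]
    obtain ⟨⟨x, hx, rfl⟩ | ⟨S, hS, rfl⟩, hv⟩ := hj
    · left
      exact ⟨x, Finset.mem_filter.mpr ⟨hx, hv⟩, rfl⟩
    · right
      exact ⟨S, hS, rfl⟩
  refine (Finset.card_le_card hsub).trans ((Finset.card_union_le _ _).trans ?_)
  refine Nat.add_le_add (Finset.card_image_le.trans ?_) Finset.card_image_le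
  by_cases hne : (S₀.filter (fun x => v ∈ Ug G S₀ k y ({x}, false))).Nonempty
  · obtain ⟨x₀, hx₀⟩ := hne
    rw [Finset.mem_filter, mem_Ug] at hx₀
    refine le_trans (Finset.card_le_card ?_) (hx₀.2.2.2 rfl)
    intro x hx
    rw [Finset.mem_filter, mem_Ug] at hx
    rw [Finset.mem_filter]
    exact ⟨hx.1, hx.2.2.1 x (Finset.mem_singleton_self x)⟩
  · rw [Finset.not_nonempty_iff_eq_empty] at hne
    rw [hne]
    simp

/-- the joint mass of patterns serving both `y` and `y'`. -/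
lemma sum_pp_inter_le {G : Finset (EE n)} {I I' S₀ S₀' : Finset (EE n)}
    {C C' : Finset (Finset (EE n))} {k k' : ℕ} {y y' : EE n} {E : ℝ}
    (hS₀ : S₀ ⊆ I) (hC : ∀ S ∈ C, S ⊆ I ∧ S.Nonempty)
    (hS₀' : S₀' ⊆ I') (hC' : ∀ S ∈ C', S ⊆ I' ∧ S.Nonempty)
    (hE : ∀ x ∈ I, ∀ x' ∈ I', nu n (kill n (y - x) ∩ kill n (y' - x')) ≤ E) :
    ∑ v ∈ (Tg S₀ C).biUnion (Ug G S₀ k y) ∩ (Tg S₀' C').biUnion (Ug G S₀' k' y'), pp n G v ≤
      I.card * I'.card * E := by
  classical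
  have key : ∀ (J : Finset (EE n)) (K : Finset (Finset (EE n))) (J₀ : Finset (EE n)) (l : ℕ)
      (w : EE n), J₀ ⊆ J → (∀ S ∈ K, S ⊆ J ∧ S.Nonempty) → ∀ v ∈ (Tg J₀ K).biUnion (Ug G J₀ l w),
      ∃ x ∈ J, w - x ∈ v := by
    intro J K J₀ l w hJ hK v hv
    rw [Finset.mem_biUnion] at hv
    obtain ⟨j, hj, hv⟩ := hv
    rw [mem_Tg] at hj
    rw [mem_Ug] at hv
    obtain ⟨x, hx, rfl⟩ | ⟨S, hS, rfl⟩ := hj
    · exact ⟨x, hJ hx, hv.2.1 x (Finset.mem_singleton_self x)⟩
    · obtain ⟨x, hx⟩ := (hK S hS).2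
      exact ⟨x, (hK S hS).1 hx, hv.2.1 x hx⟩
  refine (sum_pp_le _ _).trans ?_
  have hsub : {u | pat n G u ∈ (Tg S₀ C).biUnion (Ug G S₀ k y) ∩
      (Tg S₀' C').biUnion (Ug G S₀' k' y')} ⊆
      ⋃ q ∈ I ×ˢ I', (kill n (y - q.1) ∩ kill n (y' - q.2)) := by
    intro u hu
    have hu : pat n G u ∈ (Tg S₀ C).biUnion (Ug G S₀ k y) ∩
      (Tg S₀' C').biUnion (Ug G S₀' k' y') := hu
    rw [Finset.mem_inter] at hu
    obtain ⟨x, hx, hxv⟩ := key I C S₀ k y hS₀ hC _ hu.1
    obtain ⟨x', hx', hxv'⟩ := key I' C' S₀' k' y' hS₀' hC' _ hu.2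
    simp only [Set.mem_iUnion, exists_prop]
    exact ⟨(x, x'), Finset.mem_product.mpr ⟨hx, hx'⟩, (mem_pat.mp hxv).2, (mem_pat.mp hxv').2⟩
  refine (nb_nu_mono hsub).trans ((nu_biUnion_le _ _).trans ?_)
  calc ∑ q ∈ I ×ˢ I', nu n (kill n (y - q.1) ∩ kill n (y' - q.2))
      ≤ ∑ q ∈ I ×ˢ I', E := by
        refine Finset.sum_le_sum fun q hq => ?_
        rw [Finset.mem_product] at hq
        exact hE _ hq.1 _ hq.2
    _ = I.card * I'.card * E := by
        rw [Finset.sum_const, nsmul_eq_mul, Finset.card_product]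
        push_cast
        ring

open scoped Classical in
/-- number of `y'` near to `y`. -/
lemma near_count_le {X Y : Finset (EE n)} {y : EE n} {r N B : ℝ} (hB : 0 ≤ B)
    (hX : (X.card : ℝ) ≤ 3 ^ n) (hI : ((Irel X y).card : ℝ) ≤ N)
    (hcount : ∀ p : EE n, ((Y.filter (fun y' => dist y' p ≤ r)).card : ℝ) ≤ B) :
    ((Y.filter (fun y' => ∃ x ∈ Irel X y, ∃ x' ∈ Irel X y',
      ‖(y - x) - (y' - x')‖ ≤ r)).card : ℝ) ≤ N * (3 ^ n * B) := by
  have hN : 0 ≤ N := le_trans (Nat.cast_nonneg _) hI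
  have hsub : Y.filter (fun y' => ∃ x ∈ Irel X y, ∃ x' ∈ Irel X y',
      ‖(y - x) - (y' - x')‖ ≤ r) ⊆
      (Irel X y).biUnion (fun x => X.biUnion (fun x' =>
        Y.filter (fun y' => dist y' (y - x + x') ≤ r))) := by
    intro y' hy'
    rw [Finset.mem_filter] at hy'
    obtain ⟨hy', x, hx, x', hx', hr⟩ := hy'
    rw [Finset.mem_biUnion]
    refine ⟨x, hx, ?_⟩
    rw [Finset.mem_biUnion]
    refine ⟨x', (mem_Irel.mp hx').1, ?_⟩
    rw [Finset.mem_filter]
    refine ⟨hy', ?_⟩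
    rw [dist_comm, dist_eq_norm]
    have : y - x + x' - y' = (y - x) - (y' - x') := by abel
    rw [this]
    exact hr
  have h1 : ((Y.filter (fun y' => ∃ x ∈ Irel X y, ∃ x' ∈ Irel X y',
      ‖(y - x) - (y' - x')‖ ≤ r)).card : ℝ) ≤
      ∑ x ∈ Irel X y, ∑ x' ∈ X, ((Y.filter (fun y' => dist y' (y - x + x') ≤ r)).card : ℝ) := by
    have := (Finset.card_le_card hsub).trans (Finset.card_biUnion_le.trans
      (Finset.sum_le_sum fun x _ => Finset.card_biUnion_le))
    exact_mod_cast this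
  refine h1.trans ?_
  calc ∑ x ∈ Irel X y, ∑ x' ∈ X, ((Y.filter (fun y' => dist y' (y - x + x') ≤ r)).card : ℝ)
      ≤ ∑ x ∈ Irel X y, ∑ x' ∈ X, B :=
        Finset.sum_le_sum fun x _ => Finset.sum_le_sum fun x' _ => hcount _
    _ = (Irel X y).card * (X.card * B) := by
        simp only [Finset.sum_const, nsmul_eq_mul]
    _ ≤ N * (3 ^ n * B) := by
        refine mul_le_mul hI (mul_le_mul_of_nonneg_right hX hB) (by positivity) hN

lemma prod_Tg (S₀ : Finset (EE n)) (C : Finset (Finset (EE n)))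
    (f : Finset (EE n) × Bool → ℝ) :
    ∏ j ∈ Tg S₀ C, f j = (∏ x ∈ S₀, f ({x}, false)) * ∏ S ∈ C, f (S, true) := by
  classical
  have hT : Tg S₀ C = S₀.image (fun x => (({x} : Finset (EE n)), false)) ∪
      C.image (fun S => (S, true)) := by
    ext j
    rw [mem_Tg, Finset.mem_union, Finset.mem_image, Finset.mem_image]
    constructor
    · rintro (⟨x, h1, h2⟩ | ⟨x, h1, h2⟩)
      · exact Or.inl ⟨x, h1, h2.symm⟩
      · exact Or.inr ⟨x, h1, h2.symm⟩
    · rintro (⟨x, h1, h2⟩ | ⟨x, h1, h2⟩)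
      · exact Or.inl ⟨x, h1, h2.symm⟩
      · exact Or.inr ⟨x, h1, h2.symm⟩
  rw [hT, Finset.prod_union, Finset.prod_image, Finset.prod_image]
  · intro x _ x' _ h
    exact (Prod.mk.inj h).1
  · intro x _ x' _ h
    exact Finset.singleton_injective (Prod.mk.inj h).1
  · rw [Finset.disjoint_left]
    intro j h1 h2
    rw [Finset.mem_image] at h1 h2
    obtain ⟨x, _, rfl⟩ := h1
    obtain ⟨S, _, h⟩ := h2
    exact absurd (Prod.mk.inj h).2 (by simp)

/-- probability of hitting all targets -/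
lemma prod_targets_ge {S₀ : Finset (EE n)} {C : Finset (Finset (EE n))}
    {f : Finset (EE n) × Bool → ℝ} {g : EE n → ℝ} {h K N : ℝ} {m : ℕ}
    (hK : 0 ≤ K) (hh0 : 0 ≤ h) (hh1 : h ≤ 1)
    (h1 : ∀ x ∈ S₀, Real.exp (-(K * g x)) ≤ f ({x}, false))
    (h2 : ∀ S ∈ C, h ≤ f (S, true)) (hm : C.card ≤ m) (hg : ∑ x ∈ S₀, g x ≤ N) :
    Real.exp (-(K * N)) * h ^ m ≤ ∏ j ∈ Tg S₀ C, f j := by
  rw [prod_Tg]
  refine mul_le_mul ?_ ?_ (pow_nonneg hh0 _)
    (Finset.prod_nonneg fun x hx => (Real.exp_pos _).le.trans (h1 x hx))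
  · calc Real.exp (-(K * N)) ≤ Real.exp (∑ x ∈ S₀, -(K * g x)) := by
          rw [Real.exp_le_exp, Finset.sum_neg_distrib, ← Finset.mul_sum]
          exact neg_le_neg (mul_le_mul_of_nonneg_left hg hK)
      _ = ∏ x ∈ S₀, Real.exp (-(K * g x)) := Real.exp_sum _ _
      _ ≤ ∏ x ∈ S₀, f ({x}, false) :=
          Finset.prod_le_prod (fun x _ => (Real.exp_pos _).le) h1
  · calc h ^ m ≤ h ^ C.card := pow_le_pow_of_le_one hh0 hh1 hm
      _ = ∏ S ∈ C, h := by rw [Finset.prod_const]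
      _ ≤ ∏ S ∈ C, f (S, true) := Finset.prod_le_prod (fun x _ => hh0) h2

set_option maxHeartbeats 2000000 in
theorem config_core (hn : 1 ≤ n) (X Y G : Finset (EE n)) (hY : Y.Nonempty)
    (N : ℝ) (k0 kJ m : ℕ) (K b b4 M β ε π a δ r1 : ℝ)
    (hX : (X.card : ℝ) ≤ 3 ^ n)
    (hsum : ∀ y ∈ Y, ∑ x ∈ X, qw n (y - x) ≤ N)
    (hG : ∀ y ∈ Y, ∀ x ∈ X, ‖y - x‖ ≤ 1 + eta n → y - x ∈ G)
    (hc1 : ∀ p : EE n, ((Y.filter (fun y => dist y p ≤ r1)).card : ℝ) ≤ (2 * r1) ^ n * Y.card)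
    (hc2 : ∀ p : EE n, ((Y.filter (fun y => dist y p ≤ 1 / 40)).card : ℝ) ≤
      (2 * (1 / 40)) ^ n * Y.card)
    (hB1 : ∀ z : EE n, ‖z‖ ≤ 1 + eta n → 1 ≤ qw n z → qw n z ≤ N →
       Real.exp (-(K * qw n z)) ≤ nu n (kill n z) ∧ b ≤ nu n (kill n z))
    (hB3 : ∀ z z' : EE n, ‖z‖ ≤ 1 + eta n → ‖z'‖ ≤ 1 + eta n →
       nu n (kill n z ∩ kill n z') ≤ M * Real.exp (-(β * ‖z - z'‖ ^ 2)))
    (hB4 : ∀ F : Finset (EE n), (F.card : ℝ) ≤ N →
        (∀ z ∈ F, ‖z‖ ≤ 1 + eta n ∧ 1 ≤ qw n z ∧ qw n z ≤ N) →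
        (∃ z₀ ∈ F, ∀ z ∈ F, ‖z - z₀‖ ≤ ε) → b4 ≤ nu n {u | ∀ z ∈ F, u ∈ kill n z})
    (hb : 0 < b) (hb1 : b ≤ 1) (hb4 : 0 < b4) (hb41 : b4 ≤ 1) (hM : 0 ≤ M) (hβ : 0 ≤ β)
    (hK : 0 ≤ K) (hε : 0 ≤ ε) (hr1 : 0 ≤ r1)
    (hE : N * (M * Real.exp (-(β * ε ^ 2))) ≤ b / 2)
    (hπ0 : 0 < π) (hπ : π ≤ b / 4) (hπ4 : π ≤ b4 / 2)
    (hk0 : 1 ≤ k0) (hm : N ≤ k0 * m) (hkJ : k0 + m ≤ kJ)
    (ha0 : 0 < a) (ha : a ≤ Real.exp (-((K + 2) * N)) * (b4 / 2) ^ m)
    (hmid : (1 / π) ^ (2 * kJ) * (N ^ 2 * (M * Real.exp (-(β * r1 ^ 2)))) ≤ 1 / 2)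
    (hδ0 : 0 < δ) (hδ1 : δ ≤ 1)
    (hfar : (1 / π) ^ (2 * kJ) * (N ^ 2 * (M * Real.exp (-(β * (1 / 40) ^ 2)))) ≤ δ / 2)
    (hN8 : (1 / a) * (N * (3 ^ n * (2 * r1) ^ n)) ≤ δ)
    (hN9 : N * (3 ^ n * (2 * (1 / 40)) ^ n) ≤ δ) :
    Ex (pp n G) G.powerset
      (fun t => if ∀ y ∈ Y, ∃ x ∈ X, ‖y - x‖ ≤ 1 + eta n ∧ ∀ v ∈ t, y - x ∉ v then 1 else 0)
      ≤ Real.exp (-(1 / (2 * (3 * δ)))) := by
  classical
  -- the clusters
  have hcl : ∀ y : EE n, ∃ C : Finset (Finset (EE n)),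
      (∀ S ∈ C, S ⊆ Irel X y ∧ k0 ≤ S.card ∧ ∃ x ∈ S, ∀ x' ∈ S, dist x' x ≤ ε) ∧
      C.card * k0 ≤ (Irel X y).card ∧
      ∀ x ∈ Irel X y \ C.biUnion id,
        ((Irel X y \ C.biUnion id).filter (fun x' => dist x' x ≤ ε)).card < k0 := by
    intro y
    obtain ⟨C, h1, h2, h3⟩ := cluster (Irel X y) ε k0 hk0
    refine ⟨C, h1, h2, fun x hx => ?_⟩
    have h3 := h3 x (by convert hx)
    convert h3
  choose C hC1 hC2 hC3 using hcl
  set S₀ : EE n → Finset (EE n) := fun y => Irel X y \ (C y).biUnion id with hS₀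
  have hS₀I : ∀ y, S₀ y ⊆ Irel X y := fun y => Finset.sdiff_subset
  have hIN : ∀ y ∈ Y, ((Irel X y).card : ℝ) ≤ N := fun y hy =>
    (card_Irel_le hn X y).trans (hsum y hy)
  obtain ⟨y₀, hy₀⟩ := hY
  have hN0 : 0 ≤ N := le_trans (Nat.cast_nonneg _) (hIN y₀ hy₀)
  have hIG : ∀ y ∈ Y, ∀ x ∈ Irel X y, y - x ∈ G := by
    intro y hy x hx
    exact hG y hy x (mem_Irel.mp hx).1 (mem_Irel.mp hx).2
  have hqN : ∀ y ∈ Y, ∀ x ∈ Irel X y, 1 ≤ qw n (y - x) ∧ qw n (y - x) ≤ N := by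
    intro y hy x hx
    exact ⟨one_le_qw hn _ (mem_Irel.mp hx).2,
      (qw_le_sum X y x (mem_Irel.mp hx).1).trans (hsum y hy)⟩
  have hCm : ∀ y ∈ Y, (C y).card ≤ m := by
    intro y hy
    have h1 : (((C y).card * k0 : ℕ) : ℝ) ≤ N :=
      le_trans (by exact_mod_cast hC2 y) (hIN y hy)
    have h2 : (((C y).card * k0 : ℕ) : ℝ) ≤ ((m * k0 : ℕ) : ℝ) := by
      refine h1.trans (hm.trans (le_of_eq ?_))
      push_cast; ring
    have h3 : (C y).card * k0 ≤ m * k0 := by exact_mod_cast h2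
    exact Nat.le_of_mul_le_mul_right h3 (by omega)
  -- single targets
  have hE0 : 0 ≤ M * Real.exp (-(β * ε ^ 2)) := mul_nonneg hM (Real.exp_pos _).le
  have hsing : ∀ y ∈ Y, ∀ x ∈ S₀ y, nu n (kill n (y - x)) / 2 ≤
      nu n {u | pat n G u ∈ Ug G (S₀ y) k0 y ({x}, false)} := by
    intro y hy x hx
    have hxI := hS₀I y hx
    have h1 := nu_single_ge (G := G) (S₀ := S₀ y) (k := k0) (y := y) (x := x) (ε := ε)
      (E := M * Real.exp (-(β * ε ^ 2))) hx
      (fun x' hx' => hIG y hy x' (hS₀I y hx')) (hC3 y x hx) (by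
        intro x' hx' hd
        refine (hB3 _ _ (mem_Irel.mp hxI).2 (mem_Irel.mp (hS₀I y hx')).2).trans ?_
        refine mul_le_mul_of_nonneg_left ?_ hM
        rw [Real.exp_le_exp]
        refine neg_le_neg (mul_le_mul_of_nonneg_left ?_ hβ)
        have : ‖y - x - (y - x')‖ = dist x' x := by
          rw [dist_eq_norm]; congr 1; abel
        rw [this]
        exact pow_le_pow_left₀ hε hd.le 2) hE0
    have h2 : ((S₀ y).card : ℝ) * (M * Real.exp (-(β * ε ^ 2))) ≤ b / 2 := by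
      refine le_trans (mul_le_mul_of_nonneg_right ?_ hE0) hE
      exact le_trans (by exact_mod_cast Finset.card_le_card (hS₀I y)) (hIN y hy)
    have h3 := (hB1 (y - x) (mem_Irel.mp hxI).2 (hqN y hy x hxI).1 (hqN y hy x hxI).2).2
    linarith
  have hclus : ∀ y ∈ Y, ∀ S ∈ C y, b4 ≤
      nu n {u | pat n G u ∈ Ug G (S₀ y) k0 y (S, true)} := by
    intro y hy S hS
    obtain ⟨h1, h2, x₀, hx₀, h3⟩ := hC1 y S hS
    refine le_trans ?_ (nu_cluster_ge (fun x hx => hIG y hy x (h1 hx)))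
    have h4 := hB4 (S.image (fun x => y - x)) ?_ ?_ ?_
    · refine h4.trans (nb_nu_mono ?_)
      intro u hu x hx
      exact hu (y - x) (Finset.mem_image_of_mem _ hx)
    · refine le_trans ?_ (hIN y hy)
      exact_mod_cast Finset.card_image_le.trans (Finset.card_le_card h1)
    · intro z hz
      rw [Finset.mem_image] at hz
      obtain ⟨x, hx, rfl⟩ := hz
      exact ⟨(mem_Irel.mp (h1 hx)).2, hqN y hy x (h1 hx)⟩
    · refine ⟨y - x₀, Finset.mem_image_of_mem _ hx₀, ?_⟩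
      intro z hz
      rw [Finset.mem_image] at hz
      obtain ⟨x, hx, rfl⟩ := hz
      have : ‖y - x - (y - x₀)‖ = dist x x₀ := by
        rw [dist_comm, dist_eq_norm]; congr 1; abel
      rw [this]
      exact h3 x hx
  -- hit probabilities
  set f : EE n → Finset (EE n) × Bool → ℝ := fun y j =>
    1 - ∏ v ∈ Ug G (S₀ y) k0 y j, (1 - pp n G v) with hf
  have hfeq : ∀ y j, f y j = 1 - Real.exp (- nu n {u | pat n G u ∈ Ug G (S₀ y) k0 y j}) := by
    intro y j
    rw [hf]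
    simp only
    rw [prod_one_sub_pp]
  have hhit1 : ∀ y ∈ Y, ∀ x ∈ S₀ y, Real.exp (-((K + 2) * qw n (y - x))) ≤ f y ({x}, false) ∧
      b / 4 ≤ f y ({x}, false) := by
    intro y hy x hx
    have hxI := hS₀I y hx
    have h0 := hB1 (y - x) (mem_Irel.mp hxI).2 (hqN y hy x hxI).1 (hqN y hy x hxI).2
    have h1 := hsing y hy x hx
    rw [hfeq]
    have hq := (hqN y hy x hxI).1
    constructor
    · have h2 : Real.exp (-(K * qw n (y - x))) / 2 ≤
          nu n {u | pat n G u ∈ Ug G (S₀ y) k0 y ({x}, false)} := by linarith [h0.1]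
      have h3 : Real.exp (-(K * qw n (y - x))) ≤ 1 := by
        rw [Real.exp_le_one_iff]
        have : 0 ≤ K * qw n (y - x) := mul_nonneg hK (by linarith)
        linarith
      have h4 := one_sub_exp_neg_ge (a := Real.exp (-(K * qw n (y - x))) / 2)
        (by positivity) (by linarith) h2
      refine le_trans ?_ h4
      have h5 : Real.exp (-((K + 2) * qw n (y - x))) =
          Real.exp (-(K * qw n (y - x))) * Real.exp (-(2 * qw n (y - x))) := by
        rw [← Real.exp_add]; congr 1; ring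
      have h6 : Real.exp (-(2 * qw n (y - x))) ≤ 1 / 4 := by
        have h7 : Real.exp (-(2 * qw n (y - x))) ≤ Real.exp (-2) := by
          rw [Real.exp_le_exp]; linarith
        have h8 : Real.exp (-2) ≤ 1 / 4 := by
          have h9 : (2 : ℝ) ≤ Real.exp 1 := by linarith [Real.add_one_le_exp (1 : ℝ)]
          have h10 : Real.exp (-2) = (Real.exp 1)⁻¹ * (Real.exp 1)⁻¹ := by
            rw [← Real.exp_neg, ← Real.exp_add]; norm_num
          rw [h10]
          have h11 : (Real.exp 1)⁻¹ ≤ 1 / 2 := by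
            rw [inv_le_comm₀ (Real.exp_pos _) (by norm_num)]
            norm_num; exact h9
          have h12 : 0 ≤ (Real.exp 1)⁻¹ := by positivity
          nlinarith
        linarith
      rw [h5]
      have := mul_le_mul_of_nonneg_left h6 (Real.exp_pos (-(K * qw n (y - x)))).le
      linarith
    · have h2 : b / 2 ≤ nu n {u | pat n G u ∈ Ug G (S₀ y) k0 y ({x}, false)} := by
        linarith [h0.2]
      have h4 := one_sub_exp_neg_ge (a := b / 2) (by positivity) (by linarith) h2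
      linarith
  have hhit2 : ∀ y ∈ Y, ∀ S ∈ C y, b4 / 2 ≤ f y (S, true) := by
    intro y hy S hS
    rw [hfeq]
    exact one_sub_exp_neg_ge hb4.le hb41 (hclus y hy S hS)
  -- near relation
  set near : ℝ → EE n → EE n → Prop := fun r y y' =>
    ∃ x ∈ Irel X y, ∃ x' ∈ Irel X y', ‖(y - x) - (y' - x')‖ ≤ r with hnear
  set D : EE n → EE n → ℝ := fun y y' =>
    if near r1 y y' then 1 / a else if near (1 / 40) y y' then 1 else δ with hD
  have hJ := janson_hit (pp n G) (pp_nonneg G) (pp_le_one G) G.powerset Y ⟨y₀, hy₀⟩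
    (fun y => Tg (S₀ y) (C y)) (fun y j => Ug G (S₀ y) k0 y j) ?_ π a (3 * δ) kJ hπ0
    (by linarith) ?_ ?_ ha0 ?_ D ?_ (by positivity) ?_
  · refine le_trans (Ex_mono _ (pp_nonneg G) (pp_le_one G) _ _ _ ?_) hJ
    intro t
    by_cases ht : ∀ y ∈ Y, ∃ j ∈ Tg (S₀ y) (C y), t ∩ Ug G (S₀ y) k0 y j = ∅
    · rw [if_pos ht]
      split_ifs <;> norm_num
    · rw [if_neg ht, if_neg]
      intro hall
      apply ht
      intro y hy
      by_contra hno
      push Not at hno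
      obtain ⟨x, hxX, hxn, hxt⟩ := hall y hy
      have hxI : x ∈ Irel X y := mem_Irel.mpr ⟨hxX, hxn⟩
      by_cases hxS : x ∈ S₀ y
      · have h1 := hno ({x}, false) (mem_Tg.mpr (Or.inl ⟨x, hxS, rfl⟩))
        obtain ⟨v, hv⟩ := h1
        rw [Finset.mem_inter, mem_Ug] at hv
        exact hxt v hv.1 (hv.2.2.1 x (Finset.mem_singleton_self x))
      · have h2 : x ∈ (C y).biUnion id := by
          by_contra h3
          exact hxS (Finset.mem_sdiff.mpr ⟨hxI, h3⟩)
        rw [Finset.mem_biUnion] at h2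
        obtain ⟨S, hS, hxS'⟩ := h2
        have h1 := hno (S, true) (mem_Tg.mpr (Or.inr ⟨S, hS, rfl⟩))
        obtain ⟨v, hv⟩ := h1
        rw [Finset.mem_inter, mem_Ug] at hv
        exact hxt v hv.1 (hv.2.2.1 x hxS')
  · intro y _ j _ v hv
    rw [mem_Ug] at hv
    exact Finset.mem_powerset.mpr hv.1
  · intro y hy j hj
    rw [mem_Tg] at hj
    obtain ⟨x, hx, rfl⟩ | ⟨S, hS, rfl⟩ := hj
    · exact hπ.trans (hhit1 y hy x hx).2
    · exact hπ4.trans (hhit2 y hy S hS)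
  · intro y hy v _
    refine le_trans ?_ (le_trans (Nat.add_le_add_left (hCm y hy) k0) hkJ)
    convert card_targets_le G (S₀ y) (C y) k0 y v
  · intro y hy
    refine ha.trans ?_
    refine prod_targets_ge (f := f y) (g := fun x => qw n (y - x)) (by linarith)
      (by positivity) (by linarith) (fun x hx => (hhit1 y hy x hx).1) (hhit2 y hy) (hCm y hy) ?_
    refine le_trans ?_ (hsum y hy)
    refine Finset.sum_le_sum_of_subset_of_nonneg
      (fun x hx => (mem_Irel.mp (hS₀I y hx)).1) (fun x _ _ => qw_nonneg _)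
  · -- the D bound
    intro y hy y' hy'
    have hgen : ∀ r : ℝ, 0 ≤ r → ¬ near r y y' →
        (1 / π) ^ (2 * kJ) * ∑ v ∈ (Tg (S₀ y) (C y)).biUnion (fun j => Ug G (S₀ y) k0 y j) ∩
          (Tg (S₀ y') (C y')).biUnion (fun j => Ug G (S₀ y') k0 y' j), pp n G v ≤
        (1 / π) ^ (2 * kJ) * (N ^ 2 * (M * Real.exp (-(β * r ^ 2)))) := by
      intro r hr hnr
      refine mul_le_mul_of_nonneg_left ?_ (by positivity)
      have hnn : ∀ (y : EE n), ∀ S ∈ C y, S ⊆ Irel X y ∧ S.Nonempty := by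
        intro y S hS
        obtain ⟨h1, _, x, hx, _⟩ := hC1 y S hS
        exact ⟨h1, x, hx⟩
      have h1 := sum_pp_inter_le (G := G) (I := Irel X y) (I' := Irel X y') (S₀ := S₀ y)
        (S₀' := S₀ y') (C := C y) (C' := C y') (k := k0) (k' := k0) (y := y) (y' := y')
        (E := M * Real.exp (-(β * r ^ 2))) (hS₀I y) (hnn y) (hS₀I y') (hnn y') (by
          intro x hx x' hx'
          refine (hB3 _ _ (mem_Irel.mp hx).2 (mem_Irel.mp hx').2).trans ?_
          refine mul_le_mul_of_nonneg_left ?_ hM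
          rw [Real.exp_le_exp]
          refine neg_le_neg (mul_le_mul_of_nonneg_left ?_ hβ)
          refine pow_le_pow_left₀ hr ?_ 2
          by_contra hc
          exact hnr ⟨x, hx, x', hx', (not_le.mp hc).le⟩)
      refine le_trans ?_ (h1.trans ?_)
      · refine le_of_eq (Finset.sum_congr ?_ fun _ _ => rfl)
        congr
      · refine mul_le_mul_of_nonneg_right ?_ (mul_nonneg hM (Real.exp_pos _).le)
        rw [sq]
        exact mul_le_mul (hIN y hy) (hIN y' hy') (Nat.cast_nonneg _) hN0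
    by_cases h1 : near r1 y y'
    · left
      rw [hD]
      simp only [if_pos h1]
      exact le_refl _
    · right
      by_cases h2 : near (1 / 40) y y'
      · have h3 := exp_sub_one_le ((hgen r1 hr1 h1).trans hmid) (by norm_num) le_rfl
        rw [hD]
        simp only [if_neg h1, if_pos h2]
        refine le_trans ?_ (le_trans h3 (by norm_num))
        exact le_refl _
      · have h3 := exp_sub_one_le ((hgen (1 / 40) (by norm_num) h2).trans hfar) (by linarith)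
          (by linarith)
        rw [hD]
        simp only [if_neg h1, if_neg h2]
        refine le_trans ?_ (le_trans h3 (by linarith))
        exact le_refl _
  · -- the sum bound
    intro y hy
    have h1 : ∀ y' ∈ Y, D y y' ≤ (if near r1 y y' then 1 / a else 0) +
        (if near (1 / 40) y y' then 1 else 0) + δ := by
      intro y' _
      rw [hD]
      simp only
      have : 0 < 1 / a := by positivity
      split_ifs <;> linarith
    refine (Finset.sum_le_sum h1).trans ?_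
    rw [Finset.sum_add_distrib, Finset.sum_add_distrib, Finset.sum_const, nsmul_eq_mul,
      ← Finset.sum_filter, ← Finset.sum_filter, Finset.sum_const, Finset.sum_const,
      nsmul_eq_mul, nsmul_eq_mul]
    have hYc : (0 : ℝ) ≤ Y.card := Nat.cast_nonneg _
    have hn1 : ((Y.filter (fun y' => near r1 y y')).card : ℝ) ≤
        N * (3 ^ n * ((2 * r1) ^ n * Y.card)) := by
      have := near_count_le (X := X) (Y := Y) (y := y) (r := r1) (N := N)
        (B := (2 * r1) ^ n * Y.card) (by positivity) hX (hIN y hy) (fun p => by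
          convert hc1 p)
      convert this
    have hn2 : ((Y.filter (fun y' => near (1 / 40) y y')).card : ℝ) ≤
        N * (3 ^ n * ((2 * (1 / 40)) ^ n * Y.card)) := by
      have := near_count_le (X := X) (Y := Y) (y := y) (r := 1 / 40) (N := N)
        (B := (2 * (1 / 40)) ^ n * Y.card) (by positivity) hX (hIN y hy) (fun p => by
          convert hc2 p)
      convert this
    have h2 : ((Y.filter (fun y' => near r1 y y')).card : ℝ) * (1 / a) ≤ δ * Y.card := by
      refine le_trans (mul_le_mul_of_nonneg_right hn1 (by positivity)) ?_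
      have := mul_le_mul_of_nonneg_right hN8 hYc
      calc N * (3 ^ n * ((2 * r1) ^ n * ↑Y.card)) * (1 / a)
          = (1 / a) * (N * (3 ^ n * (2 * r1) ^ n)) * Y.card := by ring
        _ ≤ _ := this
    have h3 : ((Y.filter (fun y' => near (1 / 40) y y')).card : ℝ) * 1 ≤ δ * Y.card := by
      rw [mul_one]
      refine le_trans hn2 ?_
      have := mul_le_mul_of_nonneg_right hN9 hYc
      calc N * (3 ^ n * ((2 * (1 / 40)) ^ n * ↑Y.card))
          = (N * (3 ^ n * (2 * (1 / 40)) ^ n)) * Y.card := by ring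
        _ ≤ _ := this
    have h4 : (Y.card : ℝ) * δ = δ * Y.card := mul_comm _ _
    linarith

end core

end Crest.Agent.R225.LB
end

-- ▼ part R225/LB/ConfigNum
section

/-!
Row 225, S0348, module D (part 2): the numerics, and `config_prob_of` (the probability estimate for
one configuration, assuming the Gaussian estimates B1, B3, B4).
-/

set_option autoImplicit false

namespace Crest.Agent.R225.LB

open MeasureTheory ProbabilityTheory Finset Filter

/-! ### asymptotic facts -/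

lemma ev_main (P : ℝ) : ∀ᶠ x : ℝ in atTop,
    P * (Real.sqrt x * (Real.log x) ^ 2) + 6 * Real.log x + 1 ≤ (1 / 20) * x ^ (3 / 5 : ℝ) := by
  have h1 : ∀ᶠ x : ℝ in atTop, (Real.log x) ^ 2 ≤ (1 / (60 * (|P| + 1))) * x ^ (1 / 10 : ℝ) := by
    have h := (isLittleO_log_rpow_rpow_atTop (s := 1 / 10) 2 (by norm_num)).def
      (c := 1 / (60 * (|P| + 1))) (by positivity)
    filter_upwards [h, eventually_ge_atTop 1] with x hx hx1
    have h2 : (0 : ℝ) ≤ x ^ (1 / 10 : ℝ) := Real.rpow_nonneg (by linarith) _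
    rw [Real.norm_of_nonneg h2] at hx
    refine le_trans ?_ hx
    rw [Real.norm_eq_abs]
    refine le_trans ?_ (le_abs_self _)
    rw [Real.rpow_two]
  have h2 : ∀ᶠ x : ℝ in atTop, Real.log x ≤ (1 / 360) * x ^ (3 / 5 : ℝ) := by
    have h := (isLittleO_log_rpow_atTop (r := 3 / 5) (by norm_num)).def
      (c := 1 / 360) (by positivity)
    filter_upwards [h, eventually_ge_atTop 1] with x hx hx1
    have h2 : (0 : ℝ) ≤ x ^ (3 / 5 : ℝ) := Real.rpow_nonneg (by linarith) _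
    rw [Real.norm_of_nonneg h2] at hx
    exact le_trans (le_abs_self _) hx
  have h3 : ∀ᶠ x : ℝ in atTop, 60 ≤ x ^ (3 / 5 : ℝ) :=
    (tendsto_rpow_atTop (y := 3 / 5) (by norm_num)).eventually_ge_atTop 60
  filter_upwards [h1, h2, h3, eventually_ge_atTop 1] with x h1 h2 h3 hx
  have hx0 : 0 < x := by linarith
  have h4 : Real.sqrt x * x ^ (1 / 10 : ℝ) = x ^ (3 / 5 : ℝ) := by
    rw [Real.sqrt_eq_rpow, ← Real.rpow_add hx0]; norm_num
  have h5 : P * (Real.sqrt x * (Real.log x) ^ 2) ≤ (1 / 60) * x ^ (3 / 5 : ℝ) := by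
    have h6 : (0 : ℝ) ≤ Real.sqrt x * (Real.log x) ^ 2 := by positivity
    calc P * (Real.sqrt x * (Real.log x) ^ 2)
        ≤ (|P| + 1) * (Real.sqrt x * (Real.log x) ^ 2) :=
          mul_le_mul_of_nonneg_right (by linarith [le_abs_self P]) h6
      _ ≤ (|P| + 1) * (Real.sqrt x * ((1 / (60 * (|P| + 1))) * x ^ (1 / 10 : ℝ))) := by
          gcongr
      _ = ((|P| + 1) / (60 * (|P| + 1))) * (Real.sqrt x * x ^ (1 / 10 : ℝ)) := by ring
      _ = (1 / 60) * x ^ (3 / 5 : ℝ) := by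
          rw [h4]
          congr 1
          field_simp
  linarith

lemma ev_sqrt (P : ℝ) : ∀ᶠ x : ℝ in atTop, P * Real.log x ≤ Real.sqrt x := by
  have h := (isLittleO_log_rpow_atTop (r := 1 / 2) (by norm_num)).def
    (c := 1 / (|P| + 1)) (by positivity)
  filter_upwards [h, eventually_ge_atTop 1] with x hx hx1
  have h2 : (0 : ℝ) ≤ x ^ (1 / 2 : ℝ) := Real.rpow_nonneg (by linarith) _
  have h3 : 0 ≤ Real.log x := Real.log_nonneg hx1
  rw [Real.norm_of_nonneg h2, Real.norm_of_nonneg h3] at hx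
  rw [Real.sqrt_eq_rpow]
  calc P * Real.log x ≤ (|P| + 1) * Real.log x :=
        mul_le_mul_of_nonneg_right (by linarith [le_abs_self P]) h3
    _ ≤ (|P| + 1) * (1 / (|P| + 1) * x ^ (1 / 2 : ℝ)) :=
        mul_le_mul_of_nonneg_left hx (by positivity)
    _ = x ^ (1 / 2 : ℝ) := by
        field_simp

/-! ### numerics for fixed `n` -/

section num

variable {n : ℕ} {L : ℝ}

lemma log5_le : Real.log 5 ≤ 17 / 10 := by
  have h1 : Real.log 5 * 10 ≤ 17 := by
    have h2 : Real.log 5 * 10 = Real.log (5 ^ 10) := by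
      rw [Real.log_pow]; push_cast; ring
    rw [h2, Real.log_le_iff_le_exp (by positivity)]
    have h3 : Real.exp 17 = Real.exp 1 ^ 17 := by
      rw [← Real.exp_nat_mul]; norm_num
    rw [h3]
    have h4 : (2.7 : ℝ) ≤ Real.exp 1 := by linarith [Real.exp_one_gt_d9]
    calc (5 : ℝ) ^ 10 ≤ 2.7 ^ 17 := by norm_num
      _ ≤ Real.exp 1 ^ 17 := pow_le_pow_left₀ (by norm_num) h4 17
  linarith

lemma exp_two_ge : (4 : ℝ) ≤ Real.exp 2 := by
  have h9 : (2 : ℝ) ≤ Real.exp 1 := by linarith [Real.add_one_le_exp (1 : ℝ)]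
  have h10 : Real.exp 2 = Real.exp 1 * Real.exp 1 := by
    rw [← Real.exp_add]; norm_num
  rw [h10]; nlinarith

lemma exp_neg_one_le : Real.exp (-1) ≤ 1 / 2 := by
  have h9 : (2 : ℝ) ≤ Real.exp 1 := by linarith [Real.add_one_le_exp (1 : ℝ)]
  rw [Real.exp_neg, inv_le_comm₀ (Real.exp_pos _) (by norm_num)]
  norm_num; exact h9

/-- (F4): the error term in the weight of single targets -/
lemma num_hE (hn : 1 ≤ n) (C1 C3 c : ℝ) (hC1 : 0 < C1) (hC3 : 0 ≤ C3) (hc0 : 0 ≤ c)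
    (hc : c ≤ 1 / 2) (hL0 : 0 ≤ Real.log n) (hLn : Real.log n ≤ n) (hC3n : C3 ≤ n) :
    (c * n * Real.log n) * ((C3 * Real.sqrt n) *
      Real.exp (-((25600 / 9 * n) * ((C1 + 1) * Real.sqrt (Real.log n / n)) ^ 2))) ≤
      Real.exp (-C1 * Real.log n) / 2 := by
  have hn0 : (1 : ℝ) ≤ n := by exact_mod_cast hn
  have hnpos : (0 : ℝ) < n := by linarith
  set L := Real.log n with hL
  have h1 : ((C1 + 1) * Real.sqrt (L / n)) ^ 2 = (C1 + 1) ^ 2 * (L / n) := by
    rw [mul_pow, Real.sq_sqrt (by positivity)]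
  have h2 : (25600 / 9 * (n : ℝ)) * ((C1 + 1) ^ 2 * (L / n)) = 25600 / 9 * (C1 + 1) ^ 2 * L := by
    field_simp
  rw [h1, h2]
  have h3 : Real.exp (-(25600 / 9 * (C1 + 1) ^ 2 * L)) ≤
      Real.exp (-C1 * L) * Real.exp (-(4 * L)) := by
    rw [← Real.exp_add, Real.exp_le_exp]
    have : C1 + 4 ≤ 25600 / 9 * (C1 + 1) ^ 2 := by nlinarith
    nlinarith
  have h4 : Real.exp (-(4 * L)) = 1 / (n : ℝ) ^ 4 := by
    have : -(4 * L) = -((4 : ℕ) * L) := by norm_num
    rw [this, Real.exp_neg, Real.exp_nat_mul, hL, Real.exp_log hnpos, one_div]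
  have h5 : Real.sqrt n ≤ n := by
    rw [Real.sqrt_le_left hnpos.le]; nlinarith
  have h6 : c * n * L * (C3 * Real.sqrt n) ≤ (n : ℝ) ^ 4 / 2 := by
    calc c * n * L * (C3 * Real.sqrt n) ≤ (1 / 2) * n * n * (n * n) := by gcongr
      _ = (n : ℝ) ^ 4 / 2 := by ring
  have hpos : (0 : ℝ) < (n : ℝ) ^ 4 := by positivity
  calc c * n * L * (C3 * Real.sqrt n * Real.exp (-(25600 / 9 * (C1 + 1) ^ 2 * L)))
      = (c * n * L * (C3 * Real.sqrt n)) * Real.exp (-(25600 / 9 * (C1 + 1) ^ 2 * L)) := by ring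
    _ ≤ ((n : ℝ) ^ 4 / 2) * (Real.exp (-C1 * L) * Real.exp (-(4 * L))) := by
        refine mul_le_mul h6 h3 (Real.exp_pos _).le (by positivity)
    _ = Real.exp (-C1 * L) / 2 := by
        rw [h4]; field_simp

/-- (F6): the lower bound for the probability of hitting all targets. -/
lemma num_ha (hn : 1 ≤ n) (C1 C4 c : ℝ) (hC1 : 0 < C1) (hC4 : 0 < C4)
    (hc : c = 1 / (40 * (C1 + 2))) (hL1 : 1 ≤ Real.log n)
    (h80 : 80 * (C4 + 1) * Real.log n ≤ Real.sqrt n) :
    Real.exp (-(n * Real.log n / 20)) ≤ Real.exp (-((C1 + 2) * (c * n * Real.log n))) *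
      (Real.exp (-C4 * Real.log n) / 2) ^ ⌈c * Real.sqrt n * Real.log n⌉₊ := by
  have hn0 : (1 : ℝ) ≤ n := by exact_mod_cast hn
  have hnpos : (0 : ℝ) < n := by linarith
  set L := Real.log n with hL
  have hs1 : 1 ≤ Real.sqrt n := Real.one_le_sqrt.mpr hn0
  have hss : Real.sqrt n * Real.sqrt n = n := Real.mul_self_sqrt hnpos.le
  set s := Real.sqrt n with hs
  set m := ⌈c * s * L⌉₊ with hm
  have hc0 : 0 < c := by rw [hc]; positivity
  have hc1 : c ≤ 1 := by
    rw [hc, div_le_one (by positivity)]; linarith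
  have hmle : (m : ℝ) ≤ 2 * (s * L) := by
    have h1 : (m : ℝ) < c * s * L + 1 := Nat.ceil_lt_add_one (by positivity)
    have h2 : c * s * L ≤ 1 * s * L := by gcongr
    have h3 : 1 ≤ s * L := by nlinarith
    linarith
  have h1 : (C1 + 2) * (c * n * L) = n * L / 40 := by
    rw [hc]; field_simp
  have h2 : Real.exp (-((C4 + 1) * L)) ≤ Real.exp (-C4 * L) / 2 := by
    have h3 : Real.exp (-((C4 + 1) * L)) = Real.exp (-C4 * L) * Real.exp (-L) := by
      rw [← Real.exp_add]; congr 1; ring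
    have h4 : Real.exp (-L) ≤ 1 / 2 :=
      (Real.exp_le_exp.mpr (by linarith)).trans exp_neg_one_le
    rw [h3]
    have := mul_le_mul_of_nonneg_left h4 (Real.exp_pos (-C4 * L)).le
    linarith
  have h5 : Real.exp (-(n * L / 40)) ≤ (Real.exp (-C4 * L) / 2) ^ m := by
    calc Real.exp (-(n * L / 40)) ≤ Real.exp ((m : ℝ) * (-((C4 + 1) * L))) := by
          rw [Real.exp_le_exp]
          have h6 : (m : ℝ) * ((C4 + 1) * L) ≤ n * L / 40 := by
            calc (m : ℝ) * ((C4 + 1) * L) ≤ 2 * (s * L) * ((C4 + 1) * L) := by gcongr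
              _ = (80 * (C4 + 1) * L) * (s * L) / 40 := by ring
              _ ≤ s * (s * L) / 40 := by gcongr
              _ = n * L / 40 := by rw [← mul_assoc, hss]
          linarith
      _ = Real.exp (-((C4 + 1) * L)) ^ m := Real.exp_nat_mul _ _
      _ ≤ (Real.exp (-C4 * L) / 2) ^ m := pow_le_pow_left₀ (Real.exp_pos _).le h2 m
  rw [h1]
  calc Real.exp (-(n * L / 20)) = Real.exp (-(n * L / 40)) * Real.exp (-(n * L / 40)) := by
        rw [← Real.exp_add]; congr 1; ring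
    _ ≤ _ := mul_le_mul_of_nonneg_left h5 (Real.exp_pos _).le

/-- the common factor in the correlation estimates -/
lemma num_corr (hn : 1 ≤ n) (C1 C3 C4 c : ℝ) (hC1 : 0 < C1) (hC3 : 0 ≤ C3) (hC4 : 0 < C4)
    (hc0 : 0 ≤ c) (hc : c ≤ 1 / 2) (hL : 40 ≤ Real.log n) (hLn : Real.log n ≤ n)
    (hC3n : C3 ≤ n) :
    (1 / (Real.exp (-((C1 + C4) * Real.log n)) / 4)) ^
      (2 * (⌈Real.sqrt n⌉₊ + ⌈c * Real.sqrt n * Real.log n⌉₊)) *
      ((c * n * Real.log n) ^ 2 * (C3 * Real.sqrt n)) ≤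
      Real.exp ((8 * (2 + C1 + C4)) * (Real.sqrt n * (Real.log n) ^ 2) + 6 * Real.log n) := by
  have hn0 : (1 : ℝ) ≤ n := by exact_mod_cast hn
  have hnpos : (0 : ℝ) < n := by linarith
  set L := Real.log n with hLdef
  have hs1 : 1 ≤ Real.sqrt n := Real.one_le_sqrt.mpr hn0
  have hsn : Real.sqrt n ≤ n := by
    rw [Real.sqrt_le_left hnpos.le]; nlinarith
  set s := Real.sqrt n with hs
  set K := ⌈s⌉₊ + ⌈c * s * L⌉₊ with hK
  have hsL : 40 * s ≤ s * L := by nlinarith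
  have hKle : (K : ℝ) ≤ s * L := by
    have h1 : (⌈s⌉₊ : ℝ) < s + 1 := Nat.ceil_lt_add_one (by positivity)
    have h2 : (⌈c * s * L⌉₊ : ℝ) < c * s * L + 1 := Nat.ceil_lt_add_one (by positivity)
    have h3 : c * s * L ≤ 1 / 2 * s * L := by gcongr
    rw [hK]; push_cast
    nlinarith
  have h1 : 1 / (Real.exp (-((C1 + C4) * L)) / 4) ≤ Real.exp ((2 + C1 + C4) * L) := by
    have h2 : 1 / (Real.exp (-((C1 + C4) * L)) / 4) = 4 * Real.exp ((C1 + C4) * L) := by
      rw [Real.exp_neg]; field_simp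
    have h3 : (4 : ℝ) ≤ Real.exp (2 * L) :=
      exp_two_ge.trans (Real.exp_le_exp.mpr (by linarith))
    have h4 : Real.exp ((2 + C1 + C4) * L) = Real.exp (2 * L) * Real.exp ((C1 + C4) * L) := by
      rw [← Real.exp_add]; congr 1; ring
    rw [h2, h4]
    exact mul_le_mul_of_nonneg_right h3 (Real.exp_pos _).le
  have h5 : (1 / (Real.exp (-((C1 + C4) * L)) / 4)) ^ (2 * K) ≤
      Real.exp ((8 * (2 + C1 + C4)) * (s * L ^ 2)) := by
    calc (1 / (Real.exp (-((C1 + C4) * L)) / 4)) ^ (2 * K) ≤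
        Real.exp ((2 + C1 + C4) * L) ^ (2 * K) := pow_le_pow_left₀ (by positivity) h1 _
      _ = Real.exp (((2 * K : ℕ) : ℝ) * ((2 + C1 + C4) * L)) := (Real.exp_nat_mul _ _).symm
      _ ≤ Real.exp ((8 * (2 + C1 + C4)) * (s * L ^ 2)) := by
          rw [Real.exp_le_exp]
          push_cast
          calc 2 * (K : ℝ) * ((2 + C1 + C4) * L) ≤ 2 * (s * L) * ((2 + C1 + C4) * L) := by gcongr
            _ = 2 * (2 + C1 + C4) * (s * L ^ 2) := by ring
            _ ≤ (8 * (2 + C1 + C4)) * (s * L ^ 2) := by gcongr; norm_num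
  have h6 : (c * n * L) ^ 2 * (C3 * s) ≤ Real.exp (6 * L) := by
    have h7 : Real.exp (6 * L) = (n : ℝ) ^ 6 := by
      have : 6 * L = ((6 : ℕ) : ℝ) * L := by norm_num
      rw [this, Real.exp_nat_mul, hLdef, Real.exp_log hnpos]
    rw [h7]
    calc (c * n * L) ^ 2 * (C3 * s) ≤ (1 * n * n) ^ 2 * (n * n) := by
          gcongr
          linarith
      _ = (n : ℝ) ^ 6 := by ring
  rw [Real.exp_add]
  exact mul_le_mul h5 h6 (by positivity) (Real.exp_pos _).le

lemma num_hmid (hn : 1 ≤ n) {W E : ℝ} (hW : W ≤ Real.exp E)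
    (hE : E + 1 ≤ (1 / 20) * (n : ℝ) ^ (3 / 5 : ℝ)) :
    W * Real.exp (-((25600 / 9 * n) * ((n : ℝ) ^ (-(1 / 5 : ℝ))) ^ 2)) ≤ 1 / 2 := by
  have hn0 : (1 : ℝ) ≤ n := by exact_mod_cast hn
  have hnpos : (0 : ℝ) < n := by linarith
  have h1 : (n : ℝ) * ((n : ℝ) ^ (-(1 / 5 : ℝ))) ^ 2 = (n : ℝ) ^ (3 / 5 : ℝ) := by
    rw [← Real.rpow_natCast, ← Real.rpow_mul hnpos.le]
    nth_rewrite 1 [← Real.rpow_one (n : ℝ)]
    rw [← Real.rpow_add hnpos]
    norm_num
  have h2 : (25600 / 9 * (n : ℝ)) * ((n : ℝ) ^ (-(1 / 5 : ℝ))) ^ 2 =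
      25600 / 9 * (n : ℝ) ^ (3 / 5 : ℝ) := by
    rw [mul_assoc, h1]
  rw [h2]
  have h3 : 0 ≤ (n : ℝ) ^ (3 / 5 : ℝ) := by positivity
  calc W * Real.exp (-(25600 / 9 * (n : ℝ) ^ (3 / 5 : ℝ)))
      ≤ Real.exp E * Real.exp (-(25600 / 9 * (n : ℝ) ^ (3 / 5 : ℝ))) :=
        mul_le_mul_of_nonneg_right hW (Real.exp_pos _).le
    _ = Real.exp (E - 25600 / 9 * (n : ℝ) ^ (3 / 5 : ℝ)) := by
        rw [← Real.exp_add]; rfl
    _ ≤ Real.exp (-1) := by
        rw [Real.exp_le_exp]; linarith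
    _ ≤ 1 / 2 := exp_neg_one_le

lemma num_hfar (hn : 1 ≤ n) {W E : ℝ} (hW : W ≤ Real.exp E)
    (hE : E + 1 ≤ (1 / 20) * (n : ℝ) ^ (3 / 5 : ℝ)) :
    W * Real.exp (-((25600 / 9 * n) * (1 / 40) ^ 2)) ≤ (1 / 5 : ℝ) ^ n / 2 := by
  have hn0 : (1 : ℝ) ≤ n := by exact_mod_cast hn
  have hnpos : (0 : ℝ) < n := by linarith
  have h3 : (n : ℝ) ^ (3 / 5 : ℝ) ≤ n := by
    calc (n : ℝ) ^ (3 / 5 : ℝ) ≤ (n : ℝ) ^ (1 : ℝ) :=
          Real.rpow_le_rpow_of_exponent_le hn0 (by norm_num)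
      _ = n := Real.rpow_one _
  have h4 : Real.exp (-(17 / 10 * (n : ℝ))) ≤ (1 / 5 : ℝ) ^ n := by
    have h5 : (1 / 5 : ℝ) ^ n = Real.exp ((n : ℝ) * (-Real.log 5)) := by
      rw [Real.exp_nat_mul, Real.exp_neg, Real.exp_log (by norm_num), one_div]
    rw [h5, Real.exp_le_exp]
    have := log5_le
    nlinarith
  have h2 : (0 : ℝ) < (1 / 5 : ℝ) ^ n := by positivity
  calc W * Real.exp (-((25600 / 9 * n) * (1 / 40) ^ 2))
      ≤ Real.exp E * Real.exp (-((25600 / 9 * n) * (1 / 40) ^ 2)) :=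
        mul_le_mul_of_nonneg_right hW (Real.exp_pos _).le
    _ = Real.exp (E + -((25600 / 9 * n) * (1 / 40) ^ 2)) := by
        rw [← Real.exp_add]
    _ ≤ Real.exp (-(17 / 10 * (n : ℝ)) + -1) := by
        rw [Real.exp_le_exp]; linarith
    _ = Real.exp (-(17 / 10 * (n : ℝ))) * Real.exp (-1) := Real.exp_add _ _
    _ ≤ (1 / 5 : ℝ) ^ n * (1 / 2) :=
        mul_le_mul h4 exp_neg_one_le (Real.exp_pos _).le h2.le
    _ = (1 / 5 : ℝ) ^ n / 2 := by ring

lemma num_N_le (hn : 1 ≤ n) {c : ℝ} (hc0 : 0 ≤ c) (hc : c ≤ 1)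
    (hL0 : 0 ≤ Real.log n) (hLn : Real.log n ≤ n) :
    c * n * Real.log n ≤ Real.exp (2 * Real.log n) := by
  have hn0 : (1 : ℝ) ≤ n := by exact_mod_cast hn
  have hnpos : (0 : ℝ) < n := by linarith
  have h7 : Real.exp (2 * Real.log n) = (n : ℝ) ^ 2 := by
    have : 2 * Real.log n = ((2 : ℕ) : ℝ) * Real.log n := by norm_num
    rw [this, Real.exp_nat_mul, Real.exp_log hnpos]
  rw [h7]
  calc c * n * Real.log n ≤ 1 * n * n := by gcongr
    _ = (n : ℝ) ^ 2 := by ring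

lemma num_hN8 (hn : 1 ≤ n) {c : ℝ} (hc0 : 0 ≤ c) (hc : c ≤ 1)
    (hL : 40 ≤ Real.log n) (hLn : 8 * Real.log n ≤ n) :
    (1 / Real.exp (-(n * Real.log n / 20))) *
      ((c * n * Real.log n) * (3 ^ n * (2 * (n : ℝ) ^ (-(1 / 5 : ℝ))) ^ n)) ≤ (1 / 5 : ℝ) ^ n := by
  have hn0 : (1 : ℝ) ≤ n := by exact_mod_cast hn
  have hnpos : (0 : ℝ) < n := by linarith
  have hN := num_N_le hn hc0 hc (by linarith) (by linarith)
  set L := Real.log n with hLdef
  have h1 : (n : ℝ) ^ (-(1 / 5 : ℝ)) = Real.exp (-(L / 5)) := by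
    rw [Real.rpow_def_of_pos hnpos]; congr 1; ring
  have h2 : (2 * (n : ℝ) ^ (-(1 / 5 : ℝ))) ^ n = 2 ^ n * Real.exp ((n : ℝ) * (-(L / 5))) := by
    rw [h1, mul_pow, Real.exp_nat_mul]
  have h3 : 1 / Real.exp (-(n * L / 20)) = Real.exp (n * L / 20) := by
    rw [Real.exp_neg]; field_simp
  have h30 : (30 : ℝ) ^ n ≤ Real.exp ((n : ℝ) * 5) := by
    rw [Real.exp_nat_mul]
    refine pow_le_pow_left₀ (by norm_num) ?_ n
    have h9 : (2 : ℝ) ≤ Real.exp 1 := by linarith [Real.add_one_le_exp (1 : ℝ)]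
    have h10 : Real.exp 5 = Real.exp 1 ^ 5 := by
      rw [← Real.exp_nat_mul]; norm_num
    rw [h10]
    calc (30 : ℝ) ≤ 2 ^ 5 := by norm_num
      _ ≤ Real.exp 1 ^ 5 := pow_le_pow_left₀ (by norm_num) h9 5
  have h4 : (3 : ℝ) ^ n * 2 ^ n = (1 / 5) ^ n * 30 ^ n := by
    rw [← mul_pow, ← mul_pow]; norm_num
  rw [h2, h3]
  calc Real.exp (n * L / 20) * (c * n * L * (3 ^ n * (2 ^ n * Real.exp ((n : ℝ) * (-(L / 5))))))
      = (c * n * L) * (3 ^ n * 2 ^ n) * (Real.exp (n * L / 20) *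
          Real.exp ((n : ℝ) * (-(L / 5)))) := by ring
    _ ≤ Real.exp (2 * L) * ((1 / 5) ^ n * Real.exp ((n : ℝ) * 5)) * (Real.exp (n * L / 20) *
          Real.exp ((n : ℝ) * (-(L / 5)))) := by
        rw [h4]
        gcongr
    _ = (1 / 5) ^ n * (Real.exp (2 * L) * Real.exp ((n : ℝ) * 5) * (Real.exp (n * L / 20) *
          Real.exp ((n : ℝ) * (-(L / 5))))) := by ring
    _ = (1 / 5) ^ n * Real.exp (2 * L + (n : ℝ) * 5 + (n * L / 20 + (n : ℝ) * (-(L / 5)))) := by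
        rw [← Real.exp_add, ← Real.exp_add, ← Real.exp_add]
    _ ≤ (1 / 5) ^ n * 1 := by
        refine mul_le_mul_of_nonneg_left ?_ (by positivity)
        rw [Real.exp_le_one_iff]
        have : (n : ℝ) * 40 ≤ n * L := by gcongr
        nlinarith
    _ = (1 / 5) ^ n := mul_one _

lemma num_hN9 (hn : 1 ≤ n) {c : ℝ} (hc0 : 0 ≤ c) (hc : c ≤ 1)
    (hL : 40 ≤ Real.log n) (hLn : 8 * Real.log n ≤ n) :
    (c * n * Real.log n) * (3 ^ n * (2 * (1 / 40)) ^ n) ≤ (1 / 5 : ℝ) ^ n := by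
  have hn0 : (1 : ℝ) ≤ n := by exact_mod_cast hn
  have hN := num_N_le hn hc0 hc (by linarith) (by linarith)
  have h1 : (3 : ℝ) ^ n * (2 * (1 / 40)) ^ n = (1 / 5) ^ n * (3 / 4) ^ n := by
    rw [← mul_pow, ← mul_pow]; norm_num
  have h2 : (3 / 4 : ℝ) ^ n ≤ Real.exp ((n : ℝ) * (-(1 / 4))) := by
    rw [Real.exp_nat_mul]
    refine pow_le_pow_left₀ (by norm_num) ?_ n
    have := Real.add_one_le_exp (-(1 / 4 : ℝ))
    linarith
  rw [h1]
  calc c * n * Real.log n * ((1 / 5) ^ n * (3 / 4) ^ n)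
      ≤ Real.exp (2 * Real.log n) * ((1 / 5) ^ n * Real.exp ((n : ℝ) * (-(1 / 4)))) := by
        gcongr
    _ = (1 / 5) ^ n * Real.exp (2 * Real.log n + (n : ℝ) * (-(1 / 4))) := by
        rw [Real.exp_add]; ring
    _ ≤ (1 / 5) ^ n * 1 := by
        refine mul_le_mul_of_nonneg_left ?_ (by positivity)
        rw [Real.exp_le_one_iff]
        linarith
    _ = (1 / 5) ^ n := mul_one _

lemma num_final (hn : 20 ≤ n) :
    Real.exp (-(1 / (2 * (3 * (1 / 5 : ℝ) ^ n)))) ≤ Real.exp (-(4 : ℝ) ^ n) := by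
  rw [Real.exp_le_exp, neg_le_neg_iff, le_div_iff₀ (by positivity)]
  have h1 : (1 : ℝ) + n * (1 / 4) ≤ (1 + 1 / 4) ^ n :=
    one_add_mul_le_pow (by norm_num) n
  have hn' : (20 : ℝ) ≤ n := by exact_mod_cast hn
  have h2 : (6 : ℝ) ≤ (5 / 4) ^ n := by
    have : (1 + 1 / 4 : ℝ) = 5 / 4 := by norm_num
    rw [this] at h1
    linarith
  have h3 : (4 : ℝ) ^ n * (1 / 5) ^ n * (5 / 4) ^ n = 1 := by
    rw [← mul_pow, ← mul_pow]; norm_num
  have h4 : (0 : ℝ) < (4 : ℝ) ^ n * (1 / 5) ^ n := by positivity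
  nlinarith

end num

/-! ### the probability estimate, given the Gaussian estimates -/

set_option maxHeartbeats 1000000 in
theorem config_prob_of
    (hB1 : ∃ C : ℝ, 0 < C ∧ ∀ᶠ n : ℕ in atTop, ∀ z : EE n, ‖z‖ ≤ 1 + eta n →
      qw n z ≤ (n : ℝ) ^ 2 →
        1 ≤ qw n z → Real.exp (-C * qw n z) ≤ nu n (kill n z) ∧
        Real.exp (-C * Real.log n) ≤ nu n (kill n z))
    (hB3 : ∃ C : ℝ, 0 < C ∧ ∀ᶠ n : ℕ in atTop, ∀ z z' : EE n,
      ‖z‖ ≤ 1 + eta n → ‖z'‖ ≤ 1 + eta n →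
      nu n (kill n z ∩ kill n z') ≤
        C * Real.sqrt n * Real.exp (-((25600 / 9) * n * ‖z - z'‖ ^ 2)))
    (hB4 : ∀ (A : ℝ), 0 < A → ∃ C : ℝ, 0 < C ∧ ∀ᶠ n : ℕ in atTop,
      ∀ F : Finset (EE n), (F.card : ℝ) ≤ (n : ℝ) ^ 2 →
      (∀ z ∈ F, ‖z‖ ≤ 1 + eta n ∧ 1 ≤ qw n z ∧ qw n z ≤ (n : ℝ) ^ 2) →
      (∃ z₀ ∈ F, ∀ z ∈ F, ‖z - z₀‖ ≤ A * Real.sqrt (Real.log n / n)) →
      Real.exp (-C * Real.log n) ≤ nu n {u | ∀ z ∈ F, u ∈ kill n z}) :
    ∃ c : ℝ, 0 < c ∧ ∀ᶠ n : ℕ in atTop,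
    ∀ (X Y G : Finset (EE n)), X.card ≤ 3 ^ n → Y.Nonempty →
    (∀ y ∈ Y, ∑ x ∈ X, qw n (y - x) ≤ c * n * Real.log n) →
    (∀ y ∈ Y, ∀ x ∈ X, ‖y - x‖ ≤ 1 + eta n → y - x ∈ G) →
    (∀ p : EE n, ∀ r : ℝ, (r = (n : ℝ) ^ (-(1 / 5 : ℝ)) ∨ r = 1 / 40) →
      ((Y.filter (fun y => dist y p ≤ r)).card : ℝ) ≤ (2 * r) ^ n * Y.card) →
    Ex (pp n G) G.powerset
      (fun t => if ∀ y ∈ Y, ∃ x ∈ X, ‖y - x‖ ≤ 1 + eta n ∧ ∀ v ∈ t, y - x ∉ v then 1 else 0)
      ≤ Real.exp (-(4 : ℝ) ^ n) := by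
  obtain ⟨C1, hC1, hB1⟩ := hB1
  obtain ⟨C3, hC3, hB3⟩ := hB3
  obtain ⟨C4, hC4, hB4⟩ := hB4 (C1 + 1) (by linarith)
  set c : ℝ := 1 / (40 * (C1 + 2)) with hc
  have hc0 : 0 < c := by positivity
  have hc2 : c ≤ 1 / 2 := by
    rw [hc, div_le_div_iff₀ (by positivity) (by norm_num)]
    linarith
  refine ⟨c, hc0, ?_⟩
  have hcast : Tendsto (fun n : ℕ => (n : ℝ)) atTop atTop := tendsto_natCast_atTop_atTop
  have e1 := hcast.eventually (ev_main (8 * (2 + C1 + C4)))
  have e2 := hcast.eventually (ev_sqrt (80 * (C4 + 1)))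
  have e3 := hcast.eventually (ev_sqrt 8)
  have e4 : ∀ᶠ n : ℕ in atTop, 40 ≤ Real.log n :=
    hcast.eventually (Real.tendsto_log_atTop.eventually_ge_atTop 40)
  have e5 : ∀ᶠ n : ℕ in atTop, C3 ≤ n := hcast.eventually_ge_atTop C3
  filter_upwards [hB1, hB3, hB4, e1, e2, e3, e4, e5, eventually_ge_atTop 20] with n hB1 hB3 hB4
    e1 e2 e3 e4 e5 hn20
  intro X Y G hX hY hsum hG hcount
  have hn : 1 ≤ n := by omega
  have hn0 : (1 : ℝ) ≤ n := by exact_mod_cast hn
  have hnpos : (0 : ℝ) < n := by linarith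
  have hs1 : 1 ≤ Real.sqrt n := Real.one_le_sqrt.mpr hn0
  have hsn : Real.sqrt n ≤ n := by
    rw [Real.sqrt_le_left hnpos.le]; nlinarith
  have h8L : 8 * Real.log n ≤ n := e3.trans hsn
  have hLn : Real.log n ≤ n := by linarith
  have hL0 : 0 ≤ Real.log n := by linarith
  have hNn : c * n * Real.log n ≤ (n : ℝ) ^ 2 := by
    calc c * n * Real.log n ≤ 1 * n * n := by gcongr; linarith
      _ = (n : ℝ) ^ 2 := by ring
  have hexp1 : ∀ C : ℝ, 0 ≤ C → Real.exp (-C * Real.log n) ≤ 1 := by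
    intro C hC
    rw [Real.exp_le_one_iff]
    have := mul_nonneg hC hL0
    linarith
  set k0 := ⌈Real.sqrt n⌉₊ with hk0
  set m := ⌈c * Real.sqrt n * Real.log n⌉₊ with hm
  have hcorr := num_corr hn C1 C3 C4 c hC1 hC3.le hC4 hc0.le hc2 e4 hLn e5
  refine (config_core hn X Y G hY (c * n * Real.log n) k0 (k0 + m) m C1
    (Real.exp (-C1 * Real.log n)) (Real.exp (-C4 * Real.log n)) (C3 * Real.sqrt n)
    (25600 / 9 * n) ((C1 + 1) * Real.sqrt (Real.log n / n))
    (Real.exp (-((C1 + C4) * Real.log n)) / 4) (Real.exp (-(n * Real.log n / 20)))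
    ((1 / 5) ^ n) ((n : ℝ) ^ (-(1 / 5 : ℝ))) (by exact_mod_cast hX) hsum hG
    (fun p => hcount p _ (Or.inl rfl)) (fun p => hcount p _ (Or.inr rfl)) ?_ ?_ ?_
    (Real.exp_pos _) (hexp1 C1 hC1.le) (Real.exp_pos _) (hexp1 C4 hC4.le) (by positivity)
    (by positivity) hC1.le (by positivity) (by positivity) ?_ (by positivity) ?_ ?_
    ?_ ?_ le_rfl (Real.exp_pos _) ?_ ?_ (by positivity) ?_ ?_ ?_ ?_).trans (num_final hn20)
  · -- B1
    intro z hz hq1 hq2
    obtain ⟨h1, h2⟩ := hB1 z hz (hq2.trans hNn) hq1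
    rw [neg_mul] at h1
    exact ⟨h1, h2⟩
  · -- B3
    intro z z' hz hz'
    exact hB3 z z' hz hz'
  · -- B4
    intro F hF hFz hF0
    exact hB4 F (hF.trans hNn) (fun z hz => ⟨(hFz z hz).1, (hFz z hz).2.1,
      (hFz z hz).2.2.trans hNn⟩) hF0
  · -- hE
    exact num_hE hn C1 C3 c hC1 hC3.le hc0.le hc2 hL0 hLn e5
  · -- π ≤ b / 4
    refine div_le_div_of_nonneg_right ?_ (by norm_num)
    rw [Real.exp_le_exp]
    nlinarith
  · -- π ≤ b4 / 2
    have h1 : Real.exp (-((C1 + C4) * Real.log n)) ≤ Real.exp (-C4 * Real.log n) := by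
      rw [Real.exp_le_exp]; nlinarith
    have h2 := Real.exp_pos (-C4 * Real.log n)
    linarith
  · -- 1 ≤ k0
    exact Nat.one_le_iff_ne_zero.mpr (Nat.ceil_pos.mpr (by linarith)).ne'
  · -- N ≤ k0 * m
    have h1 : Real.sqrt n ≤ k0 := Nat.le_ceil _
    have h2 : c * Real.sqrt n * Real.log n ≤ m := Nat.le_ceil _
    calc c * n * Real.log n = Real.sqrt n * (c * Real.sqrt n * Real.log n) := by
          have : (n : ℝ) = Real.sqrt n * Real.sqrt n := (Real.mul_self_sqrt hnpos.le).symm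
          nth_rewrite 1 [this]
          ring
      _ ≤ k0 * m := mul_le_mul h1 h2 (by positivity) (by positivity)
  · -- ha
    exact num_ha hn C1 C4 c hC1 hC4 hc (by linarith) e2
  · -- hmid
    have := num_hmid hn hcorr e1
    refine le_trans (le_of_eq ?_) this
    ring
  · -- δ ≤ 1
    exact pow_le_one₀ (by norm_num) (by norm_num)
  · -- hfar
    have := num_hfar hn hcorr e1
    refine le_trans (le_of_eq ?_) this
    ring
  · exact num_hN8 hn hc0.le (by linarith) e4 h8L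
  · exact num_hN9 hn hc0.le (by linarith) e4 h8L

end Crest.Agent.R225.LB
end

-- ▼ part R225/LB/Gauss2
section

/-!
Row 225, S0348: B1, B2, B3 (kill intensities).
-/

set_option autoImplicit false

namespace Crest.Agent.R225.LB

open MeasureTheory ProbabilityTheory Finset Filter Set


theorem eta_pos {n : ℕ} (hn : 0 < n) : 0 < eta n := by
  unfold eta; positivity

/-- B3 -/
theorem nu_kill_inter_le : ∃ C : ℝ, 0 < C ∧ ∀ᶠ n : ℕ in atTop, ∀ z z' : EE n,
    ‖z‖ ≤ 1 + eta n → ‖z'‖ ≤ 1 + eta n →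
    nu n (kill n z ∩ kill n z') ≤
      C * Real.sqrt n * Real.exp (-((25600 / 9) * n * ‖z - z'‖ ^ 2)) := by
  refine ⟨160 * Real.exp 4, by positivity, ?_⟩
  filter_upwards [eventually_ge_atTop 1000] with n hn z z' hz hz'
  have hn0 : 0 < n := by omega
  have hnr : (1000 : ℝ) ≤ n := by exact_mod_cast hn
  have hs := s0_pos hn0
  have hQ := Q_pos (s0 n)
  set m : EE n := (1 / 2 : ℝ) • (z + z') with hm
  have hsub : kill n z ∩ kill n z' ⊆ {u | s0 n ≤ inner ℝ u m} := by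
    rintro u ⟨h1, h2⟩
    simp only [kill, mem_ofPred_eq] at h1 h2 ⊢
    rw [hm, inner_smul_right, inner_add_right]
    linarith
  have hη : eta n ≤ 1 / (1000 ^ 2 * n) := by
    unfold eta
    refine one_div_le_one_div_of_le (by positivity) ?_
    nlinarith [mul_le_mul hnr hnr (by norm_num) (by positivity)]
  have hη0 := eta_pos hn0
  set d := ‖z - z'‖ with hd
  -- parallelogram
  have hpar : ‖m‖ ^ 2 ≤ (1 + eta n) ^ 2 - d ^ 2 / 4 := by
    have h1 : ‖z + z'‖ ^ 2 + ‖z - z'‖ ^ 2 = 2 * (‖z‖ ^ 2 + ‖z'‖ ^ 2) := by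
      have := parallelogram_law_with_norm ℝ z z'
      nlinarith
    have h2 : ‖m‖ = ‖z + z'‖ / 2 := by
      rw [hm, norm_smul]; norm_num; ring
    rw [h2]
    have h3 : ‖z‖ ^ 2 ≤ (1 + eta n) ^ 2 := pow_le_pow_left₀ (norm_nonneg _) hz 2
    have h4 : ‖z'‖ ^ 2 ≤ (1 + eta n) ^ 2 := pow_le_pow_left₀ (norm_nonneg _) hz' 2
    nlinarith
  have hnη : (n:ℝ) * eta n ≤ 1 / 1000 ^ 2 := by
    calc (n:ℝ) * eta n ≤ n * (1 / (1000 ^ 2 * n)) := mul_le_mul_of_nonneg_left hη (by positivity)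
      _ = 1 / 1000 ^ 2 := by field_simp
  have hη1 : eta n ≤ 1 / 1000 ^ 3 := by nlinarith
  -- the exponent
  have hexp : Real.exp (-(s0 n / ‖m‖) ^ 2 / 2) ≤
      Real.exp (1 - 12800 * n - (25600 / 9) * n * d ^ 2) ∨ m = 0 := by
    rcases eq_or_ne m 0 with h0 | h0
    · exact Or.inr h0
    left
    have hm0 : 0 < ‖m‖ := norm_pos_iff.2 h0
    refine Real.exp_le_exp.2 ?_
    rw [div_pow, s0_sq]
    have hm2 : 0 < ‖m‖ ^ 2 := by positivity
    -- 1/‖m‖² ≥ (1 - 2η')(1 + ...)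
    have hkey : 1 - 1 / (12800 * n) + (2 / 9) * d ^ 2 ≤ 1 / ‖m‖ ^ 2 := by
      rw [le_div_iff₀ hm2]
      have hd4 : d ^ 2 / 4 ≤ (1 + eta n) ^ 2 := by nlinarith
      have hE : (1 + eta n) ^ 2 ≤ 1 + 3 * eta n := by nlinarith
      have hcoef : 0 ≤ 1 - 1 / (12800 * (n:ℝ)) + (2 / 9) * d ^ 2 := by
        have : 1 / (12800 * (n:ℝ)) ≤ 1 := by
          rw [div_le_one (by positivity)]; nlinarith
        nlinarith [sq_nonneg d]
      refine (mul_le_mul_of_nonneg_left hpar hcoef).trans ?_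
      have hx : 3 * eta n ≤ 1 / (12800 * n) * (1/2) := by
        have h5 : 3 * eta n ≤ 3 * (1 / (1000 ^ 2 * n)) := by linarith
        refine h5.trans ?_
        have : (0:ℝ) < n := by positivity
        have e1 : 3 * (1 / (1000 ^ 2 * (n:ℝ))) = (3 / 1000 ^ 2) * (1 / n) := by field_simp
        have e2 : 1 / (12800 * (n:ℝ)) * (1 / 2) = (1 / 25600) * (1 / n) := by field_simp; norm_num
        rw [e1, e2]
        exact mul_le_mul_of_nonneg_right (by norm_num) (by positivity)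
      set q := 1 / (12800 * (n:ℝ)) with hq
      have hq0 : 0 < q := by positivity
      have hq1 : q ≤ 1 / 100 := by
        rw [hq, div_le_div_iff₀ (by positivity) (by norm_num)]; nlinarith
      have hd2 : 0 ≤ d ^ 2 := sq_nonneg d
      have hd5 : d ^ 2 ≤ 5 := by nlinarith
      -- (1 - q + 2/9 D)(1 + q/2 - D/4) ≤ 1
      have : (1 + eta n) ^ 2 - d ^ 2 / 4 ≤ 1 + q / 2 - d ^ 2 / 4 := by linarith
      refine (mul_le_mul_of_nonneg_left this hcoef).trans ?_
      nlinarith [mul_nonneg hq0.le hd2, mul_nonneg hd2 hd2]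
    have : -(25600 * (n:ℝ) / ‖m‖ ^ 2) / 2 = -(12800 * n * (1 / ‖m‖ ^ 2)) := by ring
    rw [this]
    have hn12 : (0:ℝ) < 12800 * n := by positivity
    have h6 := mul_le_mul_of_nonneg_left hkey hn12.le
    have h7 : 12800 * (n:ℝ) * (1 - 1 / (12800 * n) + (2 / 9) * d ^ 2) =
        12800 * n - 1 + (25600 / 9) * n * d ^ 2 := by
      field_simp
      ring
    rw [h7] at h6
    linarith
  have hgam : gam n {u | s0 n ≤ inner ℝ u m} ≤
      Real.exp (1 - 12800 * n - (25600 / 9) * n * d ^ 2) := by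
    rcases hexp with h | h
    · exact (gam_halfspace_le m hs).trans h
    · have : {u : EE n | s0 n ≤ inner ℝ u m} = ∅ := by
        ext u; simp [h, hs]
      rw [this]
      simp only [gam, measureReal_empty]
      positivity
  refine (nu_mono hsub).trans ((nu_le n _).trans ?_)
  rw [div_le_iff₀ hQ]
  refine hgam.trans ?_
  have hQ2 := Q_s0_ge hn0
  rw [div_le_iff₀ hs] at hQ2
  have hss : s0 n = 160 * √n := rfl
  calc Real.exp (1 - 12800 * n - (25600 / 9) * n * d ^ 2)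
      = Real.exp 4 * Real.exp (-((25600 / 9) * n * d ^ 2)) * Real.exp (-3 - 12800 * n) := by
        rw [← Real.exp_add, ← Real.exp_add]; congr 1; ring
    _ ≤ Real.exp 4 * Real.exp (-((25600 / 9) * n * d ^ 2)) * (Q (s0 n) * s0 n) :=
        mul_le_mul_of_nonneg_left hQ2 (by positivity)
    _ = _ := by rw [hss]; ring

/-- B2 -/
theorem nu_kill_le : ∀ᶠ n : ℕ in atTop, ∀ z : EE n, ‖z‖ ≤ 1 - 1 / n →
    nu n {u | s0 n - 1 / s0 n ≤ inner ℝ u z} ≤ 1 / 8 := by
  filter_upwards [eventually_ge_atTop 200] with n hn z hz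
  have hn0 : 0 < n := by omega
  have hnr : (200 : ℝ) ≤ n := by exact_mod_cast hn
  have hs := s0_pos hn0
  have hs1 := one_le_s0 hn0
  have hs2 := s0_sq n
  have hQ := Q_pos (s0 n)
  have hs100 : 100 ≤ s0 n := by nlinarith
  refine (nu_le n _).trans ?_
  rw [div_le_iff₀ hQ]
  have hpos : 0 < s0 n - 1 / s0 n := by
    have : 1 / s0 n ≤ 1 := by rw [div_le_one hs]; exact hs1
    linarith
  rcases eq_or_ne z 0 with rfl | h0
  · have : {u : EE n | s0 n - 1 / s0 n ≤ inner ℝ u (0 : EE n)} = ∅ := by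
      ext u
      simp only [inner_zero_right, mem_ofPred_eq, mem_empty_iff_false, iff_false, not_le]
      exact hpos
    rw [this]
    simp only [gam, measureReal_empty]
    positivity
  rw [gam_halfspace z h0]
  have hz0 : 0 < ‖z‖ := norm_pos_iff.2 h0
  -- the threshold
  set a := s0 n / n - 2 / s0 n with ha
  have ha0 : 0 ≤ a := by
    rw [ha, sub_nonneg, div_le_div_iff₀ hs (by positivity)]
    nlinarith
  have hthr : s0 n + a ≤ (s0 n - 1 / s0 n) / ‖z‖ := by
    rw [le_div_iff₀ hz0]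
    have h1 : (s0 n + a) * ‖z‖ ≤ (s0 n + a) * (1 - 1 / n) :=
      mul_le_mul_of_nonneg_left hz (by linarith)
    refine h1.trans ?_
    have h2 : a * (1 - 1 / (n:ℝ)) ≤ a := by
      have : (0:ℝ) < 1 / n := by positivity
      nlinarith
    have h3 : (s0 n + a) * (1 - 1 / (n:ℝ)) = s0 n - s0 n / n + a * (1 - 1 / n) := by ring
    rw [h3]
    have h4 : 2 / s0 n = 1 / s0 n + 1 / s0 n := by ring
    have h5 : 0 < 1 / s0 n := by positivity
    rw [ha] at h2 ⊢
    linarith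
  refine (Q_anti hthr).trans ((Q_add_le ha0).trans ?_)
  refine mul_le_mul_of_nonneg_right ?_ hQ.le
  have h6 : 3 ≤ a * s0 n := by
    have h7 : a * s0 n = s0 n ^ 2 / n - 2 := by rw [ha]; field_simp
    rw [h7, hs2]
    have : 25600 * (n:ℝ) / n = 25600 := by field_simp
    rw [this]; norm_num
  calc Real.exp (-(a * s0 n)) ≤ Real.exp (-3) := Real.exp_le_exp.2 (by linarith)
    _ ≤ 1 / 8 := by
      rw [Real.exp_neg, ← one_div]
      refine one_div_le_one_div_of_le (by norm_num) ?_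
      have h8 : Real.exp 3 = Real.exp 1 ^ 3 := by rw [← Real.exp_nat_mul]; norm_num
      rw [h8]
      have h9 := Real.exp_one_gt_d9
      have h10 : (2:ℝ) ≤ Real.exp 1 := by linarith
      calc (8:ℝ) = 2 ^ 3 := by norm_num
        _ ≤ _ := pow_le_pow_left₀ (by norm_num) h10 3

/-- depth of a point from its weight. -/
theorem qw_ge_exp {n : ℕ} (z : EE n) (j : ℕ) (hj : j < n) (hz : ‖z‖ ≤ 1 + eta n - j / n) :
    Real.exp (j / 2) ≤ qw n z := by
  classical
  unfold qw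
  have : Real.exp ((j:ℝ) / 2) = Real.exp ((j:ℝ) / 2) *
      (if ‖z‖ ≤ 1 + eta n - (j:ℝ) / n then 1 else 0) := by rw [if_pos hz, mul_one]
  rw [this]
  refine Finset.single_le_sum (f := fun j : ℕ => Real.exp ((j:ℝ) / 2) *
      (if ‖z‖ ≤ 1 + eta n - (j:ℝ) / n then (1:ℝ) else 0)) (fun i _ => ?_) (Finset.mem_range.2 hj)
  positivity

theorem eventually_log_le (K : ℝ) (hK : 0 < K) : ∀ᶠ n : ℕ in atTop, 1 + K * Real.log n ≤ n := by
  have h1 : ∀ᶠ x : ℝ in atTop, ‖Real.log x‖ ≤ (1 / (2 * K)) * ‖x‖ :=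
    Real.isLittleO_log_id_atTop.bound (by positivity)
  have h2 := (tendsto_natCast_atTop_atTop (R := ℝ)).eventually h1
  filter_upwards [h2, eventually_ge_atTop 2] with n hn h2n
  have h2r : (2:ℝ) ≤ n := by exact_mod_cast h2n
  rw [Real.norm_of_nonneg (by positivity : (0:ℝ) ≤ n), Real.norm_eq_abs] at hn
  have h3 := (le_abs_self _).trans hn
  have h4 : K * Real.log n ≤ K * (1 / (2 * K) * n) := mul_le_mul_of_nonneg_left h3 hK.le
  have h5 : K * (1 / (2 * K) * (n:ℝ)) = n / 2 := by field_simp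
  linarith

/-- B1 -/
theorem nu_kill_ge : ∃ C : ℝ, 0 < C ∧ ∀ᶠ n : ℕ in atTop, ∀ z : EE n, ‖z‖ ≤ 1 + eta n →
    qw n z ≤ (n : ℝ) ^ 2 →
      1 ≤ qw n z → Real.exp (-C * qw n z) ≤ nu n (kill n z) ∧
      Real.exp (-C * Real.log n) ≤ nu n (kill n z) := by
  refine ⟨700000, by norm_num, ?_⟩
  filter_upwards [eventually_log_le 614500 (by norm_num), nu_ge, eventually_ge_atTop 1000]
    with n hlog hnu hn z hz hq hq1
  have hn0 : 0 < n := by omega
  have hnr : (1000 : ℝ) ≤ n := by exact_mod_cast hn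
  have hs := s0_pos hn0
  have hs1 := one_le_s0 hn0
  have hs2 := s0_sq n
  have hQ := Q_pos (s0 n)
  have hη0 := eta_pos hn0
  have hlog1 : 1 ≤ Real.log n := by
    rw [Real.le_log_iff_exp_le (by positivity)]
    have := Real.exp_one_lt_d9
    linarith
  set t : ℝ := n * (1 + eta n - ‖z‖) with ht
  have ht0 : 0 ≤ t := mul_nonneg (by positivity) (by linarith)
  set j := ⌊t⌋₊ with hj
  have hjt : (j:ℝ) ≤ t := Nat.floor_le ht0
  have htj : t < j + 1 := Nat.lt_floor_add_one t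
  have hzt : ‖z‖ = 1 + eta n - t / n := by
    rw [ht]; field_simp; ring
  -- `j < n`
  have hjn : j < n := by
    by_contra hcon
    push Not at hcon
    have h1 : ((n - 1 : ℕ) : ℝ) ≤ t := by
      have : (n:ℝ) ≤ j := by exact_mod_cast hcon
      have h2 : ((n - 1 : ℕ) : ℝ) ≤ n := by exact_mod_cast Nat.sub_le n 1
      linarith
    have h3 : ‖z‖ ≤ 1 + eta n - ((n - 1 : ℕ) : ℝ) / n := by
      rw [hzt]
      have : ((n - 1 : ℕ) : ℝ) / n ≤ t / n := div_le_div_of_nonneg_right h1 (by positivity)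
      linarith
    have h4 := (qw_ge_exp z (n - 1) (by omega) h3).trans hq
    have h5 : Real.exp (2 * Real.log n) = (n:ℝ) ^ 2 := by
      rw [mul_comm, Real.exp_mul, Real.exp_log (by positivity)]; norm_num
    rw [← h5, Real.exp_le_exp] at h4
    have h6 : ((n - 1 : ℕ) : ℝ) = n - 1 := by
      rw [Nat.cast_sub (by omega)]; norm_num
    rw [h6] at h4
    linarith
  have hqj : Real.exp ((j:ℝ) / 2) ≤ qw n z := by
    refine qw_ge_exp z j hjn ?_
    rw [hzt]
    have : (j:ℝ) / n ≤ t / n := div_le_div_of_nonneg_right hjt (by positivity)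
    linarith
  have hj1 : (j:ℝ) ≤ 4 * Real.log n := by
    have h4 := hqj.trans hq
    have h5 : Real.exp (2 * Real.log n) = (n:ℝ) ^ 2 := by
      rw [mul_comm, Real.exp_mul, Real.exp_log (by positivity)]; norm_num
    rw [← h5, Real.exp_le_exp] at h4
    linarith
  have hj2 : t + 1 ≤ 2 * qw n z := by
    have := Real.add_one_le_exp ((j:ℝ) / 2)
    linarith
  have hj3 : t + 1 ≤ 6 * Real.log n := by linarith
  -- the threshold
  set x := t / n with hx
  have hx0 : 0 ≤ x := by positivity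
  have hx1 : x ≤ 1 / 2 := by
    rw [hx, div_le_iff₀ (by positivity)]; linarith
  have hzx : 1 - x ≤ ‖z‖ := by rw [hzt]; linarith
  have hz0 : 0 < ‖z‖ := by linarith
  have hzne : z ≠ 0 := norm_pos_iff.1 hz0
  set a := 2 * s0 n * x with ha
  have ha0 : 0 ≤ a := by positivity
  have hthr : s0 n / ‖z‖ ≤ s0 n + a := by
    rw [div_le_iff₀ hz0]
    have h1 : s0 n + a = s0 n * (1 + 2 * x) := by rw [ha]; ring
    rw [h1, mul_assoc]
    have h2 : 1 ≤ (1 + 2 * x) * ‖z‖ := by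
      have : (1 + 2 * x) * (1 - x) ≤ (1 + 2 * x) * ‖z‖ :=
        mul_le_mul_of_nonneg_left hzx (by linarith)
      nlinarith
    nlinarith
  have hgam : Real.exp (-(102400 * (t + 1))) * Q (s0 n) ≤ gam n (kill n z) := by
    have h1 : gam n (kill n z) = Q (s0 n / ‖z‖) := gam_halfspace z hzne _
    rw [h1]
    refine le_trans ?_ (Q_anti hthr)
    refine le_trans ?_ (Q_add_ge hs ha0)
    refine mul_le_mul_of_nonneg_right (Real.exp_le_exp.2 (neg_le_neg ?_)) hQ.le
    have h2 : a * s0 n = 51200 * t := by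
      have : a * s0 n = 2 * x * s0 n ^ 2 := by rw [ha]; ring
      rw [this, hs2, hx]; field_simp; ring
    have h3 : (a + 1 / s0 n) ^ 2 / 2 ≤ a ^ 2 + 1 := by
      have h4 : 1 / s0 n ≤ 1 := by rw [div_le_one hs]; exact hs1
      have h5 : 0 < 1 / s0 n := by positivity
      nlinarith [sq_nonneg (a - 1 / s0 n)]
    have h6 : a ^ 2 ≤ 51200 * t := by
      have h7 : a ^ 2 = 102400 * t * x := by
        have : a ^ 2 = 4 * x ^ 2 * s0 n ^ 2 := by rw [ha]; ring
        rw [this, hs2, hx]; field_simp; ring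
      rw [h7]
      nlinarith
    linarith
  have hmain : Real.exp (-(102401 * (t + 1))) ≤ nu n (kill n z) := by
    have h1 := hnu (kill n z)
    have h2 : Real.exp (-(102400 * (t + 1))) ≤ gam n (kill n z) / Q (s0 n) := by
      rw [le_div_iff₀ hQ]; exact hgam
    have h3 : Real.exp (-(n:ℝ)) ≤ Real.exp (-(102400 * (t + 1)) - 1) := by
      refine Real.exp_le_exp.2 ?_
      linarith
    have h4 : Real.exp (-(102400 * (t + 1)) - 1) ≤ Real.exp (-(102400 * (t + 1))) * (1 / 2) := by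
      rw [Real.exp_sub, div_eq_mul_one_div]
      refine mul_le_mul_of_nonneg_left ?_ (Real.exp_pos _).le
      have := Real.exp_one_gt_d9
      exact one_div_le_one_div_of_le (by norm_num) (by linarith)
    have h5 : Real.exp (-(102401 * (t + 1))) ≤ Real.exp (-(102400 * (t + 1)) - 1) := by
      refine Real.exp_le_exp.2 ?_
      linarith
    linarith
  constructor
  · refine le_trans (Real.exp_le_exp.2 ?_) hmain
    linarith
  · refine le_trans (Real.exp_le_exp.2 ?_) hmain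
    linarith

end Crest.Agent.R225.LB
end

-- ▼ part R225/LB/B4
section

set_option autoImplicit false

namespace Crest.Agent.R225.LB.B4

open MeasureTheory ProbabilityTheory Finset Filter Crest.Agent.R225.LB

lemma map_inner {n : ℕ} (v : EE n) :
    (stdGaussian (EE n)).map (fun u => inner ℝ u v) =
      gaussianReal 0 ⟨‖v‖ ^ 2, sq_nonneg _⟩ := by
  have h := IsGaussian.map_eq_gaussianReal (μ := stdGaussian (EE n)) (innerSL ℝ v)
  have h1 : (fun u : EE n => inner ℝ u v) = (innerSL ℝ v) := by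
    funext u
    simp [real_inner_comm]
  rw [h1, h, integral_strongDual_stdGaussian, variance_dual_stdGaussian]
  congr 1
  ext
  simp
  rfl

lemma mgf_inner {n : ℕ} (v : EE n) (t : ℝ) :
    mgf (fun u => inner ℝ u v) (stdGaussian (EE n)) t = Real.exp (‖v‖ ^ 2 * t ^ 2 / 2) := by
  rw [mgf_gaussianReal (map_inner v)]
  simp
  exact Or.inl rfl

lemma integrable_exp_inner {n : ℕ} (v : EE n) (t : ℝ) :
    Integrable (fun u => Real.exp (t * inner ℝ u v)) (stdGaussian (EE n)) := by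
  by_contra hcon
  have h1 := mgf_inner v t
  rw [mgf, integral_undef hcon] at h1
  exact absurd h1 (Real.exp_pos _).ne

lemma chernoff {n : ℕ} (v : EE n) (c : ℝ) :
    (stdGaussian (EE n)).real {u | c ≤ inner ℝ u v} ≤ Real.exp (-c + ‖v‖ ^ 2 / 2) := by
  have h := measure_ge_le_exp_mul_mgf (μ := stdGaussian (EE n)) (X := fun u => inner ℝ u v) (t := 1)
    c zero_le_one (integrable_exp_inner v 1)
  rw [mgf_inner, ← Real.exp_add] at h
  refine h.trans (le_of_eq ?_)
  congr 1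
  ring

lemma Q_le (s : ℝ) (hs : 0 ≤ s) : Q s ≤ Real.exp (-(s ^ 2 / 2)) := by
  have hint : Integrable (fun x => Real.exp (s * x)) (gaussianReal 0 1) := by
    by_contra hcon
    have h1 := congrFun (mgf_id_gaussianReal (μ := 0) (v := 1)) s
    rw [mgf] at h1
    simp only [id] at h1
    rw [integral_undef hcon] at h1
    exact absurd h1 (Real.exp_pos _).ne
  have h := measure_ge_le_exp_mul_mgf (μ := gaussianReal 0 1) (X := id) (t := s)
    s hs hint
  rw [mgf_id_gaussianReal, ← Real.exp_add] at h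
  have h2 : Q s = (gaussianReal 0 1).real {ω | s ≤ id ω} := rfl
  rw [h2]
  refine h.trans (le_of_eq ?_)
  congr 1
  simp
  ring

lemma Q_ge (s : ℝ) (hs : 1 ≤ s) : Real.exp (-3 - s ^ 2 / 2) / s ≤ Q s := by
  have hs0 : 0 < s := by linarith
  have h1 : (gaussianReal 0 1).real (Set.Icc s (s + 1 / s)) ≤ Q s :=
    measureReal_mono Set.Icc_subset_Ici_self
  refine le_trans ?_ h1
  rw [Measure.real, gaussianReal_apply_eq_integral _ one_ne_zero, ENNReal.toReal_ofReal
    (integral_nonneg (fun x => gaussianPDFReal_nonneg _ _ _))]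
  have h2 : ∫ x in Set.Icc s (s + 1 / s), Real.exp (-3 - s ^ 2 / 2) ≤
      ∫ x in Set.Icc s (s + 1 / s), gaussianPDFReal 0 1 x := by
    apply setIntegral_mono_on
    · simp
    · exact (integrable_gaussianPDFReal 0 1).integrableOn
    · exact measurableSet_Icc
    · intro x hx
      rw [gaussianPDFReal]
      have hx2 : x ^ 2 ≤ s ^ 2 + 3 := by
        have h3 : x ^ 2 ≤ (s + 1 / s) ^ 2 := by
          apply pow_le_pow_left₀ (by linarith [hx.1]) hx.2
        have h4 : (s + 1 / s) ^ 2 = s ^ 2 + 2 + (1 / s) ^ 2 := by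
          field_simp
          ring
        have h5 : (1 / s) ^ 2 ≤ 1 := by
          apply pow_le_one₀ (by positivity)
          rw [div_le_one hs0]; exact hs
        linarith
      have hpi : Real.sqrt (2 * Real.pi * ((1 : NNReal) : ℝ)) ≤ Real.exp 1 := by
        rw [Real.sqrt_le_left (Real.exp_pos _).le]
        have : Real.exp 1 > 2.7182818283 := Real.exp_one_gt_d9
        have : Real.pi < 3.15 := Real.pi_lt_d2
        push_cast
        nlinarith
      have hpos : 0 < Real.sqrt (2 * Real.pi * ((1 : NNReal) : ℝ)) := by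
        apply Real.sqrt_pos.mpr
        push_cast
        positivity
      have h6 : Real.exp (-1) ≤ (Real.sqrt (2 * Real.pi * ((1 : NNReal) : ℝ)))⁻¹ := by
        rw [Real.exp_neg]
        exact inv_anti₀ hpos hpi
      have h7 : Real.exp (-3 - s ^ 2 / 2) ≤
          Real.exp (-1) * Real.exp (-(x - 0) ^ 2 / (2 * ((1 : NNReal) : ℝ))) := by
        rw [← Real.exp_add]
        apply Real.exp_le_exp.mpr
        push_cast
        linarith
      refine h7.trans ?_
      exact mul_le_mul_of_nonneg_right h6 (Real.exp_pos _).le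
  refine le_trans (le_of_eq ?_) h2
  rw [setIntegral_const, Measure.real, Real.volume_Icc, ENNReal.toReal_ofReal (by
    have : 0 < 1 / s := by positivity
    linarith)]
  rw [smul_eq_mul]
  ring

lemma P_ge {n : ℕ} (v : EE n) (hv : v ≠ 0) (a : ℝ) :
    (stdGaussian (EE n)).real {u | a ≤ inner ℝ u v} = Q (a / ‖v‖) := by
  have hn : 0 < ‖v‖ := norm_pos_iff.mpr hv
  set w : EE n := (1 / ‖v‖) • v with hw
  have hw1 : ‖w‖ = 1 := by
    rw [hw, norm_smul, Real.norm_of_nonneg (by positivity)]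
    field_simp
  have h1 : {u : EE n | a ≤ inner ℝ u v} = (fun u : EE n => inner ℝ u w) ⁻¹' (Set.Ici (a / ‖v‖)) := by
    ext u
    simp only [Set.mem_ofPred_eq, Set.mem_preimage, Set.mem_Ici, hw, inner_smul_right]
    rw [div_le_iff₀ hn]
    have : 1 / ‖v‖ * inner ℝ u v * ‖v‖ = inner ℝ u v := by field_simp
    rw [this]
  have h2 : (stdGaussian (EE n)).map (fun u => inner ℝ u w) = gaussianReal 0 1 := by
    rw [map_inner]
    congr 1
    ext
    simp [hw1]
    rfl
  rw [h1, Q, ← h2, map_measureReal_apply (by fun_prop) measurableSet_Ici]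

/-- complement of the box -/
lemma box_compl {n : ℕ} (hn : 0 < n) :
    (stdGaussian (EE n)).real (box n)ᶜ ≤ 2 * n * Real.exp (-((n : ℝ) ^ 2 / 2)) := by
  have hn' : (0 : ℝ) < n := by exact_mod_cast hn
  have hsub : (box n)ᶜ ⊆ ⋃ i ∈ (Finset.univ : Finset (Fin n)),
      ({u : EE n | (n : ℝ) ^ 2 ≤ inner ℝ u (EuclideanSpace.single i (n : ℝ))} ∪
       {u : EE n | (n : ℝ) ^ 2 ≤ inner ℝ u (EuclideanSpace.single i (-(n : ℝ)))}) := by
    intro u hu
    simp only [box, Set.mem_compl_iff, Set.mem_ofPred_eq, not_forall, not_le] at hu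
    obtain ⟨i, hi⟩ := hu
    simp only [Set.mem_iUnion, Set.mem_union, Set.mem_ofPred_eq, Finset.mem_univ, exists_true_left]
    refine ⟨i, ?_⟩
    rw [EuclideanSpace.inner_single_right, EuclideanSpace.inner_single_right]
    simp only [conj_trivial]
    rcases lt_abs.mp hi with h | h
    · left; nlinarith
    · right; nlinarith
  have h1 : ∀ i : Fin n, (stdGaussian (EE n)).real
      ({u : EE n | (n : ℝ) ^ 2 ≤ inner ℝ u (EuclideanSpace.single i (n : ℝ))} ∪
       {u : EE n | (n : ℝ) ^ 2 ≤ inner ℝ u (EuclideanSpace.single i (-(n : ℝ)))}) ≤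
      2 * Real.exp (-((n : ℝ) ^ 2 / 2)) := by
    intro i
    refine (measureReal_union_le _ _).trans ?_
    have e1 := chernoff (EuclideanSpace.single i (n : ℝ)) ((n : ℝ) ^ 2)
    have e2 := chernoff (EuclideanSpace.single i (-(n : ℝ))) ((n : ℝ) ^ 2)
    have e3 : -(n : ℝ) ^ 2 + ‖(EuclideanSpace.single i (n : ℝ) : EE n)‖ ^ 2 / 2 = -((n : ℝ) ^ 2 / 2) := by
      rw [EuclideanSpace.norm_single]; simp; ring
    have e4 : -(n : ℝ) ^ 2 + ‖(EuclideanSpace.single i (-(n : ℝ)) : EE n)‖ ^ 2 / 2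
        = -((n : ℝ) ^ 2 / 2) := by
      rw [EuclideanSpace.norm_single]; simp; ring
    rw [e3] at e1
    rw [e4] at e2
    linarith
  refine (measureReal_mono hsub (measure_ne_top _ _)).trans ?_
  refine (measureReal_biUnion_finset_le _ _).trans ?_
  refine (Finset.sum_le_sum (fun i _ => h1 i)).trans ?_
  simp
  ring_nf
  rfl

/-- the depth lemma -/
lemma depth {n : ℕ} (z : EE n) (hL : 1 ≤ Real.log n) (hn : 6 * Real.log n ≤ n)
    (hq : qw n z ≤ (n : ℝ) ^ 2) : 1 - 5 * Real.log n / n ≤ ‖z‖ := by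
  classical
  by_contra hcon
  push Not at hcon
  set L := Real.log n with hLdef
  have hn0 : (0 : ℝ) < n := by linarith
  set j : ℕ := ⌊4 * L⌋₊ + 1 with hj
  have hj1 : 4 * L < j := by
    rw [hj]; push_cast; exact Nat.lt_floor_add_one _
  have hj2 : (j : ℝ) ≤ 4 * L + 1 := by
    rw [hj]; push_cast
    have := Nat.floor_le (a := 4 * L) (by linarith)
    linarith
  have hjn : j < n := by
    have : (j : ℝ) < n := by linarith
    exact_mod_cast this
  have hη : 0 ≤ eta n := by unfold eta; positivity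
  have hz : ‖z‖ ≤ 1 + eta n - j / n := by
    have : (j : ℝ) / n ≤ 5 * L / n := by
      apply div_le_div_of_nonneg_right _ hn0.le
      linarith
    linarith
  have h1 : Real.exp (j / 2) ≤ qw n z := by
    unfold qw
    refine le_trans (le_of_eq ?_) (Finset.single_le_sum
      (f := fun j : ℕ => Real.exp ((j : ℝ) / 2) *
        (if ‖z‖ ≤ 1 + eta n - (j : ℝ) / n then (1 : ℝ) else 0)) (fun i _ => ?_) (Finset.mem_range.mpr hjn))
    · simp only [if_pos hz, mul_one]
    · positivity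
  have h2 : (n : ℝ) ^ 2 = Real.exp (2 * L) := by
    rw [two_mul, Real.exp_add, hLdef, Real.exp_log hn0]; ring
  have h3 : Real.exp (2 * L) < Real.exp (j / 2) := by
    apply Real.exp_lt_exp.mpr; linarith
  linarith

/-- the two-direction Chernoff estimate, deterministic part -/
lemma exponent {n : ℕ} (A : ℝ) (hA : 0 < A) (z₀ z : EE n) (L C₁ α ρ : ℝ) (hρ : ρ = ‖z₀‖)
    (hn : (0 : ℝ) < n) (hL : 1 ≤ L)
    (hα : α ≤ 200 * Real.sqrt n) (hα0 : 0 ≤ α)
    (hρ2 : 1 / 2 ≤ ρ ^ 2) (hz : ‖z‖ ^ 2 - ρ ^ 2 ≥ - (11 * L / n))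
    (hε : ‖z - z₀‖ ^ 2 ≤ A ^ 2 * (L / n))
    (hC : C₁ = 200 * (11 + A ^ 2) + A ^ 2 + 4) :
    -(α / ρ ^ 2 * α + C₁ * L) + ‖(α / ρ ^ 2) • z₀ - Real.sqrt n • (z - z₀)‖ ^ 2 / 2 ≤
      -(α ^ 2 / (2 * ρ ^ 2)) - 4 * L := by
  have hsn : Real.sqrt n ^ 2 = n := Real.sq_sqrt hn.le
  have hρ0 : ρ ^ 2 ≠ 0 := by linarith
  set lam := α / ρ ^ 2 with hlam
  have hlam0 : 0 ≤ lam := by positivity
  have hlam1 : lam ≤ 400 * Real.sqrt n := by
    rw [hlam, div_le_iff₀ (by linarith)]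
    nlinarith [Real.sqrt_nonneg (n : ℝ)]
  have hin : ‖z‖ ^ 2 = ρ ^ 2 + 2 * inner ℝ z₀ (z - z₀) + ‖z - z₀‖ ^ 2 := by
    have := norm_add_sq_real z₀ (z - z₀)
    rw [add_sub_cancel] at this
    rw [this, hρ]
  have hexp : ‖lam • z₀ - Real.sqrt n • (z - z₀)‖ ^ 2 =
      lam ^ 2 * ρ ^ 2 - 2 * (lam * Real.sqrt n * inner ℝ z₀ (z - z₀)) + n * ‖z - z₀‖ ^ 2 := by
    rw [norm_sub_sq_real, norm_smul, norm_smul, inner_smul_left, inner_smul_right, mul_pow, mul_pow,
      Real.norm_eq_abs, Real.norm_eq_abs, sq_abs, sq_abs, hsn, hρ]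
    simp only [conj_trivial]
    ring
  rw [hexp]
  have h1 : lam ^ 2 * ρ ^ 2 = lam * α := by
    rw [hlam]; field_simp
  have h2 : α ^ 2 / (2 * ρ ^ 2) = lam * α / 2 := by
    rw [hlam]; field_simp
  rw [h1, h2]
  -- cross term
  have h3 : -(inner ℝ z₀ (z - z₀)) ≤ (11 + A ^ 2) * (L / n) / 2 := by
    have : 11 * L / n = 11 * (L / n) := by ring
    rw [this] at hz
    linarith
  have h4 : lam * Real.sqrt n * (-(inner ℝ z₀ (z - z₀))) ≤ 200 * (11 + A ^ 2) * L := by
    have h5 : lam * Real.sqrt n ≤ 400 * n := by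
      nlinarith [Real.sqrt_nonneg (n : ℝ)]
    have h6 : 0 ≤ lam * Real.sqrt n := by positivity
    calc lam * Real.sqrt n * (-(inner ℝ z₀ (z - z₀)))
        ≤ lam * Real.sqrt n * ((11 + A ^ 2) * (L / n) / 2) := mul_le_mul_of_nonneg_left h3 h6
      _ ≤ 400 * n * ((11 + A ^ 2) * (L / n) / 2) := by
          apply mul_le_mul_of_nonneg_right h5
          positivity
      _ = 200 * (11 + A ^ 2) * L := by field_simp; ring
  have h7 : (n : ℝ) * ‖z - z₀‖ ^ 2 ≤ A ^ 2 * L := by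
    calc (n : ℝ) * ‖z - z₀‖ ^ 2 ≤ n * (A ^ 2 * (L / n)) := mul_le_mul_of_nonneg_left hε hn.le
      _ = A ^ 2 * L := by field_simp
  have h8 : 0 ≤ A ^ 2 * L := by positivity
  rw [hC]
  nlinarith

set_option maxHeartbeats 2000000 in
/-- B4 with explicit largeness hypotheses -/
theorem cluster_explicit {n : ℕ} (A : ℝ) (hA : 0 < A) (C₁ : ℝ)
    (hC : C₁ = 200 * (11 + A ^ 2) + A ^ 2 + 4)
    (hL : 1 ≤ Real.log n) (hn1 : (200000 : ℝ) ≤ n) (hn2 : C₁ * Real.log n ≤ n)
    (hn3 : 50 * Real.log n ≤ n)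
    (F : Finset (EE n)) (hF : (F.card : ℝ) ≤ (n : ℝ) ^ 2)
    (hz : ∀ z ∈ F, ‖z‖ ≤ 1 + eta n ∧ 1 ≤ qw n z ∧ qw n z ≤ (n : ℝ) ^ 2)
    (hz₀ : ∃ z₀ ∈ F, ∀ z ∈ F, ‖z - z₀‖ ≤ A * Real.sqrt (Real.log n / n)) :
    Real.exp (-(321 * C₁ + 170000) * Real.log n) ≤ nu n {u | ∀ z ∈ F, u ∈ kill n z} := by
  obtain ⟨z₀, hz₀F, hclose⟩ := hz₀
  set L := Real.log n with hLdef
  have hn0 : (0 : ℝ) < n := by linarith
  have hnN : 0 < n := by exact_mod_cast hn0
  set sn := Real.sqrt n with hsn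
  have hsn2 : sn ^ 2 = n := Real.sq_sqrt hn0.le
  have hsn400 : 400 ≤ sn := by
    apply Real.le_sqrt_of_sq_le; linarith
  have hsnpos : 0 < sn := by linarith
  have hsnn : sn ≤ n := by nlinarith only [hsn2, hsn400]
  have hexpL : Real.exp L = n := Real.exp_log hn0
  have hC0 : 0 < C₁ := by rw [hC]; positivity
  set s := s0 n with hs
  have hs' : s = 160 * sn := rfl
  set α := s + C₁ * L / sn with hα
  have hα1 : C₁ * L / sn ≤ sn := by
    rw [div_le_iff₀ hsnpos, ← sq, hsn2]; exact hn2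
  have hα1' : 0 ≤ C₁ * L / sn := by positivity
  have hα161 : α ≤ 161 * sn := by rw [hα, hs']; linarith
  have hα200 : α ≤ 200 * sn := by linarith
  have hαs : s ≤ α := by rw [hα]; linarith
  have hα0 : 0 ≤ α := by rw [hs'] at hαs; linarith
  have hη : eta n = 1 / (n : ℝ) ^ 3 := rfl
  have hη0 : 0 ≤ eta n := by rw [hη]; positivity
  have hηL : 3 * eta n ≤ L / n := by
    rw [hη, mul_one_div, div_le_div_iff₀ (by positivity) hn0]
    have : (3 : ℝ) ≤ (n : ℝ) ^ 2 := by nlinarith only [hn1]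
    have h3 : 3 * (n : ℝ) ≤ (n : ℝ) ^ 2 * n := mul_le_mul_of_nonneg_right this hn0.le
    have h4 : (n : ℝ) ^ 2 * n ≤ L * (n : ℝ) ^ 3 := by
      have : (n : ℝ) ^ 2 * n = 1 * (n : ℝ) ^ 3 := by ring
      rw [this]
      exact mul_le_mul_of_nonneg_right hL (by positivity)
    linarith
  have hLn : L / n ≤ 1 / 50 := by
    rw [div_le_div_iff₀ hn0 (by norm_num)]; linarith
  have hLn0 : 0 ≤ L / n := by positivity
  have hη1 : eta n ≤ 1 / 150 := by linarith
  have hdepth : ∀ z ∈ F, 1 - 5 * (L / n) ≤ ‖z‖ := by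
    intro z hzF
    have := depth z hL (by linarith) (hz z hzF).2.2
    rw [← hLdef, mul_div_assoc] at this
    exact this
  set ρ := ‖z₀‖ with hρ
  have hρlow : 1 - 5 * (L / n) ≤ ρ := hdepth z₀ hz₀F
  have hρhigh : ρ ≤ 1 + eta n := (hz z₀ hz₀F).1
  have hρ09 : 9 / 10 ≤ ρ := by linarith
  have hρpos : 0 < ρ := by linarith
  have hz0ne : z₀ ≠ 0 := by
    intro h; rw [h, norm_zero] at hρ; linarith
  have hρ2 : 1 / 2 ≤ ρ ^ 2 := by nlinarith only [hρ09]
  have hdiff : ∀ z ∈ F, ‖z‖ ^ 2 - ρ ^ 2 ≥ -(11 * L / n) := by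
    intro z hzF
    have h1 := hdepth z hzF
    have h2 : (1 - 5 * (L / n)) ^ 2 ≤ ‖z‖ ^ 2 := by
      apply pow_le_pow_left₀ (by linarith) h1
    have h3 : ρ ^ 2 ≤ (1 + eta n) ^ 2 := pow_le_pow_left₀ hρpos.le hρhigh 2
    have h4 : 11 * L / n = 11 * (L / n) := by ring
    rw [h4]
    have h5 : 0 ≤ (L / n) ^ 2 := sq_nonneg _
    have h6 : eta n ^ 2 ≤ eta n := by nlinarith only [hη0, hη1]
    nlinarith only [h2, h3, h5, h6, hηL]
  have hε : ∀ z ∈ F, ‖z - z₀‖ ^ 2 ≤ A ^ 2 * (L / n) := by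
    intro z hzF
    have h1 := hclose z hzF
    have h2 : ‖z - z₀‖ ^ 2 ≤ (A * Real.sqrt (L / n)) ^ 2 := pow_le_pow_left₀ (norm_nonneg _) h1 2
    rw [mul_pow, Real.sq_sqrt hLn0] at h2
    exact h2
  set M := Real.exp (-(α ^ 2 / (2 * ρ ^ 2))) with hM
  have hMpos : 0 < M := Real.exp_pos _
  set P := (stdGaussian (EE n)) with hP
  -- the error events
  have hE : ∀ z ∈ F, P.real {u | α ≤ inner ℝ u z₀ ∧ inner ℝ u z < s} ≤ M * Real.exp (-(4 * L)) := by
    intro z hzF
    have hsub : {u : EE n | α ≤ inner ℝ u z₀ ∧ inner ℝ u z < s} ⊆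
        {u : EE n | α / ρ ^ 2 * α + C₁ * L ≤
          inner ℝ u ((α / ρ ^ 2) • z₀ - sn • (z - z₀))} := by
      intro u hu
      obtain ⟨hu1, hu2⟩ := hu
      change α / ρ ^ 2 * α + C₁ * L ≤ inner ℝ u ((α / ρ ^ 2) • z₀ - sn • (z - z₀))
      rw [inner_sub_right, inner_smul_right, inner_smul_right, inner_sub_right]
      have h1 : α / ρ ^ 2 * α ≤ α / ρ ^ 2 * inner ℝ u z₀ :=
        mul_le_mul_of_nonneg_left hu1 (by positivity)
      have h2 : C₁ * L ≤ sn * (α - s) := by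
        rw [hα]
        have : sn * (s + C₁ * L / sn - s) = C₁ * L := by field_simp; ring
        rw [this]
      have h3 : sn * (α - s) ≤ sn * (inner ℝ u z₀ - inner ℝ u z) :=
        mul_le_mul_of_nonneg_left (by linarith) hsnpos.le
      linarith
    refine (measureReal_mono hsub (measure_ne_top _ _)).trans ?_
    refine (chernoff _ _).trans ?_
    rw [hM, ← Real.exp_add]
    apply Real.exp_le_exp.mpr
    have := exponent A hA z₀ z L C₁ α ρ hρ hn0 hL hα200 hα0 hρ2 (hdiff z hzF) (hε z hzF) hC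
    rw [← hsn] at this
    linarith
  have hmain : P.real {u | α ≤ inner ℝ u z₀} ≤
      P.real ({u | ∀ z ∈ F, u ∈ kill n z} ∩ box n) +
      ((F.card : ℝ) * (M * Real.exp (-(4 * L))) + P.real (box n)ᶜ) := by
    have hsub : {u : EE n | α ≤ inner ℝ u z₀} ⊆
        ({u | ∀ z ∈ F, u ∈ kill n z} ∩ box n) ∪
        ((⋃ z ∈ F, {u | α ≤ inner ℝ u z₀ ∧ inner ℝ u z < s}) ∪ (box n)ᶜ) := by
      intro u hu
      by_cases hb : u ∈ box n
      · by_cases hk : ∀ z ∈ F, u ∈ kill n z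
        · left; exact ⟨hk, hb⟩
        · right; left
          push Not at hk
          obtain ⟨z, hzF, hzk⟩ := hk
          simp only [Set.mem_iUnion]
          refine ⟨z, hzF, hu, ?_⟩
          by_contra hcon
          exact hzk (not_lt.mp hcon)
      · right; right; exact hb
    refine (measureReal_mono hsub (measure_ne_top _ _)).trans ?_
    refine (measureReal_union_le _ _).trans ?_
    gcongr
    refine (measureReal_union_le _ _).trans ?_
    gcongr
    refine (measureReal_biUnion_finset_le _ _).trans ?_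
    refine (Finset.sum_le_sum hE).trans ?_
    rw [Finset.sum_const, nsmul_eq_mul]
  -- error terms
  have he4 : Real.exp (-(4 * L)) = 1 / (n : ℝ) ^ 4 := by
    rw [Real.exp_neg, ← hexpL, ← Real.exp_nat_mul, one_div]
    norm_num
  have herr1 : (F.card : ℝ) * (M * Real.exp (-(4 * L))) ≤ M / (n : ℝ) ^ 2 := by
    rw [he4]
    calc (F.card : ℝ) * (M * (1 / (n : ℝ) ^ 4)) ≤ (n : ℝ) ^ 2 * (M * (1 / (n : ℝ) ^ 4)) := by
          apply mul_le_mul_of_nonneg_right hF
          positivity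
      _ = M / (n : ℝ) ^ 2 := by field_simp
  have hαρ : α ^ 2 / (2 * ρ ^ 2) ≤ 40000 * n := by
    rw [div_le_iff₀ (by positivity)]
    have h1 : α ^ 2 ≤ (200 * sn) ^ 2 := pow_le_pow_left₀ hα0 hα200 2
    have h2 : (200 * sn) ^ 2 = 40000 * n := by rw [mul_pow, hsn2]; norm_num
    have h3 : 40000 * (n : ℝ) ≤ 40000 * n * (2 * ρ ^ 2) := by
      have h4 : 1 ≤ 2 * ρ ^ 2 := by linarith
      have h5 : 0 ≤ 40000 * (n : ℝ) := by positivity
      exact le_mul_of_one_le_right h5 h4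
    linarith
  have herr2 : P.real (box n)ᶜ ≤ M / (n : ℝ) ^ 2 := by
    refine (box_compl hnN).trans ?_
    rw [le_div_iff₀ (by positivity)]
    have h1 : 2 * (n : ℝ) * Real.exp (-((n : ℝ) ^ 2 / 2)) * (n : ℝ) ^ 2 =
        2 * ((n : ℝ) ^ 3 * Real.exp (-((n : ℝ) ^ 2 / 2))) := by ring
    have h2 : (n : ℝ) ^ 3 = Real.exp (3 * L) := by
      rw [← hexpL, ← Real.exp_nat_mul]; norm_num
    have h3 : (2 : ℝ) ≤ Real.exp 1 := by
      have := Real.exp_one_gt_d9; linarith
    rw [h1, h2, ← Real.exp_add]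
    calc 2 * Real.exp (3 * L + -((n : ℝ) ^ 2 / 2))
        ≤ Real.exp 1 * Real.exp (3 * L + -((n : ℝ) ^ 2 / 2)) :=
          mul_le_mul_of_nonneg_right h3 (Real.exp_pos _).le
      _ = Real.exp (1 + (3 * L + -((n : ℝ) ^ 2 / 2))) := by rw [← Real.exp_add]
      _ ≤ M := by
          rw [hM]
          apply Real.exp_le_exp.mpr
          have h4 : 200000 * (n : ℝ) ≤ (n : ℝ) ^ 2 := by nlinarith only [hn1]
          linarith
  have hexp3 : Real.exp 3 ≤ 21 := by
    have h1 : Real.exp 3 = (Real.exp 1) ^ 3 := by rw [← Real.exp_nat_mul]; norm_num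
    rw [h1]
    have h2 := Real.exp_one_lt_d9
    have h3 : Real.exp 1 ^ 3 ≤ 2.72 ^ 3 := pow_le_pow_left₀ (Real.exp_pos _).le (by linarith) 3
    refine h3.trans (by norm_num)
  have hlow : M * (Real.exp (-3) / (400 * sn)) ≤ P.real {u | α ≤ inner ℝ u z₀} := by
    rw [P_ge z₀ hz0ne, ← hρ]
    have h1 : 1 ≤ α / ρ := by
      rw [le_div_iff₀ hρpos]
      have : (1 : ℝ) * ρ ≤ 2 := by linarith
      rw [hs'] at hαs
      linarith
    refine le_trans ?_ (Q_ge _ h1)
    have h2 : Real.exp (-3 - (α / ρ) ^ 2 / 2) = M * Real.exp (-3) := by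
      rw [hM, ← Real.exp_add]
      congr 1
      field_simp
      ring
    rw [h2, mul_div_assoc]
    apply mul_le_mul_of_nonneg_left _ hMpos.le
    apply div_le_div_of_nonneg_left (Real.exp_pos _).le (by positivity)
    rw [div_le_iff₀ hρpos]
    nlinarith only [hα200, hρ09, hsnpos]
  have h2n : 2 / (n : ℝ) ^ 2 ≤ Real.exp (-3) / (800 * sn) := by
    rw [Real.exp_neg, div_le_div_iff₀ (by positivity) (by positivity)]
    have h1 : 2 * (800 * sn) ≤ 1600 * n := by linarith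
    have h2 : (1600 : ℝ) * n ≤ (Real.exp 3)⁻¹ * (n : ℝ) ^ 2 := by
      rw [inv_mul_eq_div, le_div_iff₀ (Real.exp_pos _)]
      nlinarith only [hexp3, hn1, Real.exp_pos 3]
    linarith
  have hcore : M * (Real.exp (-3) / (800 * sn)) ≤ P.real ({u | ∀ z ∈ F, u ∈ kill n z} ∩ box n) := by
    have h1 : Real.exp (-3) / (400 * sn) = 2 * (Real.exp (-3) / (800 * sn)) := by
      field_simp; ring
    have h2 : M / (n : ℝ) ^ 2 + M / (n : ℝ) ^ 2 = M * (2 / (n : ℝ) ^ 2) := by ring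
    have h3 : M * (2 / (n : ℝ) ^ 2) ≤ M * (Real.exp (-3) / (800 * sn)) :=
      mul_le_mul_of_nonneg_left h2n hMpos.le
    rw [h1] at hlow
    linarith
  have hs1 : 1 ≤ s := by rw [hs']; linarith
  have hQpos : 0 < Q s := lt_of_lt_of_le (by positivity) (Q_ge s hs1)
  have hQle : Q s ≤ Real.exp (-(s ^ 2 / 2)) := Q_le s (by linarith)
  have hnu : M * (Real.exp (-3) / (800 * sn)) / Real.exp (-(s ^ 2 / 2)) ≤
      nu n {u | ∀ z ∈ F, u ∈ kill n z} := by
    unfold nu
    rw [← hP, ← hs]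
    exact div_le_div₀ measureReal_nonneg hcore hQpos hQle
  refine le_trans ?_ hnu
  -- numeric
  have hinvρ : α ^ 2 / ρ ^ 2 ≤ α ^ 2 * (1 + 25 / 2 * (L / n)) := by
    rw [div_le_iff₀ (by positivity), mul_assoc]
    have h1 : 1 ≤ (1 + 25 / 2 * (L / n)) * ρ ^ 2 := by
      have h2 : (1 - 5 * (L / n)) ^ 2 ≤ ρ ^ 2 := pow_le_pow_left₀ (by linarith) hρlow 2
      have h3 : 1 ≤ (1 + 25 / 2 * (L / n)) * (1 - 5 * (L / n)) ^ 2 := by
        have e : (1 + 25 / 2 * (L / n)) * (1 - 5 * (L / n)) ^ 2 =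
            1 + (L / n) * (5 / 2 - 100 * (L / n)) + 625 / 2 * (L / n) ^ 3 := by ring
        rw [e]
        have e1 : 0 ≤ (L / n) * (5 / 2 - 100 * (L / n)) := mul_nonneg hLn0 (by linarith)
        have e2 : 0 ≤ 625 / 2 * (L / n) ^ 3 := by positivity
        linarith
      refine h3.trans ?_
      apply mul_le_mul_of_nonneg_left h2
      positivity
    calc α ^ 2 = α ^ 2 * 1 := (mul_one _).symm
      _ ≤ α ^ 2 * ((1 + 25 / 2 * (L / n)) * ρ ^ 2) := mul_le_mul_of_nonneg_left h1 (sq_nonneg α)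
  have hα2 : α ^ 2 ≤ s ^ 2 + 321 * C₁ * L := by
    rw [hα]
    have h1 : (s + C₁ * L / sn) ^ 2 = s ^ 2 + 2 * (s / sn) * (C₁ * L) + (C₁ * L) * (C₁ * L / n) := by
      rw [← hsn2]
      field_simp
      ring
    have h2 : s / sn = 160 := by rw [hs']; field_simp
    have h3 : C₁ * L / n ≤ 1 := by rw [div_le_one hn0]; exact hn2
    have h4 : (C₁ * L) * (C₁ * L / n) ≤ (C₁ * L) * 1 := mul_le_mul_of_nonneg_left h3 (by positivity)
    rw [h1, h2]
    linarith
  have hα3 : α ^ 2 * (25 / 2 * (L / n)) ≤ 325000 * L := by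
    have h1 : α ^ 2 ≤ 25921 * n := by
      have : α ^ 2 ≤ (161 * sn) ^ 2 := pow_le_pow_left₀ hα0 hα161 2
      rw [mul_pow, hsn2] at this
      linarith
    calc α ^ 2 * (25 / 2 * (L / n)) ≤ 25921 * n * (25 / 2 * (L / n)) := by
          apply mul_le_mul_of_nonneg_right h1; positivity
      _ = 25921 * (25 / 2) * L := by field_simp
      _ ≤ 325000 * L := by linarith
  have hnum : α ^ 2 / ρ ^ 2 - s ^ 2 ≤ (321 * C₁ + 325000) * L := by
    linarith
  have h800 : Real.exp (-(7 + L)) ≤ 1 / (800 * sn) := by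
    rw [Real.exp_neg, Real.exp_add, hexpL, one_div]
    apply inv_anti₀ (by positivity)
    have h1 : (800 : ℝ) ≤ Real.exp 7 := by
      have h2 : Real.exp 7 = (Real.exp 1) ^ 7 := by rw [← Real.exp_nat_mul]; norm_num
      rw [h2]
      have h3 := Real.exp_one_gt_d9
      have h4 : (2.7 : ℝ) ^ 7 ≤ Real.exp 1 ^ 7 := pow_le_pow_left₀ (by norm_num) (by linarith) 7
      refine le_trans (by norm_num) h4
    exact mul_le_mul h1 hsnn hsnpos.le (Real.exp_pos _).le
  have hfin : Real.exp (-(321 * C₁ + 170000) * L) ≤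
      M / Real.exp (-(s ^ 2 / 2)) * (Real.exp (-3) * Real.exp (-(7 + L))) := by
    rw [hM, ← Real.exp_sub, ← Real.exp_add, ← Real.exp_add]
    apply Real.exp_le_exp.mpr
    have h1 : α ^ 2 / (2 * ρ ^ 2) = (α ^ 2 / ρ ^ 2) / 2 := by field_simp
    rw [h1]
    have h2 := mul_pos hC0 (lt_of_lt_of_le one_pos hL)
    have h3 : (321 * C₁ + 325000) * L = 321 * (C₁ * L) + 325000 * L := by ring
    have h4 : -(321 * C₁ + 170000) * L = -(321 * (C₁ * L)) - 170000 * L := by ring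
    rw [h3] at hnum
    rw [h4]
    linarith
  refine hfin.trans ?_
  have h1 : M * (Real.exp (-3) / (800 * sn)) / Real.exp (-(s ^ 2 / 2)) =
      M / Real.exp (-(s ^ 2 / 2)) * (Real.exp (-3) * (1 / (800 * sn))) := by
    field_simp
  rw [h1]
  apply mul_le_mul_of_nonneg_left _ (by positivity)
  exact mul_le_mul_of_nonneg_left h800 (Real.exp_pos _).le

end Crest.Agent.R225.LB.B4

namespace Crest.Agent.R225.LB

open MeasureTheory ProbabilityTheory Finset Filter

/-- B4: one facet kills a whole small cluster -/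
theorem nu_kill_cluster_ge (A : ℝ) (hA : 0 < A) : ∃ C : ℝ, 0 < C ∧ ∀ᶠ n : ℕ in atTop,
    ∀ F : Finset (EE n), (F.card : ℝ) ≤ (n : ℝ) ^ 2 →
    (∀ z ∈ F, ‖z‖ ≤ 1 + eta n ∧ 1 ≤ qw n z ∧ qw n z ≤ (n : ℝ) ^ 2) →
    (∃ z₀ ∈ F, ∀ z ∈ F, ‖z - z₀‖ ≤ A * Real.sqrt (Real.log n / n)) →
    Real.exp (-C * Real.log n) ≤ nu n {u | ∀ z ∈ F, u ∈ kill n z} := by
  set C₁ : ℝ := 200 * (11 + A ^ 2) + A ^ 2 + 4 with hC
  have hC0 : 0 < C₁ := by positivity
  refine ⟨321 * C₁ + 170000, by positivity, ?_⟩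
  have hlo : ∀ K : ℝ, 0 < K → ∀ᶠ n : ℕ in atTop, K * Real.log n ≤ n := by
    intro K hK
    have h1 := (Real.isLittleO_log_id_atTop.def (c := 1 / K) (by positivity))
    have h2 := tendsto_natCast_atTop_atTop (R := ℝ)
    filter_upwards [h2.eventually h1, eventually_ge_atTop 1] with n hn h1n
    have hn0 : (0 : ℝ) < n := by exact_mod_cast h1n
    have hlog : 0 ≤ Real.log n := Real.log_nonneg (by exact_mod_cast h1n)
    rw [Real.norm_of_nonneg hlog, id, Real.norm_of_nonneg hn0.le] at hn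
    calc K * Real.log n ≤ K * (1 / K * n) := mul_le_mul_of_nonneg_left hn hK.le
      _ = n := by field_simp
  have hL : ∀ᶠ n : ℕ in atTop, 1 ≤ Real.log n := by
    have := (Real.tendsto_log_atTop.comp (tendsto_natCast_atTop_atTop (R := ℝ)))
    exact this.eventually_ge_atTop 1
  filter_upwards [hlo C₁ hC0, hlo 50 (by norm_num), hL, eventually_ge_atTop 200000]
    with n h1 h2 h3 h4 F hF hz hz₀
  have h5 : (200000 : ℝ) ≤ n := by exact_mod_cast h4
  exact B4.cluster_explicit A hA C₁ hC h3 h5 h1 h2 F hF hz hz₀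

end Crest.Agent.R225.LB
end

-- ▼ part R225/LB/Config

/-!
Row 225, S0348, module D: the probability estimate for one configuration.
-/

set_option autoImplicit false

namespace Crest.Agent.R225.LB

open MeasureTheory ProbabilityTheory Finset Filter

theorem config_prob : ∃ c : ℝ, 0 < c ∧ ∀ᶠ n : ℕ in atTop,
    ∀ (X Y G : Finset (EE n)), X.card ≤ 3 ^ n → Y.Nonempty →
    (∀ y ∈ Y, ∑ x ∈ X, qw n (y - x) ≤ c * n * Real.log n) →
    (∀ y ∈ Y, ∀ x ∈ X, ‖y - x‖ ≤ 1 + eta n → y - x ∈ G) →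
    (∀ p : EE n, ∀ r : ℝ, (r = (n : ℝ) ^ (-(1 / 5 : ℝ)) ∨ r = 1 / 40) →
      ((Y.filter (fun y => dist y p ≤ r)).card : ℝ) ≤ (2 * r) ^ n * Y.card) →
    Ex (pp n G) G.powerset
      (fun t => if ∀ y ∈ Y, ∃ x ∈ X, ‖y - x‖ ≤ 1 + eta n ∧ ∀ v ∈ t, y - x ∉ v then 1 else 0)
      ≤ Real.exp (-(4 : ℝ) ^ n) :=
  config_prob_of nu_kill_ge nu_kill_inter_le nu_kill_cluster_ge

end Crest.Agent.R225.LB
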