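import Crest.Agent.R225.LB.Defs
import Crest.Agent.R225.LB.Gauss1

-- ▼ part R225/LB/ExLib
section

/-!
Elementary lemmas on `Ex` used in the model part (S0348-E).
-/

set_option autoImplicit false

namespace Crest.Agent.R225.LB.ExLib

open Finset Crest.Agent.R225.LB

variable {α : Type*} [DecidableEq α]

theorem weight_nonneg {p : α → ℝ} (hp0 : ∀ a, 0 ≤ p a) (hp1 : ∀ a, p a ≤ 1) (s t : Finset α) :
    0 ≤ (∏ a ∈ t, p a) * (∏ a ∈ s \ t, (1 - p a)) :=
  mul_nonneg (prod_nonneg fun a _ => hp0 a) (prod_nonneg fun a _ => by linarith [hp1 a])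

theorem Ex_one (p : α → ℝ) (s : Finset α) : Ex p s (fun _ => 1) = 1 := by
  unfold Ex
  simp only [mul_one]
  rw [← prod_add p (fun a => 1 - p a) s]
  simp

theorem Ex_const (p : α → ℝ) (s : Finset α) (c : ℝ) : Ex p s (fun _ => c) = c := by
  have h := Ex_one p s
  unfold Ex at h ⊢
  simp only [mul_one] at h
  rw [← sum_mul, h, one_mul]

theorem Ex_mono {p : α → ℝ} (hp0 : ∀ a, 0 ≤ p a) (hp1 : ∀ a, p a ≤ 1) (s : Finset α)
    {f g : Finset α → ℝ} (h : ∀ t ⊆ s, f t ≤ g t) : Ex p s f ≤ Ex p s g := by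
  unfold Ex
  refine sum_le_sum fun t ht => ?_
  exact mul_le_mul_of_nonneg_left (h t (mem_powerset.1 ht)) (weight_nonneg hp0 hp1 s t)


theorem Ex_sub (p : α → ℝ) (s : Finset α) (f g : Finset α → ℝ) :
    Ex p s (fun t => f t - g t) = Ex p s f - Ex p s g := by
  unfold Ex
  rw [← sum_sub_distrib]
  exact sum_congr rfl fun t _ => by ring

theorem Ex_mul_left (p : α → ℝ) (s : Finset α) (c : ℝ) (f : Finset α → ℝ) :
    Ex p s (fun t => c * f t) = c * Ex p s f := by
  unfold Ex
  rw [mul_sum]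
  exact sum_congr rfl fun t _ => by ring

theorem Ex_sum {ι : Type*} (p : α → ℝ) (s : Finset α) (I : Finset ι) (f : ι → Finset α → ℝ) :
    Ex p s (fun t => ∑ i ∈ I, f i t) = ∑ i ∈ I, Ex p s (f i) := by
  unfold Ex
  rw [sum_comm]
  exact sum_congr rfl fun t _ => by rw [mul_sum]

/-- `P(a ∈ t) = p a`. -/
theorem Ex_mem (p : α → ℝ) (s : Finset α) {a : α} (ha : a ∈ s) :
    Ex p s (fun t => if a ∈ t then 1 else 0) = p a := by
  classical
  have h := Ex_one p (s.erase a)
  unfold Ex at h ⊢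
  simp only [mul_one] at h
  simp only [mul_ite, mul_one, mul_zero]
  rw [← sum_filter]
  have hbij : ∑ t ∈ (s.powerset).filter (fun t => a ∈ t),
      (∏ x ∈ t, p x) * (∏ x ∈ s \ t, (1 - p x)) =
      ∑ t ∈ (s.erase a).powerset, p a * ((∏ x ∈ t, p x) * (∏ x ∈ s.erase a \ t, (1 - p x))) := by
    symm
    refine sum_bij' (fun t _ => insert a t) (fun t _ => t.erase a) ?_ ?_ ?_ ?_ ?_
    · intro t ht
      rw [mem_powerset] at ht
      rw [mem_filter, mem_powerset]
      exact ⟨insert_subset ha (ht.trans (erase_subset _ _)), mem_insert_self _ _⟩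
    · intro t ht
      rw [mem_filter, mem_powerset] at ht
      rw [mem_powerset]
      exact erase_subset_erase _ ht.1
    · intro t ht
      rw [mem_powerset] at ht
      exact erase_insert (fun h' => by simpa using ht h')
    · intro t ht
      rw [mem_filter] at ht
      exact insert_erase ht.2
    · intro t ht
      rw [mem_powerset] at ht
      have hat : a ∉ t := fun h' => by simpa using ht h'
      rw [prod_insert hat]
      have : s \ insert a t = s.erase a \ t := by
        ext x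
        simp only [mem_sdiff, mem_insert, mem_erase]
        tauto
      rw [this]
      ring
  rw [hbij, ← mul_sum, h, mul_one]

/-- union bound -/
theorem Ex_exists_mem_le {p : α → ℝ} (hp0 : ∀ a, 0 ≤ p a) (hp1 : ∀ a, p a ≤ 1) (s : Finset α)
    (q : α → Prop) [DecidablePred q] (r : Finset α → Prop) [DecidablePred r]
    (h : ∀ t ⊆ s, r t → ∃ a ∈ t, q a) :
    Ex p s (fun t => if r t then 1 else 0) ≤ ∑ a ∈ s.filter q, p a := by
  classical
  calc Ex p s (fun t => if r t then 1 else 0)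
      ≤ Ex p s (fun t => ∑ a ∈ s.filter q, if a ∈ t then 1 else 0) := by
        refine Ex_mono hp0 hp1 s fun t ht => ?_
        by_cases hr : r t
        · obtain ⟨a, hat, hqa⟩ := h t ht hr
          rw [if_pos hr]
          have hmem : a ∈ s.filter q := mem_filter.2 ⟨ht hat, hqa⟩
          calc (1 : ℝ) = if a ∈ t then 1 else 0 := by rw [if_pos hat]
            _ ≤ _ := single_le_sum (f := fun a => if a ∈ t then (1 : ℝ) else 0)
                  (fun i _ => by split_ifs <;> norm_num) hmem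
        · rw [if_neg hr]
          exact sum_nonneg fun i _ => by split_ifs <;> norm_num
    _ = ∑ a ∈ s.filter q, Ex p s (fun t => if a ∈ t then 1 else 0) := Ex_sum p s _ _
    _ = ∑ a ∈ s.filter q, p a := sum_congr rfl fun a ha => Ex_mem p s (mem_filter.1 ha).1

/-- If the expectation is larger than `c`, some realisation of positive weight has value `> c`. -/
theorem exists_of_lt_Ex {p : α → ℝ} (hp0 : ∀ a, 0 ≤ p a) (hp1 : ∀ a, p a ≤ 1) (s : Finset α)
    {f : Finset α → ℝ} {c : ℝ} (h : c < Ex p s f) :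
    ∃ t ⊆ s, (∀ a ∈ t, 0 < p a) ∧ c < f t := by
  classical
  by_contra hcon
  push Not at hcon
  have : Ex p s f ≤ Ex p s (fun _ => c) := by
    unfold Ex
    refine sum_le_sum fun t ht => ?_
    rw [mem_powerset] at ht
    by_cases hpos : ∀ a ∈ t, 0 < p a
    · exact mul_le_mul_of_nonneg_left (hcon t ht hpos) (weight_nonneg hp0 hp1 s t)
    · push Not at hpos
      obtain ⟨a, hat, ha⟩ := hpos
      have h0 : p a = 0 := le_antisymm ha (hp0 a)
      have : ∏ a ∈ t, p a = 0 := prod_eq_zero hat h0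
      rw [this]; simp
  rw [Ex_const] at this
  linarith

end Crest.Agent.R225.LB.ExLib
end

-- ▼ part R225/LB/Grid
section

/-!
The grid of mesh `n^{-4}`: rounding and counting (S0348-E).
-/

set_option autoImplicit false

namespace Crest.Agent.R225.LB.Grid

open MeasureTheory Finset Filter Crest.Agent.R225.LB

/-- the mesh `n^{-4}` -/
noncomputable def mesh (n : ℕ) : ℝ := 1 / (n : ℝ) ^ 4

/-- grid point with index `k` -/
noncomputable def gp (n : ℕ) (k : Fin n → ℤ) : EE n := WithLp.toLp 2 (fun i => mesh n * (k i : ℝ))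

/-- rounding index -/
noncomputable def rdi (n : ℕ) (x : EE n) : Fin n → ℤ := fun i => ⌊x i / mesh n⌋

/-- rounding -/
noncomputable def rd (n : ℕ) (x : EE n) : EE n := gp n (rdi n x)

open scoped Classical in
/-- the grid points in the ball of radius `r` (for `r ≤ 2`) -/
noncomputable def GB (n : ℕ) (r : ℝ) : Finset (EE n) :=
  ((Fintype.piFinset (fun _ : Fin n => Finset.Icc (-(2 * (n : ℤ) ^ 4)) (2 * (n : ℤ) ^ 4))).image
    (gp n)).filter (fun z => ‖z‖ ≤ r)

theorem mesh_pos {n : ℕ} (hn : 0 < n) : 0 < mesh n := by unfold mesh; positivity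

@[simp] theorem gp_apply (n : ℕ) (k : Fin n → ℤ) (i : Fin n) : gp n k i = mesh n * (k i : ℝ) := rfl

theorem gp_injective {n : ℕ} (hn : 0 < n) : Function.Injective (gp n) := by
  intro k k' h
  funext i
  have h1 : gp n k i = gp n k' i := by rw [h]
  simp only [gp_apply] at h1
  have h2 := mul_left_cancel₀ (mesh_pos hn).ne' h1
  exact_mod_cast h2

theorem gp_sub (n : ℕ) (k k' : Fin n → ℤ) : gp n k - gp n k' = gp n (k - k') := by
  ext i
  simp [mul_sub]

theorem gp_neg (n : ℕ) (k : Fin n → ℤ) : -gp n k = gp n (-k) := by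
  ext i
  simp

theorem abs_apply_le {n : ℕ} (x : EE n) (i : Fin n) : |x i| ≤ ‖x‖ := by
  have := PiLp.norm_apply_le x i
  simpa using this

theorem norm_le_of_abs_le {n : ℕ} {x : EE n} {c : ℝ} (hc : 0 ≤ c) (h : ∀ i, |x i| ≤ c) :
    ‖x‖ ≤ c * √n := by
  rw [EuclideanSpace.norm_eq]
  have h1 : ∑ i, ‖x i‖ ^ 2 ≤ ∑ _i : Fin n, c ^ 2 := by
    refine sum_le_sum fun i _ => ?_
    rw [Real.norm_eq_abs]
    exact pow_le_pow_left₀ (abs_nonneg _) (h i) 2
  calc √(∑ i, ‖x i‖ ^ 2) ≤ √(∑ _i : Fin n, c ^ 2) := Real.sqrt_le_sqrt h1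
    _ = c * √n := by
      rw [sum_const, card_univ, Fintype.card_fin, nsmul_eq_mul, mul_comm, Real.sqrt_mul (sq_nonneg c),
        Real.sqrt_sq hc]

theorem mem_GB {n : ℕ} {r : ℝ} (hr : r ≤ 2) {z : EE n} :
    z ∈ GB n r ↔ (∃ k, gp n k = z) ∧ ‖z‖ ≤ r := by
  classical
  unfold GB
  rw [mem_filter, mem_image]
  constructor
  · rintro ⟨⟨k, _, hk⟩, hz⟩
    exact ⟨⟨k, hk⟩, hz⟩
  · rintro ⟨⟨k, hk⟩, hz⟩
    refine ⟨⟨k, ?_, hk⟩, hz⟩
    rw [Fintype.mem_piFinset]
    intro i
    have hn : 0 < n := Fin.pos i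
    have h1 : |gp n k i| ≤ 2 := by rw [hk]; exact (abs_apply_le z i).trans (hz.trans hr)
    rw [gp_apply, abs_mul, abs_of_pos (mesh_pos hn)] at h1
    have h2 : |(k i : ℝ)| ≤ 2 * (n : ℝ) ^ 4 := by
      have hn' : (0 : ℝ) < (n : ℝ) ^ 4 := by positivity
      unfold mesh at h1
      rw [div_mul_eq_mul_div, one_mul, div_le_iff₀ hn'] at h1
      exact h1
    have h3 : |k i| ≤ 2 * (n : ℤ) ^ 4 := by exact_mod_cast h2
    rw [mem_Icc]
    exact abs_le.1 h3

theorem rdi_spec {n : ℕ} (hn : 0 < n) (x : EE n) (i : Fin n) :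
    mesh n * (rdi n x i : ℝ) ≤ x i ∧ x i < mesh n * (rdi n x i : ℝ) + mesh n := by
  have hm := mesh_pos hn
  unfold rdi
  have h1 := Int.floor_le (x i / mesh n)
  have h2 := Int.lt_floor_add_one (x i / mesh n)
  constructor
  · calc mesh n * (⌊x i / mesh n⌋ : ℝ) ≤ mesh n * (x i / mesh n) :=
          mul_le_mul_of_nonneg_left h1 hm.le
      _ = x i := by field_simp
  · calc x i = mesh n * (x i / mesh n) := by field_simp
      _ < mesh n * ((⌊x i / mesh n⌋ : ℝ) + 1) := mul_lt_mul_of_pos_left h2 hm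
      _ = _ := by ring

theorem norm_sub_rd_le {n : ℕ} (hn : 0 < n) (x : EE n) : ‖x - rd n x‖ ≤ mesh n * √n := by
  refine norm_le_of_abs_le (mesh_pos hn).le fun i => ?_
  have := rdi_spec hn x i
  have h : (x - rd n x) i = x i - mesh n * (rdi n x i : ℝ) := rfl
  rw [h, abs_le]
  constructor <;> linarith [mesh_pos hn]

/-- cell of the grid point with index `k` -/
def cell (n : ℕ) (k : Fin n → ℤ) : Set (EE n) := {x | rdi n x = k}

theorem cell_eq {n : ℕ} (hn : 0 < n) (k : Fin n → ℤ) :
    cell n k = {x : EE n | ∀ i, mesh n * (k i : ℝ) ≤ x i ∧ x i < mesh n * (k i : ℝ) + mesh n} := by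
  have hm := mesh_pos hn
  ext x
  simp only [cell, Set.mem_setOf_eq]
  constructor
  · rintro rfl i
    exact rdi_spec hn x i
  · intro h
    funext i
    unfold rdi
    rw [Int.floor_eq_iff]
    obtain ⟨h1, h2⟩ := h i
    constructor
    · rw [le_div_iff₀ hm]; linarith
    · rw [div_lt_iff₀ hm]; linarith

theorem volume_cell {n : ℕ} (hn : 0 < n) (k : Fin n → ℤ) :
    volume (cell n k) = ENNReal.ofReal (mesh n ^ n) := by
  have hm := mesh_pos hn
  have h1 : cell n k = (@WithLp.ofLp 2 (Fin n → ℝ)) ⁻¹'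
      (Set.univ.pi fun i => Set.Ico (mesh n * (k i : ℝ)) (mesh n * (k i : ℝ) + mesh n)) := by
    rw [cell_eq hn]
    ext x
    simp only [Set.mem_setOf_eq, Set.mem_preimage, Set.mem_pi, Set.mem_univ, true_imp_iff,
      Set.mem_Ico]
  rw [h1, (PiLp.volume_preserving_ofLp (Fin n)).measure_preimage
    (MeasurableSet.univ_pi fun i => measurableSet_Ico).nullMeasurableSet, volume_pi_pi]
  simp only [Real.volume_Ico, add_sub_cancel_left, prod_const, card_univ, Fintype.card_fin]
  rw [ENNReal.ofReal_pow hm.le]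

theorem measurableSet_cell {n : ℕ} (hn : 0 < n) (k : Fin n → ℤ) : MeasurableSet (cell n k) := by
  rw [cell_eq hn]
  have : {x : EE n | ∀ i, mesh n * (k i : ℝ) ≤ x i ∧ x i < mesh n * (k i : ℝ) + mesh n} =
      (@WithLp.ofLp 2 (Fin n → ℝ)) ⁻¹'
      (Set.univ.pi fun i => Set.Ico (mesh n * (k i : ℝ)) (mesh n * (k i : ℝ) + mesh n)) := by
    ext x
    simp only [Set.mem_setOf_eq, Set.mem_preimage, Set.mem_pi, Set.mem_univ, true_imp_iff,
      Set.mem_Ico]
  rw [this]
  exact (PiLp.volume_preserving_ofLp (Fin n)).measurable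
    (MeasurableSet.univ_pi fun i => measurableSet_Ico)

/-- the union of cells of a finite set of indices -/
theorem volume_cells {n : ℕ} (hn : 0 < n) (S : Finset (Fin n → ℤ)) :
    volume (⋃ k ∈ S, cell n k) = ENNReal.ofReal (S.card * mesh n ^ n) := by
  rw [measure_biUnion_finset]
  · simp only [volume_cell hn, sum_const, nsmul_eq_mul]
    rw [ENNReal.ofReal_mul (by positivity), ENNReal.ofReal_natCast]
  · intro k _ k' _ hkk'
    refine Set.disjoint_left.2 fun x hx hx' => hkk' ?_
    rw [← (show rdi n x = k from hx), (show rdi n x = k' from hx')]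
  · exact fun k _ => measurableSet_cell hn k

/-- volume of the unit ball -/
noncomputable def VB (n : ℕ) : ℝ := volume.real (Metric.closedBall (0 : EE n) 1)

theorem volume_closedBall {n : ℕ} (x : EE n) {r : ℝ} (hr : 0 ≤ r) :
    volume (Metric.closedBall x r) = ENNReal.ofReal (r ^ n * VB n) := by
  rw [Measure.addHaar_closedBall' _ x hr, ENNReal.ofReal_mul (by positivity), VB,
    ofReal_measureReal (measure_closedBall_lt_top.ne), finrank_euclideanSpace_fin]

theorem volume_real_closedBall {n : ℕ} (x : EE n) {r : ℝ} (hr : 0 ≤ r) :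
    volume.real (Metric.closedBall x r) = r ^ n * VB n := by
  rw [measureReal_def, volume_closedBall x hr, ENNReal.toReal_ofReal]
  exact mul_nonneg (by positivity) measureReal_nonneg

theorem VB_pos (n : ℕ) : 0 < VB n := by
  unfold VB
  rw [measureReal_def, ENNReal.toReal_pos_iff]
  exact ⟨Metric.measure_closedBall_pos _ _ one_pos, measure_closedBall_lt_top⟩

theorem card_mul_le {n : ℕ} (hn : 0 < n) (S : Finset (EE n)) (hS : ∀ z ∈ S, ∃ k, gp n k = z)
    (p : EE n) {r : ℝ} (hr : 0 ≤ r) (hp : ∀ z ∈ S, dist z p ≤ r) :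
    (S.card : ℝ) * mesh n ^ n ≤ (r + mesh n * √n) ^ n * VB n := by
  classical
  have hm := mesh_pos hn
  set T : Finset (Fin n → ℤ) := S.preimage (gp n) (gp_injective hn).injOn with hT
  have hcard : T.card = S.card := by
    have : T.image (gp n) = S := by
      rw [hT, image_preimage]
      refine filter_true_of_mem fun z hz => ?_
      obtain ⟨k, hk⟩ := hS z hz
      exact ⟨k, hk⟩
    rw [← this, card_image_of_injective _ (gp_injective hn)]
  have h1 : (⋃ k ∈ T, cell n k) ⊆ Metric.closedBall p (r + mesh n * √n) := by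
    intro x hx
    simp only [Set.mem_iUnion, exists_prop] at hx
    obtain ⟨k, hk, hxk⟩ := hx
    have hxk' : rd n x = gp n k := by unfold rd; rw [show rdi n x = k from hxk]
    have hk' : gp n k ∈ S := by rw [hT, mem_preimage] at hk; exact hk
    rw [Metric.mem_closedBall]
    calc dist x p ≤ dist x (gp n k) + dist (gp n k) p := dist_triangle _ _ _
      _ ≤ mesh n * √n + r := by
        refine add_le_add ?_ (hp _ hk')
        rw [← hxk', dist_eq_norm]
        exact norm_sub_rd_le hn x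
      _ = _ := by ring
  have h2 := measure_mono (μ := volume) h1
  rw [volume_cells hn, volume_closedBall _ (by positivity), hcard,
    ENNReal.ofReal_le_ofReal_iff (mul_nonneg (by positivity) (VB_pos n).le)] at h2
  exact h2

theorem le_card_mul {n : ℕ} (hn : 0 < n) {r : ℝ} (hr2 : r ≤ 2) (hr : mesh n * √n ≤ r) :
    (r - mesh n * √n) ^ n * VB n ≤ ((GB n r).card : ℝ) * mesh n ^ n := by
  classical
  have hm := mesh_pos hn
  set T : Finset (Fin n → ℤ) := (GB n r).preimage (gp n) (gp_injective hn).injOn with hT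
  have hcard : T.card = (GB n r).card := by
    have : T.image (gp n) = GB n r := by
      rw [hT, image_preimage]
      refine filter_true_of_mem fun z hz => ?_
      obtain ⟨⟨k, hk⟩, _⟩ := (mem_GB hr2).1 hz
      exact ⟨k, hk⟩
    rw [← this, card_image_of_injective _ (gp_injective hn)]
  have h1 : Metric.closedBall (0 : EE n) (r - mesh n * √n) ⊆ ⋃ k ∈ T, cell n k := by
    intro x hx
    rw [Metric.mem_closedBall, dist_zero_right] at hx
    simp only [Set.mem_iUnion, exists_prop]
    refine ⟨rdi n x, ?_, rfl⟩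
    rw [hT, mem_preimage, mem_GB hr2]
    refine ⟨⟨_, rfl⟩, ?_⟩
    have h := norm_sub_rd_le hn x
    have h3 : ‖gp n (rdi n x)‖ ≤ ‖x‖ + ‖x - rd n x‖ := by
      have : gp n (rdi n x) = x - (x - rd n x) := by unfold rd; abel
      calc ‖gp n (rdi n x)‖ = ‖x - (x - rd n x)‖ := by rw [← this]
        _ ≤ _ := norm_sub_le _ _
    linarith
  have h2 := measure_mono (μ := volume) h1
  rw [volume_cells hn, volume_closedBall _ (by linarith), hcard,
    ENNReal.ofReal_le_ofReal_iff (by positivity)] at h2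
  exact h2

theorem card_GB_le (n : ℕ) (r : ℝ) : (GB n r).card ≤ (4 * n ^ 4 + 1) ^ n := by
  classical
  unfold GB
  refine (card_filter_le _ _).trans (card_image_le.trans ?_)
  rw [Fintype.card_piFinset]
  simp only [Int.card_Icc, prod_const, card_univ, Fintype.card_fin]
  refine Nat.pow_le_pow_left ?_ n
  have : (2 * (n : ℤ) ^ 4 + 1 - -(2 * (n : ℤ) ^ 4)) = ((4 * n ^ 4 + 1 : ℕ) : ℤ) := by
    push_cast; ring
  rw [this, Int.toNat_natCast]

end Crest.Agent.R225.LB.Grid
end

-- ▼ part R225/LB/Body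
section

/-!
The random body `K_t` (S0348-E).
-/

set_option autoImplicit false

namespace Crest.Agent.R225.LB.Body

open MeasureTheory ProbabilityTheory Finset Filter Crest.Agent.R225.LB
open Crest.Agent.R225.LB.ExLib Crest.Agent.R225.LB.Grid

/-- the set of differences -/
noncomputable def GG (n : ℕ) : Finset (EE n) := GB n (1 + eta n)

open scoped Classical in
/-- representative of a pattern -/
noncomputable def rep (n : ℕ) (v : Finset (EE n)) : EE n :=
  if h : ∃ u ∈ box n, pat n (GG n) u = v then h.choose else 0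

/-- the body -/
def KB (n : ℕ) (t : Finset (Finset (EE n))) : Set (EE n) :=
  {x | ‖x‖ ≤ 1 ∧ ∀ v ∈ t, v.Nonempty → |inner ℝ (rep n v) x| ≤ s0 n - 1 / (2 * s0 n)}

theorem rep_spec {n : ℕ} {v : Finset (EE n)} (h : ∃ u ∈ box n, pat n (GG n) u = v) :
    rep n v ∈ box n ∧ pat n (GG n) (rep n v) = v := by
  classical
  unfold rep
  rw [dif_pos h]
  exact h.choose_spec

theorem zero_mem_box (n : ℕ) : (0 : EE n) ∈ box n := by
  intro i; simp

theorem rep_mem_box (n : ℕ) (v : Finset (EE n)) : rep n v ∈ box n := by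
  classical
  by_cases h : ∃ u ∈ box n, pat n (GG n) u = v
  · exact (rep_spec h).1
  · unfold rep; rw [dif_neg h]; exact zero_mem_box n

theorem norm_le_of_mem_box {n : ℕ} {u : EE n} (hu : u ∈ box n) : ‖u‖ ≤ n * √n :=
  norm_le_of_abs_le (Nat.cast_nonneg n) hu

theorem pp_nonneg (n : ℕ) (G : Finset (EE n)) (v : Finset (EE n)) : 0 ≤ pp n G v := by
  unfold pp
  have := nu_nonneg n {u | pat n G u = v}
  have h2 : Real.exp (-nu n {u | pat n G u = v}) ≤ 1 := by
    rw [Real.exp_le_one_iff]; linarith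
  linarith

theorem pp_le_one (n : ℕ) (G : Finset (EE n)) (v : Finset (EE n)) : pp n G v ≤ 1 := by
  unfold pp
  have := Real.exp_pos (-nu n {u | pat n G u = v})
  linarith

theorem pp_le (n : ℕ) (G : Finset (EE n)) (v : Finset (EE n)) :
    pp n G v ≤ nu n {u | pat n G u = v} := by
  unfold pp
  have := Real.add_one_le_exp (-nu n {u | pat n G u = v})
  linarith

theorem exists_of_pp_pos {n : ℕ} {G : Finset (EE n)} {v : Finset (EE n)} (h : 0 < pp n G v) :
    ∃ u ∈ box n, pat n G u = v := by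
  by_contra hcon
  push Not at hcon
  have h0 : {u | pat n G u = v} ∩ box n = ∅ := by
    ext u
    simp only [Set.mem_inter_iff, Set.mem_setOf_eq, Set.mem_empty_iff_false, iff_false, not_and]
    exact fun hu hb => hcon u hb hu
  have h1 : nu n {u | pat n G u = v} = 0 := by
    unfold nu
    rw [h0]; simp
  have := pp_le n G v
  linarith

theorem mesh_mul_bound {n : ℕ} (hn : 0 < n) : (n * √n) * (mesh n * √n) = 1 / (n : ℝ) ^ 2 := by
  have h : √(n : ℝ) * √n = n := Real.mul_self_sqrt (Nat.cast_nonneg n)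
  have hn' : (n : ℝ) ≠ 0 := by positivity
  unfold mesh
  calc (n * √n) * (1 / (n : ℝ) ^ 4 * √n) = (n : ℝ) * (√n * √n) * (1 / (n : ℝ) ^ 4) := by ring
    _ = 1 / (n : ℝ) ^ 2 := by rw [h]; field_simp

theorem mesh_sqrt_le {n : ℕ} (hn : 0 < n) : mesh n * √n ≤ eta n := by
  have hn' : (1 : ℝ) ≤ n := by exact_mod_cast hn
  have h : √(n : ℝ) ≤ n := by
    rw [Real.sqrt_le_left (by linarith)]
    nlinarith
  unfold mesh eta
  calc 1 / (n : ℝ) ^ 4 * √n ≤ 1 / (n : ℝ) ^ 4 * n := by
        refine mul_le_mul_of_nonneg_left h (by positivity)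
    _ = 1 / (n : ℝ) ^ 3 := by field_simp

theorem eta_pos {n : ℕ} (hn : 0 < n) : 0 < eta n := by unfold eta; positivity

theorem eta_le_one {n : ℕ} (hn : 0 < n) : eta n ≤ 1 := by
  have hn' : (1 : ℝ) ≤ n := by exact_mod_cast hn
  unfold eta
  rw [div_le_one (by positivity)]
  exact one_le_pow₀ hn'

theorem mem_GG {n : ℕ} (hn : 0 < n) {z : EE n} :
    z ∈ GG n ↔ (∃ k, gp n k = z) ∧ ‖z‖ ≤ 1 + eta n :=
  mem_GB (by linarith [eta_le_one hn])

/-- `1/n^2 < 1/(4 s0)` for `n ≥ 75`. -/
theorem small_lt {n : ℕ} (hn : 75 ≤ n) : 1 / (n : ℝ) ^ 2 < 1 / (4 * s0 n) := by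
  have hn' : (75 : ℝ) ≤ n := by exact_mod_cast hn
  have hs := s0_pos (n := n) (by omega)
  rw [div_lt_div_iff₀ (by positivity) (by positivity)]
  have h2 : √(n : ℝ) * √n = n := Real.mul_self_sqrt (Nat.cast_nonneg n)
  have h3 : (8 : ℝ) ≤ √n := by
    rw [show (8 : ℝ) = √64 by rw [show (64 : ℝ) = 8 ^ 2 by norm_num, Real.sqrt_sq (by norm_num)]]
    exact Real.sqrt_le_sqrt (by linarith)
  have h4 : (√(n : ℝ)) ^ 4 = (n : ℝ) ^ 2 := by
    calc (√(n : ℝ)) ^ 4 = (√(n : ℝ) * √n) ^ 2 := by ring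
      _ = _ := by rw [h2]
  have h6 : (640 : ℝ) < (√(n : ℝ)) ^ 3 := by
    have h7 : (√(n : ℝ)) ^ 3 = n * √n := by
      calc (√(n : ℝ)) ^ 3 = (√(n : ℝ) * √n) * √n := by ring
        _ = _ := by rw [h2]
    have h8 : (8.6 : ℝ) ≤ √n := by
      rw [show (8.6 : ℝ) = √(8.6 ^ 2) by rw [Real.sqrt_sq (by norm_num)]]
      exact Real.sqrt_le_sqrt (by norm_num; linarith)
    rw [h7]
    nlinarith
  unfold s0
  have h5 : (0 : ℝ) < √n := by linarith
  calc 1 * (4 * (160 * √(n : ℝ))) = 640 * √n := by ring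
    _ < (√(n : ℝ)) ^ 3 * √n := mul_lt_mul_of_pos_right h6 h5
    _ = (n : ℝ) ^ 2 * 1 := by rw [mul_one, ← h4]; ring
    _ = 1 * (n : ℝ) ^ 2 := by ring

/-- certificate of non membership -/
theorem not_mem_KB {n : ℕ} (hn : 75 ≤ n) {t : Finset (Finset (EE n))} {v : Finset (EE n)}
    (hv : v ∈ t) (hpos : 0 < pp n (GG n) v) {z x : EE n} (hz : z ∈ v)
    (hxz : ‖x - z‖ ≤ mesh n * √n) : x ∉ KB n t := by
  classical
  intro hx
  have hn0 : 0 < n := by omega
  obtain ⟨hbox, hpat⟩ := rep_spec (exists_of_pp_pos hpos)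
  have hk : s0 n ≤ inner ℝ (rep n v) z := by
    have : z ∈ pat n (GG n) (rep n v) := by rw [hpat]; exact hz
    unfold pat at this
    exact (mem_filter.1 this).2
  have h1 := hx.2 v hv ⟨z, hz⟩
  have h2 : inner ℝ (rep n v) x = inner ℝ (rep n v) z + inner ℝ (rep n v) (x - z) := by
    rw [inner_sub_right]; ring
  have h3 : |inner ℝ (rep n v) (x - z)| ≤ 1 / (n : ℝ) ^ 2 := by
    calc |inner ℝ (rep n v) (x - z)| ≤ ‖rep n v‖ * ‖x - z‖ := abs_real_inner_le_norm _ _
      _ ≤ (n * √n) * (mesh n * √n) :=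
        mul_le_mul (norm_le_of_mem_box hbox) hxz (norm_nonneg _) (by positivity)
      _ = _ := mesh_mul_bound hn0
  have h4 := small_lt hn
  have hs := s0_pos hn0
  have h5 : 1 / (4 * s0 n) < 1 / (2 * s0 n) := by
    apply one_div_lt_one_div_of_lt <;> linarith
  have h6 := (abs_le.1 h3).1
  have h7 := (abs_le.1 h1).2
  linarith

/-- If `x` is not in the body, some pattern of `t` contains `z` or `-z`, for `z` near `(1+θ) x`. -/
theorem exists_mem_of_not_mem {n : ℕ} (hn : 75 ≤ n) {t : Finset (Finset (EE n))} {x z : EE n}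
    (hx1 : ‖x‖ ≤ 1) (hzG : z ∈ GG n) (hz : ‖(1 + 1 / s0 n ^ 2) • x - z‖ ≤ mesh n * √n)
    (hx : x ∉ KB n t) : ∃ v ∈ t, z ∈ v ∨ -z ∈ v := by
  classical
  have hn0 : 0 < n := by omega
  have hs := s0_pos hn0
  have hs1 := one_le_s0 hn0
  have hx' : ∃ v ∈ t, v.Nonempty ∧ s0 n - 1 / (2 * s0 n) < |inner ℝ (rep n v) x| := by
    by_contra hcon
    push Not at hcon
    exact hx ⟨hx1, fun v hv hv' => hcon v hv hv'⟩
  obtain ⟨v, hv, hvne, hlt⟩ := hx'
  refine ⟨v, hv, ?_⟩
  have hreal : ∃ u ∈ box n, pat n (GG n) u = v := by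
    by_contra hcon
    have : rep n v = 0 := by unfold rep; rw [dif_neg hcon]
    rw [this, inner_zero_left, abs_zero] at hlt
    have : 1 / (2 * s0 n) ≤ 1 := by rw [div_le_one (by positivity)]; linarith
    linarith
  obtain ⟨hbox, hpat⟩ := rep_spec hreal
  have hzneg : -z ∈ GG n := by
    rw [mem_GG hn0] at hzG ⊢
    obtain ⟨⟨k, hk⟩, hz1⟩ := hzG
    exact ⟨⟨-k, by rw [← gp_neg, hk]⟩, by rwa [norm_neg]⟩
  have h3 : |inner ℝ (rep n v) ((1 + 1 / s0 n ^ 2) • x - z)| ≤ 1 / (n : ℝ) ^ 2 := by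
    calc |inner ℝ (rep n v) ((1 + 1 / s0 n ^ 2) • x - z)|
        ≤ ‖rep n v‖ * ‖(1 + 1 / s0 n ^ 2) • x - z‖ := abs_real_inner_le_norm _ _
      _ ≤ (n * √n) * (mesh n * √n) :=
        mul_le_mul (norm_le_of_mem_box hbox) hz (norm_nonneg _) (by positivity)
      _ = _ := mesh_mul_bound hn0
  rw [inner_sub_right, inner_smul_right] at h3
  have h4 := small_lt hn
  have hs2 : s0 n ^ 2 = 25600 * n := s0_sq n
  have hkey : s0 n + 1 / (4 * s0 n) ≤ (1 + 1 / s0 n ^ 2) * (s0 n - 1 / (2 * s0 n)) := by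
    have h8 : (1 + 1 / s0 n ^ 2) * (s0 n - 1 / (2 * s0 n)) - (s0 n + 1 / (4 * s0 n)) =
        (s0 n ^ 2 - 2) / (4 * s0 n ^ 3) := by
      field_simp
      ring
    have h9 : 0 ≤ (s0 n ^ 2 - 2) / (4 * s0 n ^ 3) := by
      refine div_nonneg ?_ (by positivity)
      have : (75 : ℝ) ≤ n := by exact_mod_cast hn
      linarith
    linarith
  have hpos : 0 < 1 + 1 / s0 n ^ 2 := by positivity
  rcases lt_abs.1 hlt with h | h
  · left
    have h10 : s0 n ≤ inner ℝ (rep n v) z := by
      have h11 := mul_lt_mul_of_pos_left h hpos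
      have h12 := (abs_le.1 h3).2
      linarith
    rw [← hpat]
    unfold pat
    exact mem_filter.2 ⟨hzG, h10⟩
  · right
    have h10 : s0 n ≤ inner ℝ (rep n v) (-z) := by
      have h11 := mul_lt_mul_of_pos_left h hpos
      have h12 := (abs_le.1 h3).1
      rw [inner_neg_right]
      linarith
    rw [← hpat]
    unfold pat
    exact mem_filter.2 ⟨hzneg, h10⟩

theorem measurableSet_kill (n : ℕ) (z : EE n) : MeasurableSet (kill n z) := by
  unfold kill
  exact (isClosed_le continuous_const (continuous_id.inner continuous_const)).measurableSet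

theorem measurableSet_box (n : ℕ) : MeasurableSet (box n) := by
  unfold box
  simp only [Set.setOf_forall]
  refine MeasurableSet.iInter fun i => ?_
  refine (isClosed_le ?_ continuous_const).measurableSet
  exact (continuous_abs.comp (PiLp.continuous_apply 2 _ i))

theorem measurableSet_pat (n : ℕ) (G : Finset (EE n)) (v : Finset (EE n)) :
    MeasurableSet {u | pat n G u = v} := by
  classical
  have : {u | pat n G u = v} = if v ⊆ G then
      (⋂ z ∈ G, (if z ∈ v then kill n z else (kill n z)ᶜ)) else ∅ := by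
    split_ifs with hvG
    · ext u
      simp only [Set.mem_setOf_eq, Set.mem_iInter]
      constructor
      · intro h z hz
        split_ifs with hzv
        · rw [← h] at hzv
          exact (mem_filter.1 hzv).2
        · intro hk
          exact hzv (by rw [← h]; exact mem_filter.2 ⟨hz, hk⟩)
      · intro h
        ext z
        unfold pat
        rw [mem_filter]
        constructor
        · rintro ⟨hz, hk⟩
          by_contra hzv
          have := h z hz
          rw [if_neg hzv] at this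
          exact this hk
        · intro hzv
          have := h z (hvG hzv)
          rw [if_pos hzv] at this
          exact ⟨hvG hzv, this⟩
    · ext u
      simp only [Set.mem_setOf_eq, Set.mem_empty_iff_false, iff_false]
      rintro rfl
      exact hvG (filter_subset _ _)
  rw [this]
  split_ifs
  · refine Finset.measurableSet_biInter _ fun z _ => ?_
    split_ifs
    · exact measurableSet_kill n z
    · exact (measurableSet_kill n z).compl
  · exact MeasurableSet.empty

open scoped Classical in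
/-- total intensity of the patterns containing `z` -/
theorem sum_pp_le (n : ℕ) (G : Finset (EE n)) (z : EE n) :
    ∑ v ∈ G.powerset.filter (fun v => z ∈ v), pp n G v ≤ nu n (kill n z) := by
  calc ∑ v ∈ G.powerset.filter (fun v => z ∈ v), pp n G v
      ≤ ∑ v ∈ G.powerset.filter (fun v => z ∈ v), nu n {u | pat n G u = v} :=
        sum_le_sum fun v _ => pp_le n G v
    _ = (∑ v ∈ G.powerset.filter (fun v => z ∈ v),
          (stdGaussian (EE n)).real ({u | pat n G u = v} ∩ box n)) / Q (s0 n) := by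
        rw [sum_div]; rfl
    _ = (stdGaussian (EE n)).real (⋃ v ∈ G.powerset.filter (fun v => z ∈ v),
          {u | pat n G u = v} ∩ box n) / Q (s0 n) := by
        congr 1
        rw [measureReal_biUnion_finset]
        · intro v _ v' _ hvv'
          refine Set.disjoint_left.2 fun u hu hu' => hvv' ?_
          rw [← (show pat n G u = v from hu.1), (show pat n G u = v' from hu'.1)]
        · exact fun v _ => (measurableSet_pat n G v).inter (measurableSet_box n)
    _ ≤ nu n (kill n z) := by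
        unfold nu
        refine div_le_div_of_nonneg_right ?_ (Q_pos _).le
        refine measureReal_mono ?_
        intro u hu
        simp only [Set.mem_iUnion, exists_prop] at hu
        obtain ⟨v, hv, hu1, hu2⟩ := hu
        refine ⟨?_, hu2⟩
        have h1 : z ∈ v := (mem_filter.1 hv).2
        rw [← (show pat n G u = v from hu1)] at h1
        exact (mem_filter.1 h1).2

end Crest.Agent.R225.LB.Body
end

-- ▼ part R225/LB/BodyVol
section

/-!
Convex geometry and volume of the random body `K_t` (S0348-E).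
-/

set_option autoImplicit false

namespace Crest.Agent.R225.LB.Body

open MeasureTheory ProbabilityTheory Finset Filter Crest.Agent.R225.LB
open Crest.Agent.R225.LB.ExLib Crest.Agent.R225.LB.Grid

theorem isClosed_KB (n : ℕ) (t : Finset (Finset (EE n))) : IsClosed (KB n t) := by
  have : KB n t = {x | ‖x‖ ≤ 1} ∩ ⋂ v ∈ t, ⋂ (_ : v.Nonempty),
      {x | |inner ℝ (rep n v) x| ≤ s0 n - 1 / (2 * s0 n)} := by
    ext x
    simp only [KB, Set.mem_setOf_eq, Set.mem_inter_iff, Set.mem_iInter]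
  rw [this]
  refine (isClosed_le continuous_norm continuous_const).inter ?_
  refine isClosed_iInter fun v => isClosed_iInter fun _ => isClosed_iInter fun _ => ?_
  exact isClosed_le (continuous_abs.comp (continuous_const.inner continuous_id)) continuous_const

theorem KB_subset_ball (n : ℕ) (t : Finset (Finset (EE n))) :
    KB n t ⊆ Metric.closedBall 0 1 := by
  intro x hx
  rw [Metric.mem_closedBall, dist_zero_right]
  exact hx.1

theorem isCompact_KB (n : ℕ) (t : Finset (Finset (EE n))) : IsCompact (KB n t) :=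
  (isCompact_closedBall (0 : EE n) 1).of_isClosed_subset (isClosed_KB n t) (KB_subset_ball n t)

theorem convex_KB (n : ℕ) (t : Finset (Finset (EE n))) : Convex ℝ (KB n t) := by
  intro x hx y hy a b ha hb hab
  refine ⟨?_, fun v hv hne => ?_⟩
  · calc ‖a • x + b • y‖ ≤ ‖a • x‖ + ‖b • y‖ := norm_add_le _ _
      _ = a * ‖x‖ + b * ‖y‖ := by
        rw [norm_smul, norm_smul, Real.norm_of_nonneg ha, Real.norm_of_nonneg hb]
      _ ≤ a * 1 + b * 1 := add_le_add (mul_le_mul_of_nonneg_left hx.1 ha)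
        (mul_le_mul_of_nonneg_left hy.1 hb)
      _ = 1 := by linarith
  · rw [inner_add_right, inner_smul_right, inner_smul_right]
    have h1 := hx.2 v hv hne
    have h2 := hy.2 v hv hne
    rw [abs_le] at h1 h2 ⊢
    constructor
    · nlinarith [mul_le_mul_of_nonneg_left h1.1 ha, mul_le_mul_of_nonneg_left h2.1 hb]
    · nlinarith [mul_le_mul_of_nonneg_left h1.2 ha, mul_le_mul_of_nonneg_left h2.2 hb]

theorem neg_mem_KB {n : ℕ} {t : Finset (Finset (EE n))} {x : EE n} (hx : x ∈ KB n t) :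
    -x ∈ KB n t := by
  refine ⟨by rw [norm_neg]; exact hx.1, fun v hv hne => ?_⟩
  rw [inner_neg_right, abs_neg]
  exact hx.2 v hv hne

theorem ball_subset_KB {n : ℕ} (hn : 75 ≤ n) (t : Finset (Finset (EE n))) :
    Metric.ball (0 : EE n) (1 / (n : ℝ) ^ 2) ⊆ KB n t := by
  have hn0 : 0 < n := by omega
  have hn' : (75 : ℝ) ≤ n := by exact_mod_cast hn
  intro x hx
  rw [Metric.mem_ball, dist_zero_right] at hx
  have hle : 1 / (n : ℝ) ^ 2 ≤ 1 := by
    rw [div_le_one (by positivity)]; nlinarith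
  refine ⟨by linarith, fun v _ _ => ?_⟩
  have h2 : √(n : ℝ) * √n = n := Real.mul_self_sqrt (Nat.cast_nonneg n)
  have h1 : |inner ℝ (rep n v) x| ≤ 1 := by
    calc |inner ℝ (rep n v) x| ≤ ‖rep n v‖ * ‖x‖ := abs_real_inner_le_norm _ _
      _ ≤ (n * √n) * (1 / (n : ℝ) ^ 2) :=
        mul_le_mul (norm_le_of_mem_box (rep_mem_box n v)) hx.le (norm_nonneg _) (by positivity)
      _ ≤ (n * n) * (1 / (n : ℝ) ^ 2) := by
        refine mul_le_mul_of_nonneg_right ?_ (by positivity)
        refine mul_le_mul_of_nonneg_left ?_ (by positivity)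
        rw [Real.sqrt_le_left (by linarith)]
        nlinarith
      _ = 1 := by field_simp
  have hs : 160 ≤ s0 n := by
    unfold s0
    have : (1 : ℝ) ≤ √n := by
      rw [Real.one_le_sqrt]; linarith
    linarith
  have h3 : 1 / (2 * s0 n) ≤ 1 := by
    rw [div_le_one (by linarith)]; linarith
  linarith

theorem interior_KB_nonempty {n : ℕ} (hn : 75 ≤ n) (t : Finset (Finset (EE n))) :
    (interior (KB n t)).Nonempty := by
  have hn' : (75 : ℝ) ≤ n := by exact_mod_cast hn
  refine ⟨0, mem_interior.2 ⟨Metric.ball 0 (1 / (n : ℝ) ^ 2), ball_subset_KB hn t,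
    Metric.isOpen_ball, ?_⟩⟩
  exact Metric.mem_ball_self (by positivity)

open scoped Classical in
theorem prob_not_mem_le {n : ℕ} (hn : 75 ≤ n)
    (hB2 : ∀ z : EE n, ‖z‖ ≤ 1 - 1 / n → nu n {u | s0 n - 1 / s0 n ≤ inner ℝ u z} ≤ 1 / 8)
    {x : EE n} (hx : ‖x‖ ≤ 1 - 2 / n) :
    Ex (pp n (GG n)) (GG n).powerset (fun t => if x ∉ KB n t then 1 else 0) ≤ 1 / 4 := by
  have hn0 : 0 < n := by omega
  have hn' : (75 : ℝ) ≤ n := by exact_mod_cast hn
  have hs := s0_pos hn0
  have hs2 : s0 n ^ 2 = 25600 * n := s0_sq n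
  set z : EE n := rd n ((1 + 1 / s0 n ^ 2) • x) with hzdef
  have hzx : ‖(1 + 1 / s0 n ^ 2) • x - z‖ ≤ mesh n * √n := norm_sub_rd_le hn0 _
  have hznorm : ‖z‖ ≤ 1 - 1 / n := by
    have h1 : ‖z‖ ≤ ‖(1 + 1 / s0 n ^ 2) • x‖ + ‖(1 + 1 / s0 n ^ 2) • x - z‖ := by
      have : z = (1 + 1 / s0 n ^ 2) • x - ((1 + 1 / s0 n ^ 2) • x - z) := by abel
      calc ‖z‖ = ‖(1 + 1 / s0 n ^ 2) • x - ((1 + 1 / s0 n ^ 2) • x - z)‖ := by rw [← this]
        _ ≤ _ := norm_sub_le _ _
    rw [norm_smul, Real.norm_of_nonneg (by positivity)] at h1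
    have h2 := mesh_sqrt_le hn0
    have h3 : (1 + 1 / s0 n ^ 2) * ‖x‖ ≤ (1 + 1 / s0 n ^ 2) * (1 - 2 / n) :=
      mul_le_mul_of_nonneg_left hx (by positivity)
    have h4 : (1 + 1 / s0 n ^ 2) * (1 - 2 / n) ≤ 1 - 2 / n + 1 / (25600 * n) := by
      rw [hs2]
      have : (0 : ℝ) ≤ 1 / (25600 * n) * (2 / n) := by positivity
      nlinarith
    have h5 : eta n ≤ 1 / 4 * (1 / n) := by
      unfold eta
      have h10 : 1 / (n : ℝ) ^ 3 = 1 / (n : ℝ) ^ 2 * (1 / n) := by field_simp
      rw [h10]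
      refine mul_le_mul_of_nonneg_right ?_ (by positivity)
      exact one_div_le_one_div_of_le (by norm_num) (by nlinarith)
    have h6 : 1 / (25600 * (n : ℝ)) = 1 / 25600 * (1 / n) := by
      field_simp
    have h7 : 0 < 1 / (n : ℝ) := by positivity
    have h8 : 2 / (n : ℝ) = 2 * (1 / n) := by ring
    rw [h6, h8] at h4
    rw [h8] at h3
    linarith
  have hzG : z ∈ GG n := by
    rw [mem_GG hn0]
    refine ⟨⟨_, rfl⟩, hznorm.trans ?_⟩
    have := eta_pos hn0
    have : 0 < 1 / (n : ℝ) := by positivity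
    linarith
  have hle : ∀ w : EE n, ‖w‖ ≤ 1 - 1 / n → nu n (kill n w) ≤ 1 / 8 := by
    intro w hw
    refine (nu_mono ?_).trans (hB2 w hw)
    intro u hu
    have h1 : s0 n ≤ inner ℝ u w := hu
    have h2 : 0 < 1 / s0 n := by positivity
    show s0 n - 1 / s0 n ≤ inner ℝ u w
    linarith
  calc Ex (pp n (GG n)) (GG n).powerset (fun t => if x ∉ KB n t then 1 else 0)
      ≤ ∑ v ∈ (GG n).powerset.filter (fun v => z ∈ v ∨ -z ∈ v), pp n (GG n) v := by
        refine Ex_exists_mem_le (pp_nonneg n _) (pp_le_one n _) _ _ _ fun t _ hxt => ?_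
        refine exists_mem_of_not_mem hn ?_ hzG hzx hxt
        have : 0 < 2 / (n : ℝ) := by positivity
        linarith
    _ ≤ ∑ v ∈ (GG n).powerset.filter (fun v => z ∈ v), pp n (GG n) v +
        ∑ v ∈ (GG n).powerset.filter (fun v => -z ∈ v), pp n (GG n) v := by
        rw [filter_or, ← sum_union_inter]
        have : 0 ≤ ∑ v ∈ (GG n).powerset.filter (fun v => z ∈ v) ∩
            (GG n).powerset.filter (fun v => -z ∈ v), pp n (GG n) v :=
          sum_nonneg fun v _ => pp_nonneg n _ v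
        linarith
    _ ≤ 1 / 8 + 1 / 8 := by
        refine add_le_add ((sum_pp_le n _ z).trans (hle z hznorm))
          ((sum_pp_le n _ (-z)).trans (hle (-z) (by rwa [norm_neg])))
    _ = 1 / 4 := by norm_num

theorem KB_measurable (n : ℕ) (t : Finset (Finset (EE n))) : MeasurableSet (KB n t) :=
  (isClosed_KB n t).measurableSet

theorem volume_KB_lt_top (n : ℕ) (t : Finset (Finset (EE n))) : volume (KB n t) < ⊤ :=
  (isCompact_KB n t).measure_lt_top

/-- The expected volume is at least `VB/30`. -/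
theorem Ex_vol_ge {n : ℕ} (hn : 75 ≤ n)
    (hB2 : ∀ z : EE n, ‖z‖ ≤ 1 - 1 / n → nu n {u | s0 n - 1 / s0 n ≤ inner ℝ u z} ≤ 1 / 8)
    (h16 : (1 : ℝ) / 16 ≤ (1 - 2 / n) ^ n) :
    VB n / 30 ≤ Ex (pp n (GG n)) (GG n).powerset (fun t => volume.real (KB n t)) := by
  classical
  have hn0 : 0 < n := by omega
  have hn' : (75 : ℝ) ≤ n := by exact_mod_cast hn
  have hr0 : (0 : ℝ) ≤ 1 - 2 / n := by
    rw [sub_nonneg, div_le_one (by linarith)]; linarith
  set B : Set (EE n) := Metric.closedBall (0 : EE n) (1 - 2 / n) with hB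
  have hBm : MeasurableSet B := Metric.isClosed_closedBall.measurableSet
  have hBfin : volume B ≠ ⊤ := measure_closedBall_lt_top.ne
  have hvolB : volume.real B = (1 - 2 / (n : ℝ)) ^ n * VB n := volume_real_closedBall _ hr0
  -- pointwise
  have h1 : ∀ t, volume.real B - volume.real (B ∩ (KB n t)ᶜ) ≤ volume.real (KB n t) := by
    intro t
    have h2 : volume.real B = volume.real (B ∩ KB n t) + volume.real (B \ KB n t) :=
      (measureReal_inter_add_diff (KB_measurable n t) hBfin).symm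
    have h3 : volume.real (B ∩ KB n t) ≤ volume.real (KB n t) :=
      measureReal_mono Set.inter_subset_right (volume_KB_lt_top n t).ne
    rw [Set.diff_eq] at h2
    linarith
  have h4 : Ex (pp n (GG n)) (GG n).powerset (fun t => volume.real (B ∩ (KB n t)ᶜ)) ≤
      1 / 4 * volume.real B := by
    have h5 : ∀ t, volume.real (B ∩ (KB n t)ᶜ) = ∫ x in B, (if x ∉ KB n t then (1 : ℝ) else 0) := by
      intro t
      have h6 : (fun x : EE n => if x ∉ KB n t then (1 : ℝ) else 0) =
          (KB n t)ᶜ.indicator (fun _ => (1 : ℝ)) := by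
        funext x
        simp only [Set.indicator, Set.mem_compl_iff]
      rw [h6, setIntegral_indicator (KB_measurable n t).compl, setIntegral_const, smul_eq_mul,
        mul_one]
    have hint : ∀ t, IntegrableOn (fun x => if x ∉ KB n t then (1 : ℝ) else 0) B := by
      intro t
      have h6 : (fun x : EE n => if x ∉ KB n t then (1 : ℝ) else 0) =
          (KB n t)ᶜ.indicator (fun _ => (1 : ℝ)) := by
        funext x
        simp only [Set.indicator, Set.mem_compl_iff]
      rw [h6]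
      exact (integrableOn_const hBfin).indicator (KB_measurable n t).compl
    have h7 : Ex (pp n (GG n)) (GG n).powerset (fun t => volume.real (B ∩ (KB n t)ᶜ)) =
        ∫ x in B, Ex (pp n (GG n)) (GG n).powerset (fun t => if x ∉ KB n t then 1 else 0) := by
      unfold Ex
      rw [integral_finset_sum]
      · refine sum_congr rfl fun t _ => ?_
        rw [integral_const_mul]
        beta_reduce
        rw [h5 t]
      · intro t _
        exact (hint t).const_mul _
    rw [h7]
    calc ∫ x in B, Ex (pp n (GG n)) (GG n).powerset (fun t => if x ∉ KB n t then 1 else 0)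
        ≤ ∫ _x in B, (1 / 4 : ℝ) := by
          refine setIntegral_mono_on ?_ (integrableOn_const hBfin) hBm fun x hx => ?_
          · unfold Ex
            exact integrable_finset_sum _ fun t _ => (hint t).const_mul _
          · rw [hB, Metric.mem_closedBall, dist_zero_right] at hx
            exact prob_not_mem_le hn hB2 hx
      _ = 1 / 4 * volume.real B := by
          rw [setIntegral_const, smul_eq_mul, mul_comm]
  have h8 : volume.real B - 1 / 4 * volume.real B ≤
      Ex (pp n (GG n)) (GG n).powerset (fun t => volume.real (KB n t)) := by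
    calc volume.real B - 1 / 4 * volume.real B
        ≤ Ex (pp n (GG n)) (GG n).powerset (fun _ => volume.real B) -
          Ex (pp n (GG n)) (GG n).powerset (fun t => volume.real (B ∩ (KB n t)ᶜ)) := by
          rw [Ex_const]; linarith
      _ = Ex (pp n (GG n)) (GG n).powerset
            (fun t => volume.real B - volume.real (B ∩ (KB n t)ᶜ)) := (Ex_sub _ _ _ _).symm
      _ ≤ _ := Ex_mono (pp_nonneg n _) (pp_le_one n _) _ fun t _ => h1 t
  have hVB := VB_pos n
  have h9 : 1 / 16 * VB n ≤ (1 - 2 / (n : ℝ)) ^ n * VB n := mul_le_mul_of_nonneg_right h16 hVB.le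
  rw [hvolB] at h8
  linarith

end Crest.Agent.R225.LB.Body
end

-- ▼ part R225/LB/Good
section

/-!
Existence of a good realisation of the random body (S0348-E).
-/

set_option autoImplicit false

namespace Crest.Agent.R225.LB.Body

open MeasureTheory ProbabilityTheory Finset Filter Crest.Agent.R225.LB
open Crest.Agent.R225.LB.ExLib Crest.Agent.R225.LB.Grid

/-- the statement of `config_prob` for fixed `n` -/
def CP (c : ℝ) (n : ℕ) : Prop :=
    ∀ (X Y G : Finset (EE n)), X.card ≤ 3 ^ n → Y.Nonempty →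
    (∀ y ∈ Y, ∑ x ∈ X, qw n (y - x) ≤ c * n * Real.log n) →
    (∀ y ∈ Y, ∀ x ∈ X, ‖y - x‖ ≤ 1 + eta n → y - x ∈ G) →
    (∀ p : EE n, ∀ r : ℝ, (r = (n : ℝ) ^ (-(1 / 5 : ℝ)) ∨ r = 1 / 40) →
      ((Y.filter (fun y => dist y p ≤ r)).card : ℝ) ≤ (2 * r) ^ n * Y.card) →
    Ex (pp n G) G.powerset
      (fun t => if ∀ y ∈ Y, ∃ x ∈ X, ‖y - x‖ ≤ 1 + eta n ∧ ∀ v ∈ t, y - x ∉ v then 1 else 0)
      ≤ Real.exp (-(4 : ℝ) ^ n)

/-- the statement of `nu_kill_le` for fixed `n` -/
def B2 (n : ℕ) : Prop :=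
  ∀ z : EE n, ‖z‖ ≤ 1 - 1 / n → nu n {u | s0 n - 1 / s0 n ≤ inner ℝ u z} ≤ 1 / 8

/-- test points -/
noncomputable def Y0 (n : ℕ) : Finset (EE n) := GB n (3 / 5)

/-- good test points -/
noncomputable def YX (n : ℕ) (c : ℝ) (X : Finset (EE n)) : Finset (EE n) :=
  (Y0 n).filter (fun y => ∑ x ∈ X, qw n (y - x) ≤ c * n * Real.log n)

/-- admissible configurations -/
noncomputable def Adm (n : ℕ) (c : ℝ) : Finset (Finset (EE n)) :=
  (GB n 2).powerset.filter (fun X => X.card ≤ 3 ^ n ∧ (Y0 n).card ≤ 2 * (YX n c X).card)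

/-- number of small subsets -/
theorem card_small_subsets {α : Type*} [DecidableEq α] (S : Finset α) (k : ℕ) :
    (S.powerset.filter (fun T => T.card ≤ k)).card ≤ (S.card + 1) ^ k := by
  induction k with
  | zero =>
    rw [pow_zero]
    have : S.powerset.filter (fun T => T.card ≤ 0) ⊆ {∅} := by
      intro T hT
      rw [mem_filter] at hT
      rw [mem_singleton]
      exact card_eq_zero.1 (Nat.le_zero.1 hT.2)
    simpa using card_le_card this
  | succ k ih =>
    set F := S.powerset.filter (fun T => T.card ≤ k) with hF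
    have hsub : S.powerset.filter (fun T => T.card ≤ k + 1) ⊆
        F ∪ (S ×ˢ F).image (fun q => insert q.1 q.2) := by
      intro T hT
      rw [mem_filter, mem_powerset] at hT
      rw [mem_union]
      by_cases h : T.card ≤ k
      · left
        rw [hF, mem_filter, mem_powerset]
        exact ⟨hT.1, h⟩
      · right
        have hcard : T.card = k + 1 := by omega
        have hne : T.Nonempty := by
          rw [← card_pos]; omega
        obtain ⟨a, ha⟩ := hne
        rw [mem_image]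
        refine ⟨(a, T.erase a), ?_, insert_erase ha⟩
        rw [mem_product, hF, mem_filter, mem_powerset]
        refine ⟨hT.1 ha, (erase_subset _ _).trans hT.1, ?_⟩
        rw [card_erase_of_mem ha]; omega
    calc (S.powerset.filter (fun T => T.card ≤ k + 1)).card
        ≤ (F ∪ (S ×ˢ F).image (fun q => insert q.1 q.2)).card := card_le_card hsub
      _ ≤ F.card + (S ×ˢ F).card := (card_union_le _ _).trans
          (Nat.add_le_add_left card_image_le _)
      _ = (S.card + 1) * F.card := by rw [card_product]; ring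
      _ ≤ (S.card + 1) * (S.card + 1) ^ k := Nat.mul_le_mul_left _ ih
      _ = (S.card + 1) ^ (k + 1) := by ring

theorem card_Adm_le (n : ℕ) (c : ℝ) : (Adm n c).card ≤ ((4 * n ^ 4 + 1) ^ n + 1) ^ (3 ^ n) := by
  classical
  calc (Adm n c).card ≤ ((GB n 2).powerset.filter (fun T => T.card ≤ 3 ^ n)).card := by
        refine card_le_card fun X hX => ?_
        unfold Adm at hX
        rw [mem_filter] at hX ⊢
        exact ⟨hX.1, hX.2.1⟩
    _ ≤ ((GB n 2).card + 1) ^ (3 ^ n) := card_small_subsets _ _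
    _ ≤ _ := Nat.pow_le_pow_left (Nat.add_le_add_right (card_GB_le n 2) 1) _

/-- ball counts -/
theorem ball_count {n : ℕ} (hn : 75 ≤ n) {Y : Finset (EE n)} (hY : Y ⊆ Y0 n)
    (hcard : (Y0 n).card ≤ 2 * Y.card) (p : EE n) {r : ℝ}
    (hr : r = (n : ℝ) ^ (-(1 / 5 : ℝ)) ∨ r = 1 / 40) :
    ((Y.filter (fun y => dist y p ≤ r)).card : ℝ) ≤ (2 * r) ^ n * Y.card := by
  have hn0 : 0 < n := by omega
  have hn' : (75 : ℝ) ≤ n := by exact_mod_cast hn
  have hnpos : (0 : ℝ) < n := by linarith
  have hm := mesh_pos hn0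
  have hVB := VB_pos n
  set δ : ℝ := mesh n * √n with hδ
  have hδ0 : 0 ≤ δ := by positivity
  have hδ1 : δ ≤ 1 / (n : ℝ) ^ 3 := mesh_sqrt_le hn0
  have hδ2 : δ ≤ 1 / 100 * (1 / n) := by
    have h10 : 1 / (n : ℝ) ^ 3 = 1 / (n : ℝ) ^ 2 * (1 / n) := by field_simp
    rw [h10] at hδ1
    refine hδ1.trans (mul_le_mul_of_nonneg_right ?_ (by positivity))
    exact one_div_le_one_div_of_le (by norm_num) (by nlinarith)
  have hinv : 1 / (n : ℝ) ≤ 1 / 75 := one_div_le_one_div_of_le (by norm_num) hn'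
  have hr0 : 0 < r := by
    rcases hr with h | h <;> rw [h]
    · positivity
    · norm_num
  have hδr : δ ≤ 1 / 100 * r := by
    refine hδ2.trans (mul_le_mul_of_nonneg_left ?_ (by norm_num))
    rcases hr with h | h <;> rw [h]
    · rw [one_div, ← Real.rpow_neg_one]
      exact Real.rpow_le_rpow_of_exponent_le (by linarith) (by norm_num)
    · linarith
  have hlt2 : (3 / 5 : ℝ) ≤ 2 := by norm_num
  have h1 : (((Y.filter (fun y => dist y p ≤ r)).card : ℝ)) * mesh n ^ n ≤
      (r + δ) ^ n * VB n := by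
    refine card_mul_le hn0 _ (fun z hz => ?_) p hr0.le (fun z hz => (mem_filter.1 hz).2)
    have := hY (mem_filter.1 hz).1
    exact ((mem_GB hlt2).1 this).1
  have h2 : (3 / 5 - δ) ^ n * VB n ≤ ((Y0 n).card : ℝ) * mesh n ^ n :=
    le_card_mul hn0 hlt2 (by rw [← hδ]; linarith)
  have hcard' : ((Y0 n).card : ℝ) ≤ 2 * Y.card := by exact_mod_cast hcard
  have h3 : (r + δ) ^ n ≤ (2 * r) ^ n * ((3 / 5 - δ) ^ n / 2) := by
    have h4 : (2 : ℝ) ≤ (11 / 10) ^ n := by
      have := one_add_mul_le_pow (a := (1 / 10 : ℝ)) (by norm_num) n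
      have h5 : (1 : ℝ) + n * (1 / 10) ≤ (1 + 1 / 10) ^ n := this
      norm_num at h5 ⊢
      linarith
    have h6 : r + δ ≤ 101 / 100 * r := by linarith
    have h7 : 101 / 100 * r * (11 / 10) ≤ 2 * r * (3 / 5 - δ) := by
      have : δ ≤ 1 / 100 := by linarith
      nlinarith
    calc (r + δ) ^ n = (r + δ) ^ n * 1 := by ring
      _ ≤ (r + δ) ^ n * ((11 / 10) ^ n / 2) := by
        refine mul_le_mul_of_nonneg_left (by linarith) (by positivity)
      _ = ((r + δ) * (11 / 10)) ^ n / 2 := by rw [mul_pow]; ring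
      _ ≤ (2 * r * (3 / 5 - δ)) ^ n / 2 := by
        refine div_le_div_of_nonneg_right ?_ (by norm_num)
        refine pow_le_pow_left₀ (by positivity) ?_ n
        calc (r + δ) * (11 / 10) ≤ 101 / 100 * r * (11 / 10) :=
              mul_le_mul_of_nonneg_right h6 (by norm_num)
          _ ≤ _ := h7
      _ = _ := by rw [mul_pow]; ring
  have hmn : 0 < mesh n ^ n := by positivity
  have h8 : ((Y.filter (fun y => dist y p ≤ r)).card : ℝ) * mesh n ^ n ≤
      ((2 * r) ^ n * Y.card) * mesh n ^ n := by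
    calc ((Y.filter (fun y => dist y p ≤ r)).card : ℝ) * mesh n ^ n ≤ (r + δ) ^ n * VB n := h1
      _ ≤ (2 * r) ^ n * ((3 / 5 - δ) ^ n / 2) * VB n := mul_le_mul_of_nonneg_right h3 hVB.le
      _ = (2 * r) ^ n * (((3 / 5 - δ) ^ n * VB n) / 2) := by ring
      _ ≤ (2 * r) ^ n * ((((Y0 n).card : ℝ) * mesh n ^ n) / 2) := by
        refine mul_le_mul_of_nonneg_left (div_le_div_of_nonneg_right h2 (by norm_num))
          (by positivity)
      _ ≤ (2 * r) ^ n * ((2 * Y.card * mesh n ^ n) / 2) := by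
        refine mul_le_mul_of_nonneg_left (div_le_div_of_nonneg_right ?_ (by norm_num))
          (by positivity)
        exact mul_le_mul_of_nonneg_right hcard' hmn.le
      _ = _ := by ring
  exact le_of_mul_le_mul_right h8 hmn

theorem Y0_nonempty {n : ℕ} (hn : 75 ≤ n) : (Y0 n).Nonempty := by
  have hlt2 : (3 / 5 : ℝ) ≤ 2 := by norm_num
  refine ⟨gp n 0, (mem_GB hlt2).2 ⟨⟨0, rfl⟩, ?_⟩⟩
  have : gp n 0 = 0 := by ext i; simp
  rw [this, norm_zero]; norm_num

end Crest.Agent.R225.LB.Body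
end

-- ▼ part R225/LB/Good2
section

/-!
Existence of a good realisation of the random body (S0348-E), continued.
-/

set_option autoImplicit false

namespace Crest.Agent.R225.LB.Body

open MeasureTheory ProbabilityTheory Finset Filter Crest.Agent.R225.LB
open Crest.Agent.R225.LB.ExLib Crest.Agent.R225.LB.Grid

theorem num1 : ∀ᶠ n : ℕ in atTop, (1 : ℝ) / 16 ≤ (1 - 2 / n) ^ n := by
  have h := Real.tendsto_one_add_div_pow_exp (-2)
  have h2 : (1 : ℝ) / 16 < Real.exp (-2) := by
    rw [Real.exp_neg, one_div, inv_lt_inv₀ (by norm_num) (Real.exp_pos _)]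
    have h3 : Real.exp 2 = Real.exp 1 ^ 2 := by
      rw [← Real.exp_nat_mul]; norm_num
    rw [h3]
    have h4 := Real.exp_one_lt_d9
    have h5 := Real.exp_pos 1
    nlinarith
  filter_upwards [h.eventually (lt_mem_nhds h2)] with n hn
  have : (1 : ℝ) + -2 / n = 1 - 2 / n := by ring
  rw [this] at hn
  exact hn.le

theorem num2 : ∀ᶠ n : ℕ in atTop,
    ((((4 * n ^ 4 + 1) ^ n + 1) ^ (3 ^ n) : ℕ) : ℝ) * Real.exp (-(4 : ℝ) ^ n) ≤ 1 / 100 := by
  have h1 : ∀ᶠ n : ℕ in atTop, 4 * (n : ℝ) ^ 4 + 2 ≤ Real.exp n := by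
    have := tendsto_pow_const_mul_const_pow_of_abs_lt_one 4 (r := Real.exp (-1))
      (by
        rw [abs_of_pos (Real.exp_pos _)]
        have := Real.exp_lt_exp.2 (show (-1 : ℝ) < 0 by norm_num)
        rwa [Real.exp_zero] at this)
    filter_upwards [this.eventually (gt_mem_nhds (show (0 : ℝ) < 1 / 6 by norm_num)),
      eventually_ge_atTop 1] with n hn hn1
    have hn' : (1 : ℝ) ≤ n := by exact_mod_cast hn1
    have h2 : Real.exp (-1) ^ n = (Real.exp n)⁻¹ := by
      rw [← Real.exp_nat_mul, ← Real.exp_neg]; ring_nf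
    rw [h2, ← div_eq_mul_inv, div_lt_iff₀ (Real.exp_pos _)] at hn
    have h3 : (1 : ℝ) ≤ (n : ℝ) ^ 4 := one_le_pow₀ hn'
    linarith
  have h2 : ∀ᶠ n : ℕ in atTop, (n : ℝ) ^ 2 * 3 ^ n ≤ 4 ^ n / 2 := by
    have := tendsto_pow_const_mul_const_pow_of_abs_lt_one 2 (r := (3 / 4 : ℝ))
      (by rw [abs_of_pos (by norm_num)]; norm_num)
    filter_upwards [this.eventually (gt_mem_nhds (show (0 : ℝ) < 1 / 2 by norm_num))] with n hn
    have h4 : (0 : ℝ) < 4 ^ n := by positivity
    rw [div_pow] at hn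
    have h5 : (n : ℝ) ^ 2 * 3 ^ n = ((n : ℝ) ^ 2 * (3 ^ n / 4 ^ n)) * 4 ^ n := by
      field_simp
    rw [h5]
    nlinarith
  filter_upwards [h1, h2, eventually_ge_atTop 5] with n hn1 hn2 hn5
  have hn' : (5 : ℝ) ≤ n := by exact_mod_cast hn5
  have h3 : (((4 * n ^ 4 + 1) ^ n + 1 : ℕ) : ℝ) ≤ Real.exp ((n : ℝ) ^ 2) := by
    push_cast
    calc (4 * (n : ℝ) ^ 4 + 1) ^ n + 1 ≤ (4 * (n : ℝ) ^ 4 + 1 + 1) ^ n := by
          have := pow_add_pow_le (x := 4 * (n : ℝ) ^ 4 + 1) (y := 1) (by positivity)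
            zero_le_one (show n ≠ 0 by omega)
          rwa [one_pow] at this
      _ ≤ (Real.exp n) ^ n := by
          refine pow_le_pow_left₀ (by positivity) ?_ n
          linarith
      _ = Real.exp ((n : ℝ) ^ 2) := by
          rw [← Real.exp_nat_mul]; ring_nf
  have h4 : ((((4 * n ^ 4 + 1) ^ n + 1) ^ (3 ^ n) : ℕ) : ℝ) ≤ Real.exp ((n : ℝ) ^ 2 * 3 ^ n) := by
    rw [Nat.cast_pow]
    calc (((4 * n ^ 4 + 1) ^ n + 1 : ℕ) : ℝ) ^ (3 ^ n) ≤ Real.exp ((n : ℝ) ^ 2) ^ (3 ^ n) :=
          pow_le_pow_left₀ (by positivity) h3 _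
      _ = Real.exp ((n : ℝ) ^ 2 * 3 ^ n) := by
          rw [← Real.exp_nat_mul]; push_cast; ring_nf
  have h5 : (10 : ℝ) ≤ 4 ^ n := by
    calc (10 : ℝ) ≤ 4 ^ 5 := by norm_num
      _ ≤ 4 ^ n := pow_le_pow_right₀ (by norm_num) hn5
  calc ((((4 * n ^ 4 + 1) ^ n + 1) ^ (3 ^ n) : ℕ) : ℝ) * Real.exp (-(4 : ℝ) ^ n)
      ≤ Real.exp ((n : ℝ) ^ 2 * 3 ^ n) * Real.exp (-(4 : ℝ) ^ n) :=
        mul_le_mul_of_nonneg_right h4 (Real.exp_pos _).le
    _ = Real.exp ((n : ℝ) ^ 2 * 3 ^ n + -(4 : ℝ) ^ n) := (Real.exp_add _ _).symm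
    _ ≤ Real.exp (-5) := Real.exp_le_exp.2 (by linarith)
    _ ≤ 1 / 100 := by
        rw [Real.exp_neg, one_div, inv_le_inv₀ (Real.exp_pos _) (by norm_num)]
        have h6 : Real.exp 5 = Real.exp 1 ^ 5 := by
          rw [← Real.exp_nat_mul]; norm_num
        rw [h6]
        have h7 : (2.7 : ℝ) ≤ Real.exp 1 := by
          have := Real.exp_one_gt_d9
          linarith
        calc (100 : ℝ) ≤ 2.7 ^ 5 := by norm_num
          _ ≤ Real.exp 1 ^ 5 := pow_le_pow_left₀ (by norm_num) h7 5

/-- Existence of a good realisation. -/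
theorem exists_good (c : ℝ) (hCP : ∀ᶠ n : ℕ in atTop, CP c n) (hB2 : ∀ᶠ n : ℕ in atTop, B2 n) :
    ∀ᶠ n : ℕ in atTop, 75 ≤ n ∧ ∃ t : Finset (Finset (EE n)), (∀ v ∈ t, 0 < pp n (GG n) v) ∧
      VB n / 60 ≤ volume.real (KB n t) ∧
      ∀ X ∈ Adm n c, ∃ y ∈ YX n c X, ∀ x ∈ X, ‖y - x‖ ≤ 1 + eta n → ∃ v ∈ t, y - x ∈ v := by
  filter_upwards [hCP, hB2, num1, num2, eventually_ge_atTop 75] with n hCP hB2 h1 h2 hn
  refine ⟨hn, ?_⟩
  have hn0 : 0 < n := by omega
  have hVB := VB_pos n
  have hlt2 : (3 / 5 : ℝ) ≤ 2 := by norm_num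
  -- the bad indicator
  set ind : Finset (EE n) → Finset (Finset (EE n)) → ℝ := fun X t =>
    if ∀ y ∈ YX n c X, ∃ x ∈ X, ‖y - x‖ ≤ 1 + eta n ∧ ∀ v ∈ t, y - x ∉ v then 1 else 0 with hind
  have hind0 : ∀ X t, 0 ≤ ind X t := by
    intro X t
    simp only [hind]
    split_ifs <;> norm_num
  have hbad : ∀ X ∈ Adm n c, Ex (pp n (GG n)) (GG n).powerset (ind X) ≤
      Real.exp (-(4 : ℝ) ^ n) := by
    intro X hX
    unfold Adm at hX
    rw [mem_filter, mem_powerset] at hX
    obtain ⟨hXs, hX3, hXY⟩ := hX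
    have hYne : (YX n c X).Nonempty := by
      rw [← card_pos]
      have := (Y0_nonempty hn).card_pos
      omega
    refine hCP X (YX n c X) (GG n) hX3 hYne (fun y hy => (mem_filter.1 hy).2) ?_ ?_
    · intro y hy x hx hxy
      obtain ⟨⟨k, hk⟩, _⟩ := (mem_GB hlt2).1 (mem_filter.1 hy).1
      obtain ⟨⟨k', hk'⟩, _⟩ := (mem_GB le_rfl).1 (hXs hx)
      rw [mem_GG hn0]
      exact ⟨⟨k - k', by rw [← gp_sub, hk, hk']⟩, hxy⟩
    · intro p r hr
      exact ball_count hn (filter_subset _ _) hXY p hr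
  have hEx : 1 / 60 < Ex (pp n (GG n)) (GG n).powerset
      (fun t => volume.real (KB n t) / VB n - ∑ X ∈ Adm n c, ind X t) := by
    rw [Ex_sub]
    have h3 : Ex (pp n (GG n)) (GG n).powerset (fun t => ∑ X ∈ Adm n c, ind X t) ≤ 1 / 100 := by
      rw [Ex_sum]
      calc ∑ X ∈ Adm n c, Ex (pp n (GG n)) (GG n).powerset (ind X)
          ≤ ∑ X ∈ Adm n c, Real.exp (-(4 : ℝ) ^ n) := sum_le_sum hbad
        _ = ((Adm n c).card : ℝ) * Real.exp (-(4 : ℝ) ^ n) := by rw [sum_const, nsmul_eq_mul]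
        _ ≤ ((((4 * n ^ 4 + 1) ^ n + 1) ^ (3 ^ n) : ℕ) : ℝ) * Real.exp (-(4 : ℝ) ^ n) := by
            refine mul_le_mul_of_nonneg_right ?_ (Real.exp_pos _).le
            exact_mod_cast card_Adm_le n c
        _ ≤ 1 / 100 := h2
    have h4 : 1 / 30 ≤ Ex (pp n (GG n)) (GG n).powerset
        (fun t => volume.real (KB n t) / VB n) := by
      have h5 : (fun t : Finset (Finset (EE n)) => volume.real (KB n t) / VB n) =
          (fun t => (VB n)⁻¹ * volume.real (KB n t)) := by
        funext t; rw [div_eq_inv_mul]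
      rw [h5, Ex_mul_left]
      have h6 := Ex_vol_ge hn hB2 h1
      calc (1 : ℝ) / 30 = (VB n)⁻¹ * (VB n / 30) := by field_simp
        _ ≤ _ := mul_le_mul_of_nonneg_left h6 (by positivity)
    linarith
  obtain ⟨t, _, htpos, ht⟩ := exists_of_lt_Ex (pp_nonneg n _) (pp_le_one n _) _ hEx
  have hvol1 : volume.real (KB n t) / VB n ≤ 1 := by
    rw [div_le_one hVB]
    exact measureReal_mono (KB_subset_ball n t) measure_closedBall_lt_top.ne
  have hsum0 : 0 ≤ ∑ X ∈ Adm n c, ind X t := sum_nonneg fun X _ => hind0 X t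
  refine ⟨t, htpos, ?_, ?_⟩
  · have h7 : 1 / 60 < volume.real (KB n t) / VB n := by linarith
    rw [lt_div_iff₀ hVB] at h7
    linarith
  · intro X hX
    by_contra hcon
    push Not at hcon
    have h8 : ind X t = 1 := by
      simp only [hind]
      rw [if_pos]
      intro y hy
      obtain ⟨x, hx, hxy, hv⟩ := hcon y hy
      exact ⟨x, hx, hxy, hv⟩
    have h9 : ind X t ≤ ∑ X ∈ Adm n c, ind X t :=
      single_le_sum (f := fun X => ind X t) (fun X _ => hind0 X t) hX
    linarith

end Crest.Agent.R225.LB.Body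
end

-- ▼ part R225/LB/Avg
section

/-!
Row 225, S0348, module F: the averaging lemma.
-/

set_option autoImplicit false

namespace Crest.Agent.R225.LB

open MeasureTheory ProbabilityTheory Finset Filter

namespace Avg

/-- the cube -/
def cube (n : ℕ) (R : ℝ) : Set (EE n) := {x | ∀ i, |x i| ≤ R}

lemma cube_eq (n : ℕ) {R : ℝ} (hR : 0 ≤ R) :
    cube n R = (MeasurableEquiv.toLp 2 (Fin n → ℝ)).symm ⁻¹' (Metric.closedBall (0 : Fin n → ℝ) R) := by
  ext x
  simp only [cube, Set.mem_setOf_eq, Set.mem_preimage, mem_closedBall_zero_iff]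
  rw [pi_norm_le_iff_of_nonneg hR]
  simp [Real.norm_eq_abs]

lemma volume_cube (n : ℕ) {R : ℝ} (hR : 0 ≤ R) :
    volume (cube n R) = ENNReal.ofReal ((2 * R) ^ n) := by
  rw [cube_eq n hR, (EuclideanSpace.volume_preserving_symm_measurableEquiv_toLp
    (Fin n)).measure_preimage_equiv, Real.volume_pi_closedBall _ hR, Fintype.card_fin]

lemma mem_cube_add {n : ℕ} {R r : ℝ} {v w x : EE n} (hv : v ∈ cube n R)
    (hx : x ∈ Metric.closedBall (v + w) r) : x ∈ cube n (R + (‖w‖ + r)) := by
  intro i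
  have h1 : ‖x - (v + w)‖ ≤ r := by simpa [dist_eq_norm] using hx
  have h2 : |x i - (v i + w i)| ≤ ‖x - (v + w)‖ := by
    have := PiLp.norm_apply_le (x - (v + w)) i
    simpa [Real.norm_eq_abs] using this
  have h3 : |w i| ≤ ‖w‖ := by
    have := PiLp.norm_apply_le w i
    simpa [Real.norm_eq_abs] using this
  have h4 := hv i
  have h5 : x i = (x i - (v i + w i)) + v i + w i := by ring
  calc |x i| = |(x i - (v i + w i)) + v i + w i| := by rw [← h5]
    _ ≤ |x i - (v i + w i)| + |v i| + |w i| := abs_add_three _ _ _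
    _ ≤ R + (‖w‖ + r) := by linarith

/-- the counting function, as an `ENNReal` valued function of the translation `v` -/
noncomputable def g {n : ℕ} (F : Finset (EE n)) {ι : Type*} (J : Finset ι) (c : ι → ℝ)
    (w : ι → EE n) (r : ι → ℝ) (v : EE n) : ENNReal :=
  ∑ j ∈ J, ENNReal.ofReal (c j) *
    ∑ x ∈ F, (Metric.closedBall (x - w j) (r j)).indicator (fun _ => (1 : ENNReal)) v

lemma measurable_g {n : ℕ} (F : Finset (EE n)) {ι : Type*} (J : Finset ι) (c : ι → ℝ)
    (w : ι → EE n) (r : ι → ℝ) : Measurable (g F J c w r) := by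
  unfold g
  refine Finset.measurable_sum _ fun j _ => Measurable.const_mul ?_ _
  refine Finset.measurable_sum _ fun x _ => ?_
  exact measurable_const.indicator Metric.isClosed_closedBall.measurableSet

lemma lintegral_g_le {n : ℕ} (F : Finset (EE n)) {ι : Type*} (J : Finset ι) (c : ι → ℝ)
    (w : ι → EE n) (r : ι → ℝ) (s : Set (EE n)) :
    ∫⁻ v in s, g F J c w r v ≤
      (F.card : ENNReal) * ∑ j ∈ J, ENNReal.ofReal (c j) * volume (Metric.closedBall (0 : EE n) (r j)) := by
  refine (setLIntegral_le_lintegral s _).trans ?_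
  unfold g
  rw [lintegral_finset_sum]
  · rw [Finset.mul_sum]
    refine Finset.sum_le_sum fun j _ => ?_
    rw [lintegral_const_mul]
    · rw [lintegral_finset_sum]
      · have : ∀ x ∈ F, ∫⁻ a, (Metric.closedBall (x - w j) (r j)).indicator
            (fun _ => (1 : ENNReal)) a = volume (Metric.closedBall (0 : EE n) (r j)) := by
          intro x _
          rw [lintegral_indicator_const Metric.isClosed_closedBall.measurableSet, one_mul,
            Measure.addHaar_closedBall_center]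
        rw [Finset.sum_congr rfl this, Finset.sum_const, nsmul_eq_mul]
        exact le_of_eq (by ring)
      · intro x _
        exact measurable_const.indicator Metric.isClosed_closedBall.measurableSet
    · refine Finset.measurable_sum _ fun x _ => ?_
      exact measurable_const.indicator Metric.isClosed_closedBall.measurableSet
  · intro j _
    refine Measurable.const_mul ?_ _
    refine Finset.measurable_sum _ fun x _ => ?_
    exact measurable_const.indicator Metric.isClosed_closedBall.measurableSet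

lemma sum_indicator_eq {n : ℕ} (X : Set (EE n)) (F : Finset (EE n)) (w v : EE n) (r R : ℝ)
    (hF : (F : Set (EE n)) = X ∩ cube n R)
    (h : ∀ x ∈ Metric.closedBall (v + w) r, x ∈ cube n R) :
    ∑ x ∈ F, (Metric.closedBall (x - w) r).indicator (fun _ => (1 : ENNReal)) v
      = ((X ∩ Metric.closedBall (v + w) r).ncard : ENNReal) := by
  classical
  have h1 : X ∩ Metric.closedBall (v + w) r =
      ((F.filter (fun x => v ∈ Metric.closedBall (x - w) r) : Finset (EE n)) : Set (EE n)) := by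
    ext x
    rw [Finset.coe_filter]
    simp only [Set.mem_inter_iff, Set.mem_setOf_eq]
    have hd : (v ∈ Metric.closedBall (x - w) r) ↔ (x ∈ Metric.closedBall (v + w) r) := by
      rw [Metric.mem_closedBall, Metric.mem_closedBall, dist_eq_norm, dist_eq_norm,
        show v - (x - w) = -(x - (v + w)) by abel, norm_neg]
    constructor
    · rintro ⟨hx, hb⟩
      refine ⟨?_, hd.mpr hb⟩
      have : x ∈ (F : Set (EE n)) := by rw [hF]; exact ⟨hx, h x hb⟩
      exact this
    · rintro ⟨hx, hb⟩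
      have : x ∈ (F : Set (EE n)) := hx
      rw [hF] at this
      exact ⟨this.1, hd.mp hb⟩
  rw [h1, Set.ncard_coe_finset, Finset.card_filter, Nat.cast_sum]
  refine Finset.sum_congr rfl fun x _ => ?_
  by_cases hx : v ∈ Metric.closedBall (x - w) r
  · rw [Set.indicator_of_mem hx, if_pos hx]; simp
  · rw [Set.indicator_of_notMem hx, if_neg hx]; simp

end Avg

open Avg in
/-- If the upper density (with respect to cubes) of the locally finite set `X` is `< ρ`, then
some translate sees at most twice the average in finitely many weighted ball counts. -/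
theorem exists_translate {n : ℕ} (hn : 0 < n) (X : Set (EE n))
    (hX : ∀ R : ℝ, (X ∩ {x | ∀ i, |x i| ≤ R}).Finite) (ρ : ℝ) (hρ : 0 < ρ)
    (hlim : limsup (fun R : ℝ => ((X ∩ {x | ∀ i, |x i| ≤ R}).ncard : ENNReal) /
              ENNReal.ofReal ((2 * R) ^ n)) atTop < ENNReal.ofReal ρ)
    {ι : Type*} (J : Finset ι) (c : ι → ℝ) (hc : ∀ j ∈ J, 0 ≤ c j) (w : ι → EE n) (r : ι → ℝ)
    (hr : ∀ j ∈ J, 0 ≤ r j) :
    ∃ v : EE n, ∑ j ∈ J, c j * ((X ∩ Metric.closedBall (v + w j) (r j)).ncard : ℝ) ≤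
      2 * ρ * ∑ j ∈ J, c j * (volume (Metric.closedBall (0 : EE n) (r j))).toReal := by
  classical
  set A : ℝ := ∑ j ∈ J, (‖w j‖ + r j) with hA
  have hA0 : 0 ≤ A := Finset.sum_nonneg fun j hj => add_nonneg (norm_nonneg _) (hr j hj)
  have hAj : ∀ j ∈ J, ‖w j‖ + r j ≤ A := fun j hj =>
    Finset.single_le_sum (f := fun j => ‖w j‖ + r j)
      (fun i hi => add_nonneg (norm_nonneg _) (hr i hi)) hj
  have h1 : ∀ᶠ R : ℝ in atTop, ((X ∩ {x | ∀ i, |x i| ≤ R}).ncard : ENNReal) /
              ENNReal.ofReal ((2 * R) ^ n) < ENNReal.ofReal ρ :=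
    eventually_lt_of_limsup_lt hlim
  have h1' : ∀ᶠ R : ℝ in atTop, ((X ∩ {x | ∀ i, |x i| ≤ R + A}).ncard : ENNReal) /
              ENNReal.ofReal ((2 * (R + A)) ^ n) < ENNReal.ofReal ρ :=
    (tendsto_atTop_add_const_right atTop A tendsto_id).eventually h1
  have h2 : ∀ᶠ R : ℝ in atTop, ((R + A) / R) ^ n ≤ 2 := by
    have ht : Tendsto (fun R : ℝ => (1 + A / R) ^ n) atTop (nhds ((1 + 0) ^ n)) := by
      refine Tendsto.pow (tendsto_const_nhds.add ?_) n
      exact tendsto_const_nhds.div_atTop tendsto_id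
    have h3 : ∀ᶠ R : ℝ in atTop, (1 + A / R) ^ n < 2 :=
      ht.eventually_lt_const (by norm_num)
    filter_upwards [h3, eventually_gt_atTop 0] with R hR hR0
    have : (R + A) / R = 1 + A / R := by field_simp
    rw [this]; exact hR.le
  obtain ⟨R, hR1, hR2, hR0⟩ := (h1'.and (h2.and (eventually_gt_atTop 0))).exists
  have hRA : 0 < R + A := by linarith
  have hfin : (X ∩ cube n (R + A)).Finite := hX (R + A)
  set F : Finset (EE n) := hfin.toFinset with hF
  have hFc : (F : Set (EE n)) = X ∩ cube n (R + A) := hfin.coe_toFinset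
  have hcard : (X ∩ {x | ∀ i, |x i| ≤ R + A}).ncard = F.card := by
    rw [show X ∩ {x : EE n | ∀ i, |x i| ≤ R + A} = (F : Set (EE n)) from hFc.symm,
      Set.ncard_coe_finset]
  rw [hcard] at hR1
  have hpow : 0 < (2 * (R + A)) ^ n := by positivity
  have hcount : (F.card : ℝ) ≤ ρ * (2 * (R + A)) ^ n := by
    have h3 : (F.card : ENNReal) ≤ ENNReal.ofReal ρ * ENNReal.ofReal ((2 * (R + A)) ^ n) := by
      rw [ENNReal.div_lt_iff (Or.inl (by positivity)) (Or.inl ENNReal.ofReal_ne_top)] at hR1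
      exact hR1.le
    rw [← ENNReal.ofReal_mul hρ.le, ← ENNReal.ofReal_natCast] at h3
    exact (ENNReal.ofReal_le_ofReal_iff (by positivity)).mp h3
  -- the average
  have hvol : volume (cube n R) = ENNReal.ofReal ((2 * R) ^ n) := volume_cube n hR0.le
  have hpos : 0 < (2 * R) ^ n := by positivity
  obtain ⟨v, hv, hle⟩ := exists_le_setLAverage (μ := volume) (s := cube n R)
    (f := g F J c w r) (by rw [hvol]; positivity) (by rw [hvol]; exact ENNReal.ofReal_ne_top)
    (measurable_g F J c w r).aemeasurable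
  refine ⟨v, ?_⟩
  rw [setLAverage_eq, hvol] at hle
  have hvb : ∀ j, volume (Metric.closedBall (0 : EE n) (r j)) ≠ ⊤ := fun j =>
    (isCompact_closedBall _ _).measure_ne_top
  set S : ℝ := ∑ j ∈ J, c j * (volume (Metric.closedBall (0 : EE n) (r j))).toReal with hS
  have hS0 : 0 ≤ S := Finset.sum_nonneg fun j hj => mul_nonneg (hc j hj) ENNReal.toReal_nonneg
  have hSe : ∑ j ∈ J, ENNReal.ofReal (c j) * volume (Metric.closedBall (0 : EE n) (r j))
      = ENNReal.ofReal S := by
    rw [hS, ENNReal.ofReal_sum_of_nonneg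
      (fun j hj => mul_nonneg (hc j hj) ENNReal.toReal_nonneg)]
    refine Finset.sum_congr rfl fun j hj => ?_
    rw [ENNReal.ofReal_mul (hc j hj), ENNReal.ofReal_toReal (hvb j)]
  have hgv : g F J c w r v = ENNReal.ofReal
      (∑ j ∈ J, c j * ((X ∩ Metric.closedBall (v + w j) (r j)).ncard : ℝ)) := by
    rw [ENNReal.ofReal_sum_of_nonneg (fun j hj => mul_nonneg (hc j hj) (Nat.cast_nonneg _))]
    unfold g
    refine Finset.sum_congr rfl fun j hj => ?_
    rw [ENNReal.ofReal_mul (hc j hj), ENNReal.ofReal_natCast,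
      sum_indicator_eq X F (w j) v (r j) (R + A) hFc]
    intro x hx i
    exact (mem_cube_add hv hx i).trans (by linarith [hAj j hj])
  rw [hgv] at hle
  have hint := lintegral_g_le F J c w r (cube n R)
  rw [hSe] at hint
  have hle2 : ENNReal.ofReal
      (∑ j ∈ J, c j * ((X ∩ Metric.closedBall (v + w j) (r j)).ncard : ℝ))
      ≤ ENNReal.ofReal (2 * ρ * S) := by
    refine hle.trans ?_
    refine ENNReal.div_le_of_le_mul ?_
    refine hint.trans ?_
    rw [← ENNReal.ofReal_natCast, ← ENNReal.ofReal_mul (Nat.cast_nonneg _),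
      ← ENNReal.ofReal_mul (by positivity)]
    refine ENNReal.ofReal_le_ofReal ?_
    have h5 : (2 * (R + A)) ^ n ≤ 2 * (2 * R) ^ n := by
      have h6 : (2 * (R + A)) ^ n = ((R + A) / R) ^ n * (2 * R) ^ n := by
        rw [← mul_pow]; congr 1; field_simp
      rw [h6]
      exact mul_le_mul_of_nonneg_right hR2 hpos.le
    calc (F.card : ℝ) * S ≤ (ρ * (2 * (R + A)) ^ n) * S := mul_le_mul_of_nonneg_right hcount hS0
      _ ≤ (ρ * (2 * (2 * R) ^ n)) * S := by gcongr
      _ = 2 * ρ * S * (2 * R) ^ n := by ring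
  exact (ENNReal.ofReal_le_ofReal_iff (by positivity)).mp hle2

end Crest.Agent.R225.LB
end

-- ▼ part R225/LB/Window
section

/-!
From a sparse locally finite set to an admissible grid configuration (S0348-E).
-/

set_option autoImplicit false

namespace Crest.Agent.R225.LB.Body

open MeasureTheory ProbabilityTheory Finset Filter Crest.Agent.R225.LB
open Crest.Agent.R225.LB.ExLib Crest.Agent.R225.LB.Grid

/-- radii -/
noncomputable def rad (n j : ℕ) : ℝ := 1 + 2 * eta n - j / n

theorem rad_nonneg {n j : ℕ} (hn : 0 < n) (hj : j < n) : 0 ≤ rad n j := by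
  have h1 : (j : ℝ) / n ≤ 1 := by
    rw [div_le_one (by exact_mod_cast hn)]; exact_mod_cast hj.le
  have := eta_pos hn
  unfold rad; linarith

theorem rad_pow_le {n j : ℕ} (hn : 2 ≤ n) (hj : j < n) : rad n j ^ n ≤ Real.exp (1 - j) := by
  have hn0 : 0 < n := by omega
  have hn' : (2 : ℝ) ≤ n := by exact_mod_cast hn
  have h1 : rad n j ≤ Real.exp (2 * eta n - j / n) := by
    have := Real.add_one_le_exp (2 * eta n - j / n)
    unfold rad; linarith
  calc rad n j ^ n ≤ Real.exp (2 * eta n - j / n) ^ n :=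
        pow_le_pow_left₀ (rad_nonneg hn0 hj) h1 n
    _ = Real.exp (n * (2 * eta n - j / n)) := (Real.exp_nat_mul _ n).symm
    _ ≤ Real.exp (1 - j) := by
        apply Real.exp_le_exp.2
        have h2 : (n : ℝ) * (2 * eta n - j / n) = 2 / (n : ℝ) ^ 2 - j := by
          unfold eta
          field_simp
        rw [h2]
        have h3 : 2 / (n : ℝ) ^ 2 ≤ 1 := by
          rw [div_le_one (by positivity)]; nlinarith
        linarith

theorem sum_exp_le (n : ℕ) (hn : 2 ≤ n) :
    ∑ j ∈ range n, Real.exp (j / 2) * rad n j ^ n ≤ 9 := by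
  have hq : Real.exp (-(1 / 2)) ≤ 2 / 3 := by
    have h1 : (3 / 2 : ℝ) ≤ Real.exp (1 / 2) := by
      have := Real.add_one_le_exp (1 / 2 : ℝ)
      linarith
    rw [Real.exp_neg]
    calc (Real.exp (1 / 2))⁻¹ ≤ (3 / 2 : ℝ)⁻¹ := inv_anti₀ (by norm_num) h1
      _ = 2 / 3 := by norm_num
  calc ∑ j ∈ range n, Real.exp (j / 2) * rad n j ^ n
      ≤ ∑ j ∈ range n, Real.exp 1 * (2 / 3) ^ j := by
        refine sum_le_sum fun j hj => ?_
        rw [mem_range] at hj
        calc Real.exp (j / 2) * rad n j ^ n ≤ Real.exp (j / 2) * Real.exp (1 - j) :=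
              mul_le_mul_of_nonneg_left (rad_pow_le hn hj) (Real.exp_pos _).le
          _ = Real.exp 1 * Real.exp (-(1 / 2)) ^ j := by
              rw [← Real.exp_nat_mul, ← Real.exp_add, ← Real.exp_add]
              congr 1; ring
          _ ≤ Real.exp 1 * (2 / 3) ^ j := by
              refine mul_le_mul_of_nonneg_left ?_ (Real.exp_pos _).le
              exact pow_le_pow_left₀ (Real.exp_pos _).le hq j
    _ = Real.exp 1 * ∑ j ∈ range n, (2 / 3 : ℝ) ^ j := by rw [mul_sum]
    _ ≤ Real.exp 1 * 3 := by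
        refine mul_le_mul_of_nonneg_left ?_ (Real.exp_pos _).le
        rw [geom_sum_eq (by norm_num)]
        have : (0 : ℝ) ≤ (2 / 3) ^ n := by positivity
        rw [div_le_iff_of_neg (by norm_num)]
        linarith
    _ ≤ 9 := by
        have := Real.exp_one_lt_d9
        linarith

theorem num3 (a : ℝ) : ∀ᶠ n : ℕ in atTop,
    20 * a * n * Real.log n * (17 / 10) ^ n ≤ 3 ^ n := by
  have := tendsto_pow_const_mul_const_pow_of_abs_lt_one 2 (r := (17 / 30 : ℝ))
      (by rw [abs_of_pos (by norm_num)]; norm_num)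
  have hpos : (0 : ℝ) < 1 / (20 * |a| + 1) := by positivity
  filter_upwards [this.eventually (gt_mem_nhds hpos), eventually_ge_atTop 1] with n hn hn1
  have hn' : (1 : ℝ) ≤ n := by exact_mod_cast hn1
  have hlog : Real.log n ≤ n := (Real.log_le_sub_one_of_pos (by linarith)).trans (by linarith)
  have hlog0 : 0 ≤ Real.log n := Real.log_nonneg hn'
  have h1 : 20 * a * n * Real.log n ≤ (20 * |a| + 1) * (n : ℝ) ^ 2 := by
    calc 20 * a * n * Real.log n = 20 * a * (n * Real.log n) := by ring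
      _ ≤ (20 * |a| + 1) * (n * Real.log n) := by
        refine mul_le_mul_of_nonneg_right ?_ (by positivity)
        have := le_abs_self a
        linarith
      _ ≤ (20 * |a| + 1) * (n * n) := by
        refine mul_le_mul_of_nonneg_left ?_ (by positivity)
        exact mul_le_mul_of_nonneg_left hlog (by positivity)
      _ = _ := by ring
  have h2 : ((17 : ℝ) / 30) ^ n * 3 ^ n = (17 / 10) ^ n := by
    rw [← mul_pow]; norm_num
  rw [lt_div_iff₀ (by positivity)] at hn
  calc 20 * a * n * Real.log n * (17 / 10) ^ n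
      ≤ (20 * |a| + 1) * (n : ℝ) ^ 2 * (17 / 10) ^ n :=
        mul_le_mul_of_nonneg_right h1 (by positivity)
    _ = ((n : ℝ) ^ 2 * (17 / 30) ^ n * (20 * |a| + 1)) * 3 ^ n := by rw [← h2]; ring
    _ ≤ 1 * 3 ^ n := mul_le_mul_of_nonneg_right hn.le (by positivity)
    _ = 3 ^ n := one_mul _

open scoped Classical in
theorem qw_eq {n : ℕ} (z : EE n) : qw n z =
    ∑ j ∈ Finset.range n, Real.exp (j / 2) * (if ‖z‖ ≤ 1 + eta n - j / n then 1 else 0) := by
  unfold qw
  refine sum_congr rfl fun j _ => ?_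
  congr

theorem qw_nonneg (n : ℕ) (z : EE n) : 0 ≤ qw n z := by
  unfold qw
  exact sum_nonneg fun j _ => mul_nonneg (Real.exp_pos _).le (by split_ifs <;> norm_num)

/-- The weighted count after rounding is bounded by the true count. -/
theorem sum_qw_le {n : ℕ} (hn : 0 < n) (X : Set (EE n)) (F : Finset (EE n))
    (hF : ∀ x ∈ F, x ∈ X) (hfin : ∀ p r, (X ∩ Metric.closedBall p r).Finite) (v y : EE n)
    [DecidableEq (EE n)] :
    ∑ x' ∈ F.image (fun x => rd n (x - v)), qw n (y - x') ≤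
      ∑ j ∈ range n, Real.exp (j / 2) *
        ((X ∩ Metric.closedBall (v + y) (rad n j)).ncard : ℝ) := by
  classical
  calc ∑ x' ∈ F.image (fun x => rd n (x - v)), qw n (y - x')
      ≤ ∑ x ∈ F, qw n (y - rd n (x - v)) :=
        sum_image_le_of_nonneg fun x _ => qw_nonneg n _
    _ = ∑ j ∈ range n, Real.exp (j / 2) *
        ∑ x ∈ F, (if ‖y - rd n (x - v)‖ ≤ 1 + eta n - j / n then (1 : ℝ) else 0) := by
        simp only [qw_eq]
        rw [sum_comm]
        exact sum_congr rfl fun j _ => by rw [mul_sum]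
    _ ≤ _ := by
        refine sum_le_sum fun j _ => mul_le_mul_of_nonneg_left ?_ (Real.exp_pos _).le
        rw [sum_boole]
        norm_cast
        rw [← Set.ncard_coe_finset]
        refine Set.ncard_le_ncard ?_ (hfin _ _)
        intro x hx
        rw [mem_coe, mem_filter] at hx
        refine ⟨hF x hx.1, ?_⟩
        rw [Metric.mem_closedBall, dist_eq_norm]
        have h1 := norm_sub_rd_le hn (x - v)
        have h2 := mesh_sqrt_le hn
        have h3 : x - (v + y) = (x - v - rd n (x - v)) - (y - rd n (x - v)) := by abel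
        rw [h3]
        refine (norm_sub_le _ _).trans ?_
        unfold rad
        linarith [hx.2]

end Crest.Agent.R225.LB.Body
end

-- ▼ part R225/LB/Window2
section

/-!
A good body is not a cell of a thin covering (S0348-E).
-/

set_option autoImplicit false

namespace Crest.Agent.R225.LB.Body

open MeasureTheory ProbabilityTheory Finset Filter Crest.Agent.R225.LB
open Crest.Agent.R225.LB.ExLib Crest.Agent.R225.LB.Grid

theorem finite_inter_closedBall {n : ℕ} {X : Set (EE n)}
    (hX : ∀ R : ℝ, (X ∩ {x | ∀ i, |x i| ≤ R}).Finite) (p : EE n) (r : ℝ) :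
    (X ∩ Metric.closedBall p r).Finite := by
  refine (hX (‖p‖ + r)).subset ?_
  rintro x ⟨hx, hxp⟩
  refine ⟨hx, fun i => (abs_apply_le x i).trans ?_⟩
  rw [Metric.mem_closedBall, dist_eq_norm] at hxp
  calc ‖x‖ = ‖p + (x - p)‖ := by congr 1; abel
    _ ≤ ‖p‖ + ‖x - p‖ := norm_add_le _ _
    _ ≤ _ := by linarith

/-- Key: a locally finite set of small density cannot cover with a good body. -/
theorem le_density {c : ℝ} (hc : 0 < c) : ∀ᶠ n : ℕ in atTop, ∀ t : Finset (Finset (EE n)),
    (∀ v ∈ t, 0 < pp n (GG n) v) →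
    (∀ X ∈ Adm n c, ∃ y ∈ YX n c X, ∀ x ∈ X, ‖y - x‖ ≤ 1 + eta n → ∃ v ∈ t, y - x ∈ v) →
    ∀ X : Set (EE n), (∀ R : ℝ, (X ∩ {x | ∀ i, |x i| ≤ R}).Finite) →
      (∀ y : EE n, ∃ x ∈ X, y - x ∈ KB n t) →
      ENNReal.ofReal (c / 40 * n * Real.log n / VB n) ≤
        limsup (fun R : ℝ => ((X ∩ {x | ∀ i, |x i| ≤ R}).ncard : ENNReal) /
              ENNReal.ofReal ((2 * R) ^ n)) atTop := by
  filter_upwards [num3 (c / 40), eventually_ge_atTop 75] with n hnum hn t htpos hgood X hX hcov
  classical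
  have hn0 : 0 < n := by omega
  have hn' : (75 : ℝ) ≤ n := by exact_mod_cast hn
  have hVB := VB_pos n
  have hlog : 0 < Real.log n := Real.log_pos (by linarith)
  have hlt2 : (3 / 5 : ℝ) ≤ 2 := by norm_num
  by_contra hcon
  rw [not_le] at hcon
  set L : ℝ := c / 40 * n * Real.log n with hL
  have hLpos : 0 < L := by positivity
  have hfin := finite_inter_closedBall hX
  have hY0pos : (0 : ℝ) < (Y0 n).card := by
    exact_mod_cast (Y0_nonempty hn).card_pos
  -- the translate
  set cc : Option (EE n × ℕ) → ℝ := fun o => match o with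
    | none => (1 / (17 / 10 : ℝ)) ^ n
    | some q => Real.exp ((q.2 : ℝ) / 2) / (Y0 n).card with hcc
  set ww : Option (EE n × ℕ) → EE n := fun o => match o with
    | none => 0
    | some q => q.1 with hww
  set rr : Option (EE n × ℕ) → ℝ := fun o => match o with
    | none => 17 / 10
    | some q => rad n q.2 with hrr
  obtain ⟨v, hv⟩ := exists_translate hn0 X hX (L / VB n) (by positivity) hcon
    (insertNone (Y0 n ×ˢ range n)) cc (by
      intro o _
      cases o with
      | none => simp only [hcc]; positivity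
      | some q => simp only [hcc]; positivity) ww rr (by
      intro o ho
      cases o with
      | none => simp only [hrr]; norm_num
      | some q =>
        rw [mem_insertNone] at ho
        have := ho q rfl
        rw [mem_product, mem_range] at this
        exact rad_nonneg hn0 this.2)
  rw [sum_insertNone, sum_insertNone, sum_product, sum_product] at hv
  simp only [hcc, hww, hrr, add_zero] at hv
  -- right hand side
  have hvol17 : (volume (Metric.closedBall (0 : EE n) (17 / 10))).toReal =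
      (17 / 10 : ℝ) ^ n * VB n := volume_real_closedBall 0 (by norm_num)
  have hvolr : ∀ j ∈ range n, (volume (Metric.closedBall (0 : EE n) (rad n j))).toReal =
      rad n j ^ n * VB n := fun j hj => volume_real_closedBall 0 (rad_nonneg hn0 (mem_range.1 hj))
  have hR : (1 / (17 / 10 : ℝ)) ^ n * (volume (Metric.closedBall (0 : EE n) (17 / 10))).toReal +
      ∑ x ∈ Y0 n, ∑ j ∈ range n, Real.exp ((j : ℝ) / 2) / (Y0 n).card *
        (volume (Metric.closedBall (0 : EE n) (rad n j))).toReal ≤ 10 * VB n := by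
    have h1 : (1 / (17 / 10 : ℝ)) ^ n *
        (volume (Metric.closedBall (0 : EE n) (17 / 10))).toReal = VB n := by
      rw [hvol17, ← mul_assoc, ← mul_pow]; norm_num
    have h2 : ∑ x ∈ Y0 n, ∑ j ∈ range n, Real.exp ((j : ℝ) / 2) / (Y0 n).card *
        (volume (Metric.closedBall (0 : EE n) (rad n j))).toReal =
        (∑ j ∈ range n, Real.exp (j / 2) * rad n j ^ n) * VB n := by
      rw [sum_const, nsmul_eq_mul, sum_mul, mul_sum]
      refine sum_congr rfl fun j hj => ?_
      rw [hvolr j hj]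
      field_simp
    rw [h1, h2]
    have h3 := mul_le_mul_of_nonneg_right (sum_exp_le n (by omega)) hVB.le
    linarith
  have hRHS : 2 * (L / VB n) * ((1 / (17 / 10 : ℝ)) ^ n *
      (volume (Metric.closedBall (0 : EE n) (17 / 10))).toReal +
      ∑ x ∈ Y0 n, ∑ j ∈ range n, Real.exp ((j : ℝ) / 2) / (Y0 n).card *
        (volume (Metric.closedBall (0 : EE n) (rad n j))).toReal) ≤ 20 * L := by
    calc _ ≤ 2 * (L / VB n) * (10 * VB n) := mul_le_mul_of_nonneg_left hR (by positivity)
      _ = 20 * L := by field_simp; ring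
  have hmain := hv.trans hRHS
  -- the weighted counts
  set S : EE n → ℝ := fun y => ∑ j ∈ range n, Real.exp (j / 2) *
        ((X ∩ Metric.closedBall (v + y) (rad n j)).ncard : ℝ) with hS
  have hS0 : ∀ y, 0 ≤ S y := fun y => sum_nonneg fun j _ => by positivity
  have hsum : ∑ x ∈ Y0 n, ∑ j ∈ range n, Real.exp ((j : ℝ) / 2) / (Y0 n).card *
      ((X ∩ Metric.closedBall (v + x) (rad n j)).ncard : ℝ) = (∑ y ∈ Y0 n, S y) / (Y0 n).card := by
    rw [sum_div]
    refine sum_congr rfl fun y _ => ?_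
    simp only [hS]
    rw [sum_div]
    exact sum_congr rfl fun j _ => by ring
  have hsum0 : 0 ≤ (∑ y ∈ Y0 n, S y) / (Y0 n).card :=
    div_nonneg (sum_nonneg fun y _ => hS0 y) hY0pos.le
  have hpow : (0 : ℝ) < (1 / (17 / 10 : ℝ)) ^ n := by positivity
  rw [hsum] at hmain
  have ha : ((X ∩ Metric.closedBall v (17 / 10)).ncard : ℝ) ≤ 3 ^ n := by
    have h1 : (1 / (17 / 10 : ℝ)) ^ n * ((X ∩ Metric.closedBall v (17 / 10)).ncard : ℝ) ≤
        20 * L := by linarith
    have h2 : ((1 / (17 / 10 : ℝ)) ^ n) * (17 / 10 : ℝ) ^ n = 1 := by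
      rw [← mul_pow]; norm_num
    calc ((X ∩ Metric.closedBall v (17 / 10)).ncard : ℝ)
        = ((1 / (17 / 10 : ℝ)) ^ n * ((X ∩ Metric.closedBall v (17 / 10)).ncard : ℝ)) *
          (17 / 10 : ℝ) ^ n := by
          calc ((X ∩ Metric.closedBall v (17 / 10)).ncard : ℝ)
              = (((1 / (17 / 10 : ℝ)) ^ n) * (17 / 10 : ℝ) ^ n) *
                ((X ∩ Metric.closedBall v (17 / 10)).ncard : ℝ) := by rw [h2, one_mul]
            _ = _ := by ring
      _ ≤ (20 * L) * (17 / 10 : ℝ) ^ n := mul_le_mul_of_nonneg_right h1 (by positivity)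
      _ = 20 * (c / 40) * n * Real.log n * (17 / 10) ^ n := by rw [hL]; ring
      _ ≤ 3 ^ n := hnum
  have hb : ∑ y ∈ Y0 n, S y ≤ 20 * L * (Y0 n).card := by
    have h1 : (∑ y ∈ Y0 n, S y) / (Y0 n).card ≤ 20 * L := by
      have h2 : 0 ≤ (1 / (17 / 10 : ℝ)) ^ n *
          ((X ∩ Metric.closedBall v (17 / 10)).ncard : ℝ) := by positivity
      linarith
    rwa [div_le_iff₀ hY0pos] at h1
  -- the configuration
  set F : Finset (EE n) := (hfin v (17 / 10)).toFinset with hF
  have hFX : ∀ x ∈ F, x ∈ X := fun x hx => ((hfin v (17 / 10)).mem_toFinset.1 hx).1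
  have hFcard : F.card ≤ 3 ^ n := by
    have h1 : F.card = (X ∩ Metric.closedBall v (17 / 10)).ncard := by
      rw [hF, Set.ncard_eq_toFinset_card _ (hfin v (17 / 10))]
    rw [h1]
    exact_mod_cast ha
  set X' : Finset (EE n) := F.image (fun x => rd n (x - v)) with hX'
  have hδ := mesh_sqrt_le hn0
  have hη : eta n ≤ 1 / 10 := by
    unfold eta
    refine one_div_le_one_div_of_le (by norm_num) ?_
    calc (10 : ℝ) ≤ n := by linarith
      _ = (n : ℝ) ^ 1 := (pow_one _).symm
      _ ≤ (n : ℝ) ^ 3 := pow_le_pow_right₀ (by linarith) (by norm_num)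
  have hXadm : X' ∈ Adm n c := by
    unfold Adm
    rw [mem_filter, mem_powerset]
    refine ⟨?_, card_image_le.trans hFcard, ?_⟩
    · intro x' hx'
      rw [hX', mem_image] at hx'
      obtain ⟨x, hx, rfl⟩ := hx'
      rw [mem_GB le_rfl]
      refine ⟨⟨_, rfl⟩, ?_⟩
      have h1 := ((hfin v (17 / 10)).mem_toFinset.1 hx).2
      rw [Metric.mem_closedBall, dist_eq_norm] at h1
      have h2 := norm_sub_rd_le hn0 (x - v)
      have h3 : rd n (x - v) = (x - v) - ((x - v) - rd n (x - v)) := by abel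
      rw [h3]
      refine (norm_sub_le _ _).trans ?_
      linarith
    · -- Markov
      have hsub : (Y0 n).filter (fun y => S y ≤ c * n * Real.log n) ⊆ YX n c X' := by
        intro y hy
        rw [mem_filter] at hy
        unfold YX
        rw [mem_filter]
        refine ⟨hy.1, le_trans ?_ hy.2⟩
        convert sum_qw_le hn0 X F hFX hfin v y
      have h1 : ((Y0 n).filter (fun y => ¬ S y ≤ c * n * Real.log n)).card *
          (c * n * Real.log n) ≤ 20 * L * (Y0 n).card := by
        refine le_trans ?_ hb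
        calc ((Y0 n).filter (fun y => ¬ S y ≤ c * n * Real.log n)).card * (c * n * Real.log n)
            = ∑ y ∈ (Y0 n).filter (fun y => ¬ S y ≤ c * n * Real.log n), (c * n * Real.log n) := by
              rw [sum_const, nsmul_eq_mul]
          _ ≤ ∑ y ∈ (Y0 n).filter (fun y => ¬ S y ≤ c * n * Real.log n), S y :=
              sum_le_sum fun y hy => (not_le.1 (mem_filter.1 hy).2).le
          _ ≤ ∑ y ∈ Y0 n, S y :=
              sum_le_sum_of_subset_of_nonneg (filter_subset _ _) fun y _ _ => hS0 y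
      have h2 : (((Y0 n).filter (fun y => ¬ S y ≤ c * n * Real.log n)).card : ℝ) ≤
          (Y0 n).card / 2 := by
        have h3 : 0 < c * n * Real.log n := by positivity
        have h4 : 20 * L * (Y0 n).card = ((Y0 n).card / 2 : ℝ) * (c * n * Real.log n) := by
          rw [hL]; ring
        rw [h4] at h1
        exact le_of_mul_le_mul_right h1 h3
      have h5 := card_filter_add_card_filter_not (s := Y0 n)
        (fun y => S y ≤ c * n * Real.log n)
      have h6 := card_le_card hsub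
      have h7 : ((Y0 n).filter (fun y => ¬ S y ≤ c * n * Real.log n)).card * 2 ≤
          (Y0 n).card := by
        have : ((((Y0 n).filter (fun y => ¬ S y ≤ c * n * Real.log n)).card * 2 : ℕ) : ℝ) ≤
            ((Y0 n).card : ℝ) := by push_cast; linarith
        exact_mod_cast this
      omega
  obtain ⟨y, hy, hyx⟩ := hgood X' hXadm
  have hy0 : y ∈ Y0 n := (mem_filter.1 hy).1
  have hynorm : ‖y‖ ≤ 3 / 5 := ((mem_GB hlt2).1 hy0).2
  obtain ⟨x, hx, hxK⟩ := hcov (v + y)
  have hxF : x ∈ F := by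
    rw [hF, Set.Finite.mem_toFinset]
    refine ⟨hx, ?_⟩
    rw [Metric.mem_closedBall, dist_eq_norm]
    have h1 := hxK.1
    have h3 : x - v = y - (v + y - x) := by abel
    rw [h3]
    refine (norm_sub_le _ _).trans ?_
    linarith
  have hx' : rd n (x - v) ∈ X' := mem_image_of_mem _ hxF
  have h2 := norm_sub_rd_le hn0 (x - v)
  have h4 : (v + y - x) - (y - rd n (x - v)) = -((x - v) - rd n (x - v)) := by abel
  have hclose : ‖(v + y - x) - (y - rd n (x - v))‖ ≤ mesh n * √n := by
    rw [h4, norm_neg]; exact h2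
  have hnorm : ‖y - rd n (x - v)‖ ≤ 1 + eta n := by
    have h5 : y - rd n (x - v) = (v + y - x) - ((v + y - x) - (y - rd n (x - v))) := by abel
    rw [h5]
    refine (norm_sub_le _ _).trans ?_
    have := hxK.1
    linarith
  obtain ⟨w, hw, hmem⟩ := hyx _ hx' hnorm
  exact not_mem_KB hn hw (htpos w hw) hmem hclose hxK

end Crest.Agent.R225.LB.Body
end

-- ▼ part R225/LB/Main

/-!
S0348 from `config_prob` (hypothesis) and `nu_kill_le` (hypothesis).
-/

set_option autoImplicit false

namespace Crest.Agent.R225.LB.Body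

open MeasureTheory ProbabilityTheory Filter Crest.Agent.R225.LB
open Crest.Agent.R225.LB.Grid
open scoped ENNReal

/-- The statement in Euclidean space. -/
theorem main_EE (c : ℝ) (hc : 0 < c) (hCP : ∀ᶠ n : ℕ in atTop, CP c n)
    (hB2 : ∀ᶠ n : ℕ in atTop, B2 n) :
    ∀ᶠ n : ℕ in atTop, ∃ K : Set (EE n), IsCompact K ∧ Convex ℝ K ∧ (interior K).Nonempty ∧
      (∀ x ∈ K, -x ∈ K) ∧
      ∀ X : Set (EE n), (∀ R : ℝ, (X ∩ {x | ∀ i, |x i| ≤ R}).Finite) →
        (∀ y : EE n, ∃ x ∈ X, y - x ∈ K) →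
        ENNReal.ofReal (c / 2400 * n * Real.log n) ≤
          volume K * limsup (fun R : ℝ => ((X ∩ {x | ∀ i, |x i| ≤ R}).ncard : ℝ≥0∞) /
            ENNReal.ofReal ((2 * R) ^ n)) atTop := by
  filter_upwards [exists_good c hCP hB2, le_density hc] with n h1 h2
  obtain ⟨hn, t, htpos, hvol, hgood⟩ := h1
  have hVB := VB_pos n
  refine ⟨KB n t, isCompact_KB n t, convex_KB n t, interior_KB_nonempty hn t,
    fun x hx => neg_mem_KB hx, fun X hX hcov => ?_⟩
  have h3 := h2 t htpos hgood X hX hcov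
  have h4 : ENNReal.ofReal (VB n / 60) ≤ volume (KB n t) := by
    rw [← ofReal_measureReal (volume_KB_lt_top n t).ne]
    exact ENNReal.ofReal_le_ofReal hvol
  calc ENNReal.ofReal (c / 2400 * n * Real.log n)
      = ENNReal.ofReal (VB n / 60) * ENNReal.ofReal (c / 40 * n * Real.log n / VB n) := by
        rw [← ENNReal.ofReal_mul (by positivity)]
        congr 1
        field_simp
        ring
    _ ≤ _ := mul_le_mul' h4 h3

/-- The statement in `Fin n → ℝ`. -/
theorem main_pi (c : ℝ) (hc : 0 < c) (hCP : ∀ᶠ n : ℕ in atTop, CP c n)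
    (hB2 : ∀ᶠ n : ℕ in atTop, B2 n) :
    ∃ c : ℝ, 0 < c ∧ ∃ n₀ : ℕ, ∀ n : ℕ, n₀ ≤ n →
      ∃ K : Set (Fin n → ℝ), IsCompact K ∧ Convex ℝ K ∧ (interior K).Nonempty ∧
        (∀ x ∈ K, -x ∈ K) ∧
        ∀ X : Set (Fin n → ℝ), (∀ R : ℝ, (X ∩ {x | ∀ i, |x i| ≤ R}).Finite) →
          (∀ y : Fin n → ℝ, ∃ x ∈ X, y - x ∈ K) →
          ENNReal.ofReal (c * n * Real.log n) ≤
            volume K * limsup (fun R : ℝ => ((X ∩ {x | ∀ i, |x i| ≤ R}).ncard : ℝ≥0∞) /
              ENNReal.ofReal ((2 * R) ^ n)) atTop := by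
  refine ⟨c / 2400, by positivity, ?_⟩
  obtain ⟨n₀, h⟩ := eventually_atTop.1 (main_EE c hc hCP hB2)
  refine ⟨n₀, fun n hn => ?_⟩
  obtain ⟨K, hK1, hK2, hK3, hK4, hK5⟩ := h n hn
  set e : EE n ≃L[ℝ] (Fin n → ℝ) := EuclideanSpace.equiv (Fin n) ℝ with he
  have hpre : e '' K = e.symm ⁻¹' K := by
    exact e.image_eq_preimage_symm K
  refine ⟨e '' K, hK1.image e.continuous, hK2.linear_image e.toLinearMap, ?_, ?_, ?_⟩
  · obtain ⟨x, hx⟩ := hK3
    refine ⟨e x, ?_⟩
    have := e.toHomeomorph.image_interior K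
    have h2 : e x ∈ e '' interior K := Set.mem_image_of_mem _ hx
    have h3 : (e : EE n → (Fin n → ℝ)) '' interior K = interior ((e : EE n → (Fin n → ℝ)) '' K) :=
      this
    rwa [h3] at h2
  · rintro _ ⟨x, hx, rfl⟩
    exact ⟨-x, hK4 x hx, map_neg e x⟩
  · intro X hX hcov
    have happ : ∀ (x : EE n) (i : Fin n), e x i = x i := fun x i => rfl
    have hset : ∀ R : ℝ, (e ⁻¹' X) ∩ {x : EE n | ∀ i, |x i| ≤ R} =
        e ⁻¹' (X ∩ {x | ∀ i, |x i| ≤ R}) := by
      intro R
      ext x
      simp only [Set.mem_inter_iff, Set.mem_preimage, Set.mem_setOf_eq, happ]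
    have hinj : Function.Injective e := e.injective
    have hncard : ∀ R : ℝ, ((e ⁻¹' X) ∩ {x : EE n | ∀ i, |x i| ≤ R}).ncard =
        (X ∩ {x | ∀ i, |x i| ≤ R}).ncard := by
      intro R
      rw [hset R]
      exact Set.ncard_preimage_of_injective_subset_range hinj
        (fun x _ => e.surjective x)
    have h5 := hK5 (e ⁻¹' X) (fun R => by
      rw [hset R]
      exact (hX R).preimage hinj.injOn) (fun y => by
      obtain ⟨x, hx, k, hk, hkx⟩ := hcov (e y)
      refine ⟨e.symm x, by simpa using hx, ?_⟩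
      have : y - e.symm x = k := by
        apply hinj
        rw [map_sub, e.apply_symm_apply, hkx]
      rwa [this])
    simp only [hncard] at h5
    have hvol : volume (e '' K) = volume K := by
      rw [hpre]
      exact (PiLp.volume_preserving_toLp (Fin n)).measure_preimage
        hK1.measurableSet.nullMeasurableSet
    rw [hvol]
    exact h5

end Crest.Agent.R225.LB.Body
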